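import Vale.Agent.P366M.Cd

/-!
# P366M: the algebraic and the first order quantities in a chart
-/

open MeasureTheory Metric Filter Topology Set Matrix
open scoped ContDiff
open Vale.Agent.P366 Vale.Agent.P366.Stmt Vale.Agent.P366Z

noncomputable section

namespace Vale.Agent.P366M

section alg

variable {n : ℕ} {A B : Matrix (Fin n) (Fin n) ℝ}

theorem pair_eq (U K : Matrix (Fin n) (Fin n) ℝ) : ∑ i, ∑ j, U i j * K i j = (U * Kᵀ).trace := by
  simp [Matrix.trace, Matrix.mul_apply]

theorem pair_inv (h : A * B = 1) (U K : Matrix (Fin n) (Fin n) ℝ) :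
    ∑ i, ∑ j, (B * U * Bᵀ) i j * (Aᵀ * K * A) i j = ∑ i, ∑ j, U i j * K i j := by
  have h' : Bᵀ * Aᵀ = 1 := by rw [← Matrix.transpose_mul, h, Matrix.transpose_one]
  rw [pair_eq, pair_eq, Matrix.transpose_mul, Matrix.transpose_mul, Matrix.transpose_transpose,
    show B * U * Bᵀ * (Aᵀ * (Kᵀ * A)) = B * (U * (Bᵀ * Aᵀ) * Kᵀ * A) by
      simp only [Matrix.mul_assoc], h', Matrix.trace_mul_comm, Matrix.mul_assoc _ A, h,
    Matrix.mul_one, Matrix.mul_one]

theorem quad_dot (U : Matrix (Fin n) (Fin n) ℝ) (w z : Fin n → ℝ) :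
    ∑ i, ∑ j, U i j * w i * z j = w ⬝ᵥ (U *ᵥ z) := by
  simp only [dotProduct, mulVec, Finset.mul_sum]
  exact Finset.sum_congr rfl fun i _ => Finset.sum_congr rfl fun j _ => by ring

theorem dot_inv (h : A * B = 1) (w z : Fin n → ℝ) : (Aᵀ *ᵥ w) ⬝ᵥ (B *ᵥ z) = w ⬝ᵥ z := by
  rw [Matrix.mulVec_transpose, ← Matrix.dotProduct_mulVec, Matrix.mulVec_mulVec, h,
    Matrix.one_mulVec]

theorem raise_inv (h : A * B = 1) (U : Matrix (Fin n) (Fin n) ℝ) (w : Fin n → ℝ) :
    (B * U * Bᵀ) *ᵥ (Aᵀ *ᵥ w) = B *ᵥ (U *ᵥ w) := by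
  rw [Matrix.mulVec_mulVec, Matrix.mul_assoc, ← Matrix.transpose_mul, h, Matrix.transpose_one,
    Matrix.mul_one, Matrix.mulVec_mulVec]

theorem lower_inv (h : A * B = 1) (T : Matrix (Fin n) (Fin n) ℝ) (z : Fin n → ℝ) :
    (Aᵀ * T * A) *ᵥ (B *ᵥ z) = Aᵀ *ᵥ (T *ᵥ z) := by
  rw [Matrix.mulVec_mulVec, Matrix.mul_assoc, h, Matrix.mul_one, Matrix.mulVec_mulVec]

theorem nsq_eq (U K : Matrix (Fin n) (Fin n) ℝ) :
    ∑ i, ∑ j, ∑ k, ∑ l, U i k * U j l * K i j * K k l = ∑ i, ∑ j, (U * K * Uᵀ) i j * K i j := by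
  refine Finset.sum_congr rfl fun i _ => Finset.sum_congr rfl fun j _ => ?_
  rw [← sum2_eq', Finset.sum_mul]
  refine Finset.sum_congr rfl fun k _ => ?_
  rw [Finset.sum_mul]
  exact Finset.sum_congr rfl fun l _ => by ring

end alg

variable {n : ℕ} {M : Type} [Mf0 n M] {e : Ch n M} {x : M} {y : E n} {g K T S : Fld n M}
  {f u v U F : M → ℝ} {X Y w z : Fin n → M → ℝ} {m : WithTop ℕ∞}

/-! ### linear operations -/

theorem rep_add (e : Ch n M) (T S : Fld n M) : rep e (fun x i j => T x i j + S x i j) =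
    fun y i j => rep e T y i j + rep e S y i j := by
  funext y i j; simp only [rep, mul_add, Finset.sum_add_distrib]

theorem rep_sub (e : Ch n M) (T S : Fld n M) : rep e (fun x i j => T x i j - S x i j) =
    fun y i j => rep e T y i j - rep e S y i j := by
  funext y i j; simp only [rep, mul_sub, Finset.sum_sub_distrib]

theorem rep_neg (e : Ch n M) (T : Fld n M) : rep e (fun x i j => -T x i j) =
    fun y i j => -rep e T y i j := by
  funext y i j; simp only [rep, mul_neg, Finset.sum_neg_distrib]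

theorem rep_smul (e : Ch n M) (f : M → ℝ) (T : Fld n M) : rep e (fun x i j => f x * T x i j) =
    fun y i j => loc e f y * rep e T y i j := by
  funext y i j; simp only [rep, loc, Finset.mul_sum, mul_left_comm]

theorem rep_zero (e : Ch n M) : rep e (fun _ _ _ => 0) = fun _ _ _ => 0 := by
  funext y i j; simp only [rep, mul_zero, Finset.sum_const_zero]

theorem rep_swap (e : Ch n M) (T : Fld n M) : rep e (fun x i j => T x j i) =
    fun y i j => rep e T y j i := by
  funext y i j
  unfold rep
  rw [Finset.sum_comm]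
  exact Finset.sum_congr rfl fun k _ => Finset.sum_congr rfl fun l _ => by ring

theorem rep_sum {ι : Type*} (s : Finset ι) (e : Ch n M) (T : ι → Fld n M) :
    rep e (fun x i j => ∑ a ∈ s, T a x i j) = fun y i j => ∑ a ∈ s, rep e (T a) y i j := by
  funext y i j
  simp only [rep, Finset.mul_sum]
  rw [Finset.sum_comm (s := s)]
  exact Finset.sum_congr rfl fun k _ => Finset.sum_comm

theorem rep_prod (e : Ch n M) (w z : Fin n → M → ℝ) : rep e (fun x i j => w i x * z j x) =
    fun y i j => repC e w i y * repC e z j y := by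
  funext y i j
  simp only [rep, repC, Finset.sum_mul_sum]
  exact Finset.sum_congr rfl fun k _ => Finset.sum_congr rfl fun l _ => by ring

theorem rep_sy (h : ∀ x i j, T x i j = T x j i) (e : Ch n M) (y : E n) (i j : Fin n) :
    rep e T y i j = rep e T y j i := by
  rw [← congrFun (congrFun (congrFun (rep_swap e T) y) i) j]
  simp only [h _ _ _]

theorem repU_add (e : Ch n M) (T S : Fld n M) : repU e (fun x i j => T x i j + S x i j) =
    fun y i j => repU e T y i j + repU e S y i j := by
  funext y i j; simp only [repU, mul_add, Finset.sum_add_distrib]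

theorem repU_sub (e : Ch n M) (T S : Fld n M) : repU e (fun x i j => T x i j - S x i j) =
    fun y i j => repU e T y i j - repU e S y i j := by
  funext y i j; simp only [repU, mul_sub, Finset.sum_sub_distrib]

theorem repU_smul (e : Ch n M) (f : M → ℝ) (T : Fld n M) : repU e (fun x i j => f x * T x i j) =
    fun y i j => loc e f y * repU e T y i j := by
  funext y i j; simp only [repU, loc, Finset.mul_sum, mul_left_comm]

theorem repU_prod (e : Ch n M) (X Y : Fin n → M → ℝ) : repU e (fun x i j => X i x * Y j x) =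
    fun y i j => repV e X i y * repV e Y j y := by
  funext y i j
  simp only [repU, repV, Finset.sum_mul_sum]
  exact Finset.sum_congr rfl fun k _ => Finset.sum_congr rfl fun l _ => by ring

theorem repV_add (e : Ch n M) (X Y : Fin n → M → ℝ) : repV e (fun i x => X i x + Y i x) =
    fun i y => repV e X i y + repV e Y i y := by
  funext i y; simp only [repV, mul_add, Finset.sum_add_distrib]

theorem repV_sub (e : Ch n M) (X Y : Fin n → M → ℝ) : repV e (fun i x => X i x - Y i x) =
    fun i y => repV e X i y - repV e Y i y := by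
  funext i y; simp only [repV, mul_sub, Finset.sum_sub_distrib]

theorem repV_neg (e : Ch n M) (X : Fin n → M → ℝ) : repV e (fun i x => -X i x) =
    fun i y => -repV e X i y := by
  funext i y; simp only [repV, mul_neg, Finset.sum_neg_distrib]

theorem repV_smul (e : Ch n M) (f : M → ℝ) (X : Fin n → M → ℝ) :
    repV e (fun i x => f x * X i x) = fun i y => loc e f y * repV e X i y := by
  funext i y; simp only [repV, loc, Finset.mul_sum, mul_left_comm]

theorem repV_div (e : Ch n M) (f : M → ℝ) (X : Fin n → M → ℝ) :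
    repV e (fun i x => X i x / f x) = fun i y => repV e X i y / loc e f y := by
  funext i y; simp only [repV, loc, Finset.sum_div, mul_div_assoc]

theorem repV_zero (e : Ch n M) : repV e (fun _ _ => 0) = fun _ _ => 0 := by
  funext i y; simp only [repV, mul_zero, Finset.sum_const_zero]

theorem repV_sum {ι : Type*} (s : Finset ι) (e : Ch n M) (X : ι → Fin n → M → ℝ) :
    repV e (fun i x => ∑ a ∈ s, X a i x) = fun i y => ∑ a ∈ s, repV e (X a) i y := by
  funext i y
  simp only [repV, Finset.mul_sum]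
  exact Finset.sum_comm

theorem repC_add (e : Ch n M) (w z : Fin n → M → ℝ) : repC e (fun i x => w i x + z i x) =
    fun i y => repC e w i y + repC e z i y := by
  funext i y; simp only [repC, mul_add, Finset.sum_add_distrib]

theorem repC_sub (e : Ch n M) (w z : Fin n → M → ℝ) : repC e (fun i x => w i x - z i x) =
    fun i y => repC e w i y - repC e z i y := by
  funext i y; simp only [repC, mul_sub, Finset.sum_sub_distrib]

theorem repC_neg (e : Ch n M) (w : Fin n → M → ℝ) : repC e (fun i x => -w i x) =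
    fun i y => -repC e w i y := by
  funext i y; simp only [repC, mul_neg, Finset.sum_neg_distrib]

theorem repC_smul (e : Ch n M) (f : M → ℝ) (w : Fin n → M → ℝ) :
    repC e (fun i x => f x * w i x) = fun i y => loc e f y * repC e w i y := by
  funext i y; simp only [repC, loc, Finset.mul_sum, mul_left_comm]

theorem repC_sum {ι : Type*} (s : Finset ι) (e : Ch n M) (w : ι → Fin n → M → ℝ) :
    repC e (fun i x => ∑ a ∈ s, w a i x) = fun i y => ∑ a ∈ s, repC e (w a) i y := by
  funext i y
  simp only [repC, Finset.mul_sum]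
  exact Finset.sum_comm

/-! ### contractions -/

theorem dot_rep (he : e ∈ At M) (w X : Fin n → M → ℝ) (y : E n) :
    ∑ i, repC e w i y * repV e X i y = ∑ i, w i (e.symm y) * X i (e.symm y) :=
  dot_inv (J_mul_inv he y) _ _

theorem pair_rep (he : e ∈ At M) (a T : Fld n M) (y : E n) :
    ∑ i, ∑ j, repU e a y i j * rep e T y i j = ∑ i, ∑ j, a (e.symm y) i j * T (e.symm y) i j := by
  have := pair_inv (J_mul_inv he y) (mat a (e.symm y)) (mat T (e.symm y))
  rwa [← mat_rep, ← mat_repU] at this

theorem lower_rep (he : e ∈ At M) (T : Fld n M) (X : Fin n → M → ℝ) :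
    repC e (fun j x => ∑ k, T x j k * X k x) = fun j y => ∑ k, rep e T y j k * repV e X k y := by
  funext j y
  have := lower_inv (J_mul_inv he y) (mat T (e.symm y)) fun k => X k (e.symm y)
  rw [← mat_rep] at this
  exact (congrFun this j).symm

theorem raise_rep (he : e ∈ At M) (a : Fld n M) (w : Fin n → M → ℝ) :
    repV e (fun i x => ∑ j, a x i j * w j x) = fun i y => ∑ j, repU e a y i j * repC e w j y := by
  funext i y
  have := raise_inv (J_mul_inv he y) (mat a (e.symm y)) fun k => w k (e.symm y)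
  rw [← mat_repU] at this
  exact (congrFun this i).symm

theorem quad_rep (he : e ∈ At M) (T : Fld n M) (X Y : Fin n → M → ℝ) (y : E n) :
    ∑ i, ∑ j, rep e T y i j * repV e X i y * repV e Y j y =
      ∑ i, ∑ j, T (e.symm y) i j * X i (e.symm y) * Y j (e.symm y) := by
  have := pair_rep he (fun x i j => X i x * Y j x) T y
  simp only [repU_prod] at this
  simpa only [mul_comm, mul_left_comm, mul_assoc] using this

theorem quadU_rep (he : e ∈ At M) (a : Fld n M) (w z : Fin n → M → ℝ) (y : E n) :
    ∑ i, ∑ j, repU e a y i j * repC e w i y * repC e z j y =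
      ∑ i, ∑ j, a (e.symm y) i j * w i (e.symm y) * z j (e.symm y) := by
  have := pair_rep he a (fun x i j => w i x * z j x) y
  simp only [rep_prod] at this
  simpa only [mul_assoc] using this

theorem up_rep (e : Ch n M) (g : Fld n M) (i j : Fin n) (y : E n) :
    Stmt.up (rep e g) i j y = repU e (fun x i j => up g i j x) y i j := by
  have h : (Stmt.mat (rep e g) y)⁻¹ = Stmt.mat (repU e fun x i j => up g i j x) y := by
    rw [mat_rep, mat_repU, Matrix.mul_inv_rev, Matrix.mul_inv_rev, ← Matrix.transpose_nonsing_inv,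
      Matrix.mul_assoc]
    rfl
  exact congrFun (congrFun h i) j

theorem tr_rep (he : e ∈ At M) (g K : Fld n M) (y : E n) :
    Stmt.tr (rep e g) (rep e K) y = tr g K (e.symm y) := by
  unfold Stmt.tr
  simp only [up_rep]
  exact pair_rep he _ _ y

theorem normSq_rep (he : e ∈ At M) (g K : Fld n M) (y : E n) :
    Stmt.normSq (rep e g) (rep e K) y = normSq g K (e.symm y) := by
  have h := J_mul_inv he y
  have h' : ((J e y)⁻¹)ᵀ * (J e y)ᵀ = 1 := by
    rw [← Matrix.transpose_mul, h, Matrix.transpose_one]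
  have h1 := nsq_eq (Stmt.mat (repU e fun x i j => up g i j x) y) (Stmt.mat (rep e K) y)
  have h2 := nsq_eq (mat (fun x i j => up g i j x) (e.symm y)) (mat K (e.symm y))
  unfold Stmt.normSq
  simp only [up_rep]
  refine h1.trans (Eq.trans ?_ h2.symm)
  refine Eq.trans ?_ (pair_inv h _ _)
  rw [mat_rep, mat_repU]
  congr! 3
  simp only [Matrix.transpose_mul, Matrix.transpose_transpose, Matrix.mul_assoc]
  rw [← Matrix.mul_assoc _ (J e y)ᵀ, h', Matrix.one_mul, ← Matrix.mul_assoc (J e y), h,
    Matrix.one_mul]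

theorem covNorm_rep (he : e ∈ At M) (g : Fld n M) (w : Fin n → M → ℝ) (y : E n) :
    Stmt.covNorm (rep e g) (repC e w) y = covNorm g w (e.symm y) := by
  unfold Stmt.covNorm
  simp only [up_rep]
  rw [quadU_rep he]
  rfl

theorem momT_rep (he : e ∈ At M) (g K : Fld n M) :
    Stmt.momT (rep e g) (rep e K) = rep e (momT g K) := by
  unfold momT
  rw [rep_sub, rep_smul]
  funext y i j
  unfold Stmt.momT
  rw [tr_rep he]
  rfl

theorem rep_cf (e : Ch n M) (U : M → ℝ) (g : Fld n M) :
    rep e (cf U g) = P366Z.cf (loc e U) (rep e g) := rep_smul e (fun x => U x ^ (2 * bb n)) g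

theorem Met.rep (hg : Met g) (he : e ∈ At M) : P366Z.Met (rep e g) where
  sm := hg.sm e he
  sy := rep_sy hg.sy e
  pos y := by
    rw [mat_rep]
    exact (hg.pos _).conjTranspose_mul_mul_same (B := J e y)
      (Matrix.mulVec_injective_of_isUnit ((Matrix.isUnit_iff_isUnit_det _).2 (J_unit he y)))

theorem Met.loc' (hg : Met g) (x : M) : P366Z.Met (P366M.rep (ch x) g) := hg.rep (ch_mem x)

theorem dens_rep (e : Ch n M) (g : Fld n M) (y : E n) :
    P366Z.dens (rep e g) y = |(J e y).det| * √(mat g (e.symm y)).det := by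
  unfold P366Z.dens
  rw [mat_rep, Matrix.det_mul, Matrix.det_mul, Matrix.det_transpose, ← Real.sqrt_sq_eq_abs,
    ← Real.sqrt_mul (sq_nonneg _)]
  congr 1
  ring

/-! ### first derivatives -/

theorem pd_rep (he : e ∈ At M) (hf : DAt f (e.symm y)) (i : Fin n) :
    Stmt.pd i (loc e f) y = repC e (fun j => pd j f) i y := by
  rw [P366Z.pd_congr (loc_tm f he (mem_ch _))]
  exact pd_chain (τ := tm e (ch (e.symm y))) hf (tm_diff he (ch_mem _) (mem_ch _)) i

theorem ip_rep (he : e ∈ At M) (g : Fld n M) (hu : DAt u (e.symm y)) (hv : DAt v (e.symm y)) :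
    P366Z.ip (rep e g) (loc e u) (loc e v) y = ip g u v (e.symm y) := by
  unfold P366Z.ip
  simp only [up_rep, pd_rep he hu, pd_rep he hv]
  exact quadU_rep he _ _ _ y

theorem gn_rep (he : e ∈ At M) (g : Fld n M) (hu : DAt u (e.symm y)) :
    P366Z.gn (rep e g) (loc e u) y = gn g u (e.symm y) := by
  unfold P366Z.gn
  rw [ip_rep he g hu hu]
  rfl

theorem gr_rep (he : e ∈ At M) (g : Fld n M) (hu : DAt u (e.symm y)) (i : Fin n) :
    P366Z.gr (rep e g) (loc e u) i y = repV e (gr g u) i y := by
  unfold P366Z.gr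
  simp only [up_rep, pd_rep he hu]
  exact (congrFun (congrFun (raise_rep he (fun x i j => up g i j x) fun j => pd j u) i) y).symm

theorem covNorm_pd_rep (he : e ∈ At M) (g : Fld n M) (hF : DAt F (e.symm y)) :
    Stmt.covNorm (rep e g) (fun j => Stmt.pd j (loc e F)) y =
      covNorm g (fun j => pd j F) (e.symm y) := gn_rep he g hF

theorem nrm_rep (he : e ∈ At M) (g : Fld n M) (hF : DAt F (e.symm y)) (i : Fin n) :
    Stmt.nrm (rep e g) (loc e F) i y = repV e (nrm g F) i y := by
  unfold Stmt.nrm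
  rw [covNorm_pd_rep he g hF]
  have := congrFun (congrFun (repV_div e (covNorm g fun j => pd j F) (gr g F)) i) y
  rw [← gr_rep he g hF] at this
  exact this.symm

theorem trS_rep (he : e ∈ At M) (g K : Fld n M) (hF : DAt F (e.symm y)) :
    Stmt.trS (rep e g) (rep e K) (loc e F) y = trS g K F (e.symm y) := by
  unfold Stmt.trS
  simp only [nrm_rep he g hF, tr_rep he, quad_rep he]
  rfl

/-! ### the values in the preferred chart -/

theorem mat_pt (g : Fld n M) (x : M) : Stmt.mat (rep (ch x) g) (pt x) = mat g x := rep_pt g x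

theorem up_pt (g : Fld n M) (i j : Fin n) (x : M) :
    Stmt.up (rep (ch x) g) i j (pt x) = up g i j x := by
  unfold Stmt.up; rw [mat_pt]; rfl

theorem ip_pt (g : Fld n M) (u v : M → ℝ) (x : M) :
    P366Z.ip (rep (ch x) g) (loc (ch x) u) (loc (ch x) v) (pt x) = ip g u v x := by
  unfold P366Z.ip; simp only [up_pt]; rfl

theorem gn_pt (g : Fld n M) (u : M → ℝ) (x : M) :
    P366Z.gn (rep (ch x) g) (loc (ch x) u) (pt x) = gn g u x := by
  unfold P366Z.gn; rw [ip_pt]; rfl

theorem gr_pt (g : Fld n M) (u : M → ℝ) (i : Fin n) (x : M) :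
    P366Z.gr (rep (ch x) g) (loc (ch x) u) i (pt x) = gr g u i x := by
  unfold P366Z.gr; simp only [up_pt]; rfl

theorem tr_pt (g K : Fld n M) (x : M) : Stmt.tr (rep (ch x) g) (rep (ch x) K) (pt x) = tr g K x := by
  rw [tr_rep (ch_mem x), symm_pt]

theorem normSq_pt (g K : Fld n M) (x : M) :
    Stmt.normSq (rep (ch x) g) (rep (ch x) K) (pt x) = normSq g K x := by
  rw [normSq_rep (ch_mem x), symm_pt]

theorem hess_pt (g : Fld n M) (u : M → ℝ) (x : M) :
    Stmt.hess (rep (ch x) g) (loc (ch x) u) (pt x) = hess g u x := rfl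

theorem mu_pt (g K : Fld n M) (x : M) : Stmt.mu (rep (ch x) g) (rep (ch x) K) (pt x) = mu g K x := by
  unfold Stmt.mu; rw [tr_pt, normSq_pt]; rfl

theorem nrm_pt (g : Fld n M) (F : M → ℝ) (i : Fin n) (x : M) :
    Stmt.nrm (rep (ch x) g) (loc (ch x) F) i (pt x) = nrm g F i x := by
  unfold Stmt.nrm Stmt.covNorm; simp only [up_pt]; rfl

theorem thetaPlus_pt (g K : Fld n M) (F : M → ℝ) (x : M) :
    Stmt.thetaPlus (rep (ch x) g) (rep (ch x) K) (loc (ch x) F) (pt x) = thetaPlus g K F x := by
  unfold Stmt.thetaPlus Stmt.trS Stmt.tr Stmt.covNorm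
  simp only [up_pt, nrm_pt, hess_pt, rep_pt]
  rfl

theorem cl_pt (g : Fld n M) (v : M → ℝ) (x : M) :
    P366Z.cl (rep (ch x) g) (loc (ch x) v) (pt x) = cl g v x := by
  unfold P366Z.cl; rw [loc_pt]; rfl

theorem covNorm_mom_pt (g K : Fld n M) (x : M) :
    Stmt.covNorm (rep (ch x) g) (Stmt.mom (rep (ch x) g) (rep (ch x) K)) (pt x) =
      covNorm g (mom g K) x := by
  unfold Stmt.covNorm; simp only [up_pt]; rfl

/-! ### smooth tensors -/

theorem SmT.add (hT : SmT T) (hS : SmT S) : SmT fun x i j => T x i j + S x i j :=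
  fun e he i j => by rw [rep_add]; exact ContDiff.add (hT e he i j) (hS e he i j)

theorem SmT.sub (hT : SmT T) (hS : SmT S) : SmT fun x i j => T x i j - S x i j :=
  fun e he i j => by rw [rep_sub]; exact ContDiff.sub (hT e he i j) (hS e he i j)

theorem SmT.neg (hT : SmT T) : SmT fun x i j => -T x i j :=
  fun e he i j => by rw [rep_neg]; exact ContDiff.neg (hT e he i j)

theorem SmT.smul (hf : Smooth f) (hT : SmT T) : SmT fun x i j => f x * T x i j :=
  fun e he i j => by rw [rep_smul]; exact ContDiff.mul (hf e he) (hT e he i j)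

theorem smT_zero : SmT (fun _ _ _ => 0 : Fld n M) :=
  fun e _ i j => by rw [rep_zero]; exact contDiff_const

theorem SmT.swap (hT : SmT T) : SmT fun x i j => T x j i :=
  fun e he i j => by rw [rep_swap]; exact hT e he j i

theorem SmT.sum {ι : Type*} {s : Finset ι} {T : ι → Fld n M} (h : ∀ a ∈ s, SmT (T a)) :
    SmT fun x i j => ∑ a ∈ s, T a x i j :=
  fun e he i j => by rw [rep_sum]; exact ContDiff.sum fun a ha => h a ha e he i j

theorem SmT.prod (hw : CC ∞ w) (hz : CC ∞ z) : SmT fun x i j => w i x * z j x :=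
  fun e he i j => by rw [rep_prod]; exact ContDiff.mul (hw e he i) (hz e he j)

theorem SmU.add (hT : SmU T) (hS : SmU S) : SmU fun x i j => T x i j + S x i j :=
  fun e he i j => by rw [repU_add]; exact ContDiff.add (hT e he i j) (hS e he i j)

theorem SmU.sub (hT : SmU T) (hS : SmU S) : SmU fun x i j => T x i j - S x i j :=
  fun e he i j => by rw [repU_sub]; exact ContDiff.sub (hT e he i j) (hS e he i j)

theorem SmU.smul (hf : Smooth f) (hT : SmU T) : SmU fun x i j => f x * T x i j :=
  fun e he i j => by rw [repU_smul]; exact ContDiff.mul (hf e he) (hT e he i j)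

theorem SmU.prod (hX : CV ∞ X) (hY : CV ∞ Y) : SmU fun x i j => X i x * Y j x :=
  fun e he i j => by rw [repU_prod]; exact ContDiff.mul (hX e he i) (hY e he j)

theorem CV.of_le {k : WithTop ℕ∞} (hX : CV m X) (h : k ≤ m) : CV k X := fun e he i =>
  (hX e he i).of_le h

theorem CV.add (hX : CV m X) (hY : CV m Y) : CV m fun i x => X i x + Y i x :=
  fun e he i => by rw [repV_add]; exact ContDiff.add (hX e he i) (hY e he i)

theorem CV.sub (hX : CV m X) (hY : CV m Y) : CV m fun i x => X i x - Y i x :=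
  fun e he i => by rw [repV_sub]; exact ContDiff.sub (hX e he i) (hY e he i)

theorem CV.neg (hX : CV m X) : CV m fun i x => -X i x :=
  fun e he i => by rw [repV_neg]; exact ContDiff.neg (hX e he i)

theorem CV.smul (hf : CD m f) (hX : CV m X) : CV m fun i x => f x * X i x :=
  fun e he i => by rw [repV_smul]; exact ContDiff.mul (hf e he) (hX e he i)

theorem CV.div (hX : CV m X) (hf : CD m f) (h0 : ∀ x, f x ≠ 0) : CV m fun i x => X i x / f x :=
  fun e he i => by rw [repV_div]; exact ContDiff.div (hX e he i) (hf e he) fun _ => h0 _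

theorem cv_zero : CV m (fun _ _ => 0 : Fin n → M → ℝ) :=
  fun e _ i => by rw [repV_zero]; exact contDiff_const

theorem CV.sum {ι : Type*} {s : Finset ι} {X : ι → Fin n → M → ℝ} (h : ∀ a ∈ s, CV m (X a)) :
    CV m fun i x => ∑ a ∈ s, X a i x :=
  fun e he i => by rw [repV_sum]; exact ContDiff.sum fun a ha => h a ha e he i

theorem CC.of_le {k : WithTop ℕ∞} (hw : CC m w) (h : k ≤ m) : CC k w := fun e he i =>
  (hw e he i).of_le h

theorem CC.add (hw : CC m w) (hz : CC m z) : CC m fun i x => w i x + z i x :=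
  fun e he i => by rw [repC_add]; exact ContDiff.add (hw e he i) (hz e he i)

theorem CC.sub (hw : CC m w) (hz : CC m z) : CC m fun i x => w i x - z i x :=
  fun e he i => by rw [repC_sub]; exact ContDiff.sub (hw e he i) (hz e he i)

theorem CC.neg (hw : CC m w) : CC m fun i x => -w i x :=
  fun e he i => by rw [repC_neg]; exact ContDiff.neg (hw e he i)

theorem CC.smul (hf : CD m f) (hw : CC m w) : CC m fun i x => f x * w i x :=
  fun e he i => by rw [repC_smul]; exact ContDiff.mul (hf e he) (hw e he i)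

theorem CC.sum {ι : Type*} {s : Finset ι} {w : ι → Fin n → M → ℝ} (h : ∀ a ∈ s, CC m (w a)) :
    CC m fun i x => ∑ a ∈ s, w a i x :=
  fun e he i => by rw [repC_sum]; exact ContDiff.sum fun a ha => h a ha e he i

theorem repC_pd (he : e ∈ At M) (hf : ∀ x, DAt f x) :
    repC e (fun j => pd j f) = fun j => Stmt.pd j (loc e f) :=
  funext fun j => funext fun _ => (pd_rep he (hf _) j).symm

theorem CD.cc_pd {k : WithTop ℕ∞} (hf : CD m f) (hk : k + 1 ≤ m) : CC k fun j => pd j f :=
  fun e he i => by
    rw [repC_pd he (hf.differentiable fun h => by simp [h] at hk)]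
    exact P366Z.contDiff_pd (hf e he) hk i

theorem Smooth.cc_pd (hf : Smooth f) : CC ∞ fun j => pd j f := CD.cc_pd hf (by simp)

theorem smT_dd (hu : Smooth u) (hv : Smooth v) : SmT fun x i j => pd i u x * pd j v x :=
  SmT.prod hu.cc_pd hv.cc_pd

theorem CC.dot (hw : CC m w) (hX : CV m X) : CD m fun x => ∑ i, w i x * X i x := fun e he => by
  have : loc e (fun x => ∑ i, w i x * X i x) = fun y => ∑ i, repC e w i y * repV e X i y :=
    funext fun y => (dot_rep he w X y).symm
  rw [this]
  exact ContDiff.sum fun i _ => (hw e he i).mul (hX e he i)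

theorem SmT.lower (hT : SmT T) (hm : m ≤ ∞) (hX : CV m X) : CC m fun j x => ∑ k, T x j k * X k x :=
  fun e he j => by
    rw [lower_rep he]
    exact ContDiff.sum fun k _ => ((hT e he j k).of_le hm).mul (hX e he k)

theorem SmU.raise (hT : SmU T) (hm : m ≤ ∞) (hw : CC m w) : CV m fun i x => ∑ j, T x i j * w j x :=
  fun e he i => by
    rw [raise_rep he]
    exact ContDiff.sum fun j _ => ((hT e he i j).of_le hm).mul (hw e he j)

theorem SmU.pair (hS : SmU S) (hT : SmT T) : Smooth fun x => ∑ i, ∑ j, S x i j * T x i j :=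
  fun e he => by
    have : loc e (fun x => ∑ i, ∑ j, S x i j * T x i j) =
        fun y => ∑ i, ∑ j, repU e S y i j * rep e T y i j := funext fun y => (pair_rep he S T y).symm
    rw [this]
    exact ContDiff.sum fun i _ => ContDiff.sum fun j _ => ContDiff.mul (hS e he i j) (hT e he i j)

theorem SmT.quad (hT : SmT T) (hm : m ≤ ∞) (hX : CV m X) (hY : CV m Y) :
    CD m fun x => ∑ i, ∑ j, T x i j * X i x * Y j x := fun e he => by
  have : loc e (fun x => ∑ i, ∑ j, T x i j * X i x * Y j x) =
      fun y => ∑ i, ∑ j, rep e T y i j * repV e X i y * repV e Y j y :=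
    funext fun y => (quad_rep he T X Y y).symm
  rw [this]
  exact ContDiff.sum fun i _ => ContDiff.sum fun j _ =>
    (((hT e he i j).of_le hm).mul (hX e he i)).mul (hY e he j)

theorem Met.sm_up (hg : Met g) : SmU fun x i j => up g i j x := fun e he i j => by
  simp only [← up_rep]
  exact (hg.rep he).sm_up i j

theorem DV.smul (hf : DAt f x) (hX : DV X x) : DV (fun i x => f x * X i x) x := fun i => by
  rw [repV_smul]; exact DifferentiableAt.fun_mul hf (hX i)

theorem DV.add (hX : DV X x) (hY : DV Y x) : DV (fun i x => X i x + Y i x) x := fun i => by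
  rw [repV_add]; exact DifferentiableAt.fun_add (hX i) (hY i)

theorem DV.sub (hX : DV X x) (hY : DV Y x) : DV (fun i x => X i x - Y i x) x := fun i => by
  rw [repV_sub]; exact DifferentiableAt.fun_sub (hX i) (hY i)

theorem DV.div (hX : DV X x) (hf : DAt f x) (h0 : f x ≠ 0) : DV (fun i x => X i x / f x) x :=
  by simpa only [div_eq_inv_mul] using DV.smul (hf.fun_inv h0) hX

theorem DV.congr (hX : DV X x) (h : ∀ i, Y i =ᶠ[𝓝 x] X i) : DV Y x := fun i =>
  (hX i).congr_of_eventuallyEq (repV_congr_pt h i)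

end Vale.Agent.P366M
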