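import Vale.Agent.P366M.Inv2
import Vale.Agent.P366D.Parm

/-!
# P366M: admissible charts, smooth maps, pull-backs, local isometries
-/

open MeasureTheory Metric Filter Topology Set Matrix
open scoped ContDiff
open Vale.Agent.P366 Vale.Agent.P366.Stmt Vale.Agent.P366Z
open Vale.Agent.P366P (Ctx Chg C3 PT PC PV PF)
open Vale.Agent.P366D hiding Null Par Per Sub Lim
open Vale.Agent.P366N (Atl LD Cp)

noncomputable section

namespace Vale.Agent.P366M

/-! ### admissible charts -/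

section Charts

variable {n : ℕ} {M : Type} [Mf0 n M] {e c : Ch n M} {y : E n}

/-- the composition with a diffeomorphism from an open set onto the whole space -/
theorem At.trans (he : e ∈ At M) {θ : OpenPartialHomeomorph (E n) (E n)} (hθ : LD θ)
    (ht : θ.target = univ) : e.trans θ ∈ At M :=
  mem_At_iff.2 ⟨(mx_of_At he).trans hθ,
    eq_univ_of_forall fun y => ⟨ht ▸ mem_univ y, mem_tgt he _⟩⟩

theorem trans_symm (e : Ch n M) (θ : OpenPartialHomeomorph (E n) (E n)) (y : E n) :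
    (e.trans θ).symm y = e.symm (θ.symm y) := rfl

/-- an admissible chart which agrees with `e` on a ball and has a small source -/
theorem exists_shrink (he : e ∈ At M) (y : E n) {r : ℝ} (hr : 0 < r) : ∃ e' ∈ At M,
    (∀ z ∈ ball y r, e'.symm z = e.symm z) ∧ e'.source = e.symm '' ball y (2 * r) := by
  obtain ⟨θ, t1, t2, t3, t4⟩ := P366N.exists_ball y (show 0 < 2 * r by linarith)
  refine ⟨_, At.trans he t3 t2, fun z hz => ?_, ?_⟩
  · have h1 := t4 z (by rwa [mul_div_cancel_left₀ _ two_ne_zero])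
    rw [trans_symm]
    conv_lhs => rw [← h1]
    rw [θ.left_inv (t1 ▸ ball_subset_ball (by linarith) hz)]
  · ext p
    refine ⟨fun h => ⟨e p, t1 ▸ h.2, e.left_inv h.1⟩, ?_⟩
    rintro ⟨z, hz, rfl⟩
    exact ⟨symm_mem he z, by rw [mem_preimage, OpenPartialHomeomorph.symm_symm, right_inv he, t1]; exact hz⟩

/-- the germ of a compatible chart -/
theorem exists_germ (hc : (atl M).Mx c) {p : M} (hp : p ∈ c.source) {O : Set M} (hO : O ∈ 𝓝 p) :
    ∃ e ∈ At M, p ∈ e.source ∧ e.source ⊆ O ∩ c.source ∧ e p = c p ∧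
      ∃ r > 0, ball (c p) r ⊆ c.target ∧ ∀ y ∈ ball (c p) r, e.symm y = c.symm y := by
  obtain ⟨e, h1, h2, h3⟩ := hc.germ hp hO
  exact ⟨e, mem_At_iff.2 ⟨h1, h2⟩, h3⟩

theorem exists_small (he : e ∈ At M) (y : E n) {O : Set M} (hO : O ∈ 𝓝 (e.symm y)) :
    ∃ e' ∈ At M, e'.source ⊆ O ∧ ∃ r > 0, ∀ z ∈ ball y r, e'.symm z = e.symm z := by
  obtain ⟨e', h1, -, h2, -, r, hr, -, h3⟩ := exists_germ (mx_of_At he) (symm_mem he y) hO
  rw [right_inv he] at h3
  exact ⟨e', h1, fun p hp => (h2 hp).1, r, hr, h3⟩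

/-- the composition with a global diffeomorphism -/
theorem exists_diffeo (he : e ∈ At M) {σ : E n ≃ₜ E n} (h1 : ContDiff ℝ ∞ σ)
    (h2 : ContDiff ℝ ∞ σ.symm) :
    ∃ e' ∈ At M, (∀ z, e'.symm z = e.symm (σ z)) ∧ e'.source = e.source :=
  ⟨_, At.trans he (θ := σ.symm.toOpenPartialHomeomorph)
    ⟨fun _ _ => h2.contDiffAt, fun _ _ => h1.contDiffAt⟩ rfl, fun _ => rfl, by
      simp⟩

/-- the composition with an affine map -/
theorem exists_affine (he : e ∈ At M) (b : E n) (A : E n ≃L[ℝ] E n) :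
    ∃ e' ∈ At M, (∀ z, e'.symm z = e.symm (b + A z)) ∧ e'.source = e.source :=
  exists_diffeo he (σ := A.toHomeomorph.trans (Homeomorph.addLeft b))
    (contDiff_const.add A.contDiff)
    (A.symm.contDiff.comp (contDiff_const.add contDiff_id))

/-- the composition with a dilation -/
theorem exists_scale (he : e ∈ At M) (b : E n) {l : ℝ} (hl : l ≠ 0) :
    ∃ e' ∈ At M, (∀ z, e'.symm z = e.symm (b + l • z)) ∧ e'.source = e.source :=
  exists_affine he b (ContinuousLinearEquiv.smulLeft (R₁ := ℝ) (Units.mk0 l hl))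

end Charts

/-! ### maps from Euclidean spaces -/

section SmP

variable {l k n : ℕ} {M : Type} [Mf0 n M] {Y Y' : E k → M} {y : E k} {e e' : Ch n M}
  {σ : E l → E k} {z : E l}

theorem chg_ev (h : ContinuousAt Y y) (hm : Y y ∈ e.source) (e' : Ch n M) :
    (fun w => e' (Y w)) =ᶠ[𝓝 y] fun w => tm e e' (e (Y w)) :=
  (ev_source h hm).mono fun w hw => by simp only [tm, e.left_inv hw]

theorem _root_.Vale.Agent.P366D.SmP.diff (h : SmP Y y) (he : e ∈ At M) (hm : Y y ∈ e.source) :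
    DifferentiableAt ℝ (fun w => e (Y w)) y := (h.cd he hm).differentiableAt (by simp)

theorem smP_symm_comp {φ : E k → E n} (he : e ∈ At M) (hφ : ContDiffAt ℝ ∞ φ y) :
    SmP (fun w => e.symm (φ w)) y := (smP_symm he (φ y)).comp hφ

theorem _root_.Vale.Agent.P366D.SmP.jac_eq (h : SmP Y y) (he : e ∈ At M) (hm : Y y ∈ e.source) :
    jac (fun w => ch (Y y) (Y w)) y = J e (e (Y y)) * jac (fun w => e (Y w)) y := by
  rw [jac_congr (chg_ev h.ct hm (ch (Y y))), jac_comp (σ := fun w => e (Y w)) _ (h.diff he hm),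
    J, e.left_inv hm]
  exact tm_diff he (ch_mem _) (by rw [e.left_inv hm]; exact mem_ch _)

/-- the pull-back in a chart of the target -/
theorem _root_.Vale.Agent.P366D.SmP.pl_eq (h : SmP Y y) (he : e ∈ At M) (hm : Y y ∈ e.source)
    (T : Fld n M) : pl Y T y = pb (fun w => e (Y w)) (rep e T) y := by
  have : Stmt.mat (pl Y T) y = Stmt.mat (pb (fun w => e (Y w)) (rep e T)) y := by
    rw [mat_pl, mat_pb, mat_rep, h.jac_eq he hm, e.left_inv hm, Matrix.transpose_mul]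
    simp only [Matrix.mul_assoc]
  exact this

theorem pl_symm_comp {φ : E k → E n} (he : e ∈ At M) (hφ : ContDiffAt ℝ ∞ φ y) (T : Fld n M) :
    pl (fun w => e.symm (φ w)) T y = pb φ (rep e T) y := by
  rw [(smP_symm_comp he hφ).pl_eq he (symm_mem he _)]
  simp only [right_inv he]

theorem comp_ev {α : Type} (u : M → α) (h : ContinuousAt Y y) (hm : Y y ∈ e.source) :
    (fun w => u (Y w)) =ᶠ[𝓝 y] fun w => loc e u (e (Y w)) :=
  (ev_source h hm).mono fun w hw => by simp only [loc, e.left_inv hw]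

end SmP

/-! ### maps of manifolds -/

section SmM

variable {l k n : ℕ} {M : Type} [Mf0 n M] {Z : Type} [Mf0 k Z] {W : Type} [Mf0 l W]
  {Φ Φ' : Z → M} {Ψ : W → Z} {x : Z} {w : W} {e : Ch k Z} {e' : Ch n M} {y : E k}

/-- a map in charts -/
def mp (e : Ch k Z) (e' : Ch n M) (Φ : Z → M) : E k → E n := fun y => e' (Φ (e.symm y))

theorem mp_pt (Φ : Z → M) (x : Z) : mp (ch x) (ch (Φ x)) Φ (pt x) = pt (Φ x) := by
  unfold mp; rw [symm_pt]; rfl

theorem jm_eq (Φ : Z → M) (x : Z) : jm Φ x = jac (mp (ch x) (ch (Φ x)) Φ) (pt x) := rfl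

theorem _root_.Vale.Agent.P366D.SmM.lc (he : e ∈ At Z) (h : SmM Φ (e.symm y)) :
    SmP (loc e Φ) y := h.smP he

theorem smM_of_loc (he : e ∈ At Z) (h : SmP (loc e Φ) y) : SmM Φ (e.symm y) := by
  have h1 : (ch (e.symm y)).symm (pt (e.symm y)) ∈ e.source := by
    rw [symm_pt]; exact symm_mem he y
  refine (SmP.comp (σ := tm (ch (e.symm y)) e) ?_ (tm_cd (ch_mem _) he h1)).congr
    (loc_tm Φ (ch_mem _) h1)
  rwa [tm_ch he]

theorem _root_.Vale.Agent.P366D.SmM.cd (h : SmM Φ (e.symm y)) (he : e ∈ At Z) (he' : e' ∈ At M)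
    (hm : Φ (e.symm y) ∈ e'.source) : ContDiffAt ℝ ∞ (mp e e' Φ) y := (h.lc he).cd he' hm

theorem _root_.Vale.Agent.P366D.SmM.cd_pt (h : SmM Φ x) :
    ContDiffAt ℝ ∞ (mp (ch x) (ch (Φ x)) Φ) (pt x) :=
  SmP.cd h (ch_mem _) (by rw [symm_pt]; exact mem_ch _)

theorem smM_of_mp (h : ContinuousAt Φ x) (he : e ∈ At Z) (he' : e' ∈ At M) (hx : x ∈ e.source)
    (hm : Φ x ∈ e'.source) (hs : ContDiffAt ℝ ∞ (mp e e' Φ) (e x)) : SmM Φ x := by
  rw [← e.left_inv hx] at h hm ⊢
  exact smM_of_loc he (smP_of ((contAt_iff he).1 h) he' hm hs)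

theorem jm_congr (e : Φ =ᶠ[𝓝 x] Φ') : jm Φ x = jm Φ' x := by
  unfold jm
  rw [e.self_of_nhds]
  exact jac_congr ((loc_congr e).mono fun w hw => by
    simp only [loc] at hw
    simp only [hw])

theorem jm_id (x : Z) : jm (fun z => z) x = 1 := by
  have := J_pt x
  rwa [J, symm_pt] at this

theorem jm_comp (h : SmM Φ (Ψ w)) (hΨ : SmM Ψ w) :
    jm (fun p => Φ (Ψ p)) w = jm Φ (Ψ w) * jm Ψ w := by
  have h1 : mp (ch w) (ch (Φ (Ψ w))) (fun p => Φ (Ψ p)) =ᶠ[𝓝 (pt w)]
      fun z => mp (ch (Ψ w)) (ch (Φ (Ψ w))) Φ (mp (ch w) (ch (Ψ w)) Ψ z) :=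
    comp_ev (Y := loc (ch w) Ψ) (fun p => ch (Φ (Ψ w)) (Φ p)) (SmP.ct hΨ)
      (by rw [loc_pt]; exact mem_ch _)
  rw [jm_eq, jac_congr h1, jac_comp _ (hΨ.cd_pt.differentiableAt (by simp)), mp_pt]
  · rfl
  · rw [mp_pt]; exact h.cd_pt.differentiableAt (by simp)

/-- the pull-back in charts of the source and of the target -/
theorem rep_pull' (he : e ∈ At Z) (he' : e' ∈ At M) (h : SmM Φ (e.symm y))
    (hm : Φ (e.symm y) ∈ e'.source) (T : Fld n M) :
    rep e (pull Φ T) y = pb (mp e e' Φ) (rep e' T) y :=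
  (rep_pull he h T).trans ((h.lc he).pl_eq he' hm T)

theorem jm_chart (he : e ∈ At Z) (he' : e' ∈ At M) (h : SmM Φ (e.symm y))
    (hm : Φ (e.symm y) ∈ e'.source) :
    jm Φ (e.symm y) * J e y = J e' (mp e e' Φ y) * jac (mp e e' Φ) y := by
  refine Eq.trans ?_ ((h.lc he).jac_eq he' hm)
  have h1 : (fun w => ch (loc e Φ y) (loc e Φ w)) =ᶠ[𝓝 y] fun w =>
      mp (ch (e.symm y)) (ch (Φ (e.symm y))) Φ (tm e (ch (e.symm y)) w) :=
    loc_tm (fun p => ch (Φ (e.symm y)) (Φ p)) he (mem_ch _)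
  rw [jac_congr h1, jac_comp (h.cd_pt.differentiableAt (by simp)) (tm_diff he (ch_mem _) (mem_ch _))]
  rfl

theorem pull_pos {T : Fld n M} (hT : (mat T (Φ x)).PosDef)
    (hi : Function.Injective (jm Φ x).mulVec) : (mat (pull Φ T) x).PosDef := by
  rw [mat_pull]
  exact hT.conjTranspose_mul_mul_same hi

/-- the metric induced by an immersion -/
theorem Met.pull {g : Fld n M} (hg : Met g) (h : ∀ x, SmM Φ x)
    (hi : ∀ x, Function.Injective (jm Φ x).mulVec) : Met (pull Φ g) :=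
  ⟨smT_pull h hg.sm, fun _ => pull_sy (hg.sy _), fun x => pull_pos (hg.pos _) (hi x)⟩

theorem inj_of_left {A : Matrix (Fin n) (Fin k) ℝ} {B : Matrix (Fin k) (Fin n) ℝ} (h : B * A = 1) :
    Function.Injective A.mulVec := fun v w e => by
  have := congrArg B.mulVec e
  rwa [Matrix.mulVec_mulVec, Matrix.mulVec_mulVec, h, Matrix.one_mulVec, Matrix.one_mulVec] at this

/-- a local left inverse in the charts makes the differential injective -/
theorem jm_inj (h : SmM Φ x) {G : E n → E k} (hG : DifferentiableAt ℝ G (pt (Φ x)))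
    (e : ∀ᶠ z in 𝓝 x, ch x z = G (ch (Φ x) (Φ z))) : Function.Injective (jm Φ x).mulVec := by
  refine inj_of_left (B := jac G (pt (Φ x))) ?_
  have h1 : (fun y => G (mp (ch x) (ch (Φ x)) Φ y)) =ᶠ[𝓝 (pt x)] fun y => y :=
    (ev_pt.1 e).mono fun y hy => by rw [right_inv (ch_mem x)] at hy; exact hy.symm
  rw [← jac_id (pt x), ← jac_congr h1, jac_comp _ (h.cd_pt.differentiableAt (by simp)), mp_pt]
  · rfl
  · rwa [mp_pt]

theorem _root_.Vale.Agent.P366D.Sub.inj {B : Set M} (h : P366D.Sub Φ B) (x : Z) :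
    Function.Injective (jm Φ x).mulVec := by
  obtain ⟨G, h1, h2⟩ := h.ext x
  exact jm_inj (h.sm x) (h1.differentiableAt (by simp)) h2

/-- the pull-back of a covector field -/
def pullC (Φ : Z → M) (w : Fin n → M → ℝ) : Fin k → Z → ℝ := fun i x =>
  ∑ a, jm Φ x a i * w a (Φ x)

theorem repC_pull (he : e ∈ At Z) (he' : e' ∈ At M) (h : SmM Φ (e.symm y))
    (hm : Φ (e.symm y) ∈ e'.source) (w : Fin n → M → ℝ) (i : Fin k) :
    repC e (pullC Φ w) i y = ∑ a, jac (mp e e' Φ) y a i * repC e' w a (mp e e' Φ y) := by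
  have h1 : (fun i => repC e (pullC Φ w) i y) =
      (jac (mp e e' Φ) y)ᵀ *ᵥ fun a => repC e' w a (mp e e' Φ y) := by
    have h2 : (fun a => pullC Φ w a (e.symm y)) =
      (jm Φ (e.symm y))ᵀ *ᵥ fun a => w a (Φ (e.symm y)) := rfl
    rw [repC_eq, repC_eq, h2, Matrix.mulVec_mulVec, Matrix.mulVec_mulVec, ← Matrix.transpose_mul,
      ← Matrix.transpose_mul, jm_chart he he' h hm, mp, e'.left_inv hm]
  exact congrFun h1 i

theorem CC.pull {m : WithTop ℕ∞} {w : Fin n → M → ℝ} (hw : CC m w) (hm : m ≤ ∞)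
    (h : ∀ x, SmM Φ x) : CC m (pullC Φ w) := fun e he i =>
  contDiff_iff_contDiffAt.2 fun y => by
    have h1 := (h (e.symm y)).cd he (ch_mem _) (mem_ch _)
    refine (ContDiffAt.sum (s := Finset.univ) fun a _ => ((cd_jac h1 a i).of_le hm).mul
      ((hw _ (ch_mem (Φ (e.symm y))) a).contDiffAt.comp y (h1.of_le hm))).congr_of_eventuallyEq ?_
    filter_upwards [ev_source ((h _).lc he).ct (mem_ch (Φ (e.symm y)))] with z hz
    exact repC_pull he (ch_mem _) (h _) hz w i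

/-! ### linearity of the pull-back -/

theorem pull_sub (Φ : Z → M) (T S : Fld n M) : pull Φ (fun x i j => T x i j - S x i j) =
    fun x i j => pull Φ T x i j - pull Φ S x i j := by
  funext x i j; simp only [pull_apply, mul_sub, Finset.sum_sub_distrib]

theorem pull_prod (Φ : Z → M) (w z : Fin n → M → ℝ) : pull Φ (fun x i j => w i x * z j x) =
    fun x i j => pullC Φ w i x * pullC Φ z j x := by
  funext x i j
  simp only [pull_apply, pullC, Finset.sum_mul_sum]
  exact Finset.sum_congr rfl fun _ _ => Finset.sum_congr rfl fun _ _ => by ring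

theorem pullC_pd {u : M → ℝ} (hu : DAt u (Φ x)) (h : SmM Φ x) (i : Fin k) :
    pullC Φ (fun a => pd a u) i x = pd i (fun z => u (Φ z)) x := (h.pd hu i).symm

end SmM

end Vale.Agent.P366M
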