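import Vale.Agent.P366M.Calc

/-!
# P366M: second derivatives of sums, products and compositions
-/

open Filter Topology Set
open scoped ContDiff
open Vale.Agent.P366 Vale.Agent.P366.Stmt Vale.Agent.P366Z

noncomputable section

namespace Vale.Agent.P366M

section E

variable {n N : ℕ} {f h : E n → ℝ} {y : E n}

theorem zdiff_pd (hf : ContDiffAt ℝ 2 f y) (j : Fin n) : DifferentiableAt ℝ (Stmt.pd j f) y :=
  (P366Z.contDiffAt_pd (k := 1) hf (by norm_num) j).differentiableAt one_ne_zero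

theorem zpd2_add (hf : ContDiffAt ℝ 2 f y) (hh : ContDiffAt ℝ 2 h y) (i j : Fin n) :
    Stmt.pd i (Stmt.pd j fun z => f z + h z) y =
      Stmt.pd i (Stmt.pd j f) y + Stmt.pd i (Stmt.pd j h) y := by
  rw [← P366Z.pd_add (zdiff_pd hf j) (zdiff_pd hh j)]
  refine P366Z.pd_congr ?_ i
  filter_upwards [P366Z.ev_diff hf, P366Z.ev_diff hh] with z h1 h2 using P366Z.pd_add h1 h2 j

theorem zpd2_mul (hf : ContDiffAt ℝ 2 f y) (hh : ContDiffAt ℝ 2 h y) (i j : Fin n) :
    Stmt.pd i (Stmt.pd j fun z => f z * h z) y =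
      f y * Stmt.pd i (Stmt.pd j h) y + h y * Stmt.pd i (Stmt.pd j f) y +
        (Stmt.pd i f y * Stmt.pd j h y + Stmt.pd i h y * Stmt.pd j f y) := by
  have e : (Stmt.pd j fun z => f z * h z) =ᶠ[𝓝 y]
      fun z => Stmt.pd j f z * h z + f z * Stmt.pd j h z := by
    filter_upwards [P366Z.ev_diff hf, P366Z.ev_diff hh] with z h1 h2 using P366Z.pd_mul h1 h2 j
  rw [P366Z.pd_congr e, P366Z.pd_add ((zdiff_pd hf j).fun_mul (P366Z.diff2 hh))
    ((P366Z.diff2 hf).fun_mul (zdiff_pd hh j)), P366Z.pd_mul (zdiff_pd hf j) (P366Z.diff2 hh),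
    P366Z.pd_mul (P366Z.diff2 hf) (zdiff_pd hh j)]
  ring

theorem zpd2_comp {τ : E n → E N} {F : E N → ℝ} (hF : ContDiffAt ℝ 2 F (τ y))
    (hτ : ContDiffAt ℝ 2 τ y) (i j : Fin n) :
    Stmt.pd i (Stmt.pd j fun z => F (τ z)) y =
      ∑ k, ∑ l, Stmt.pd k (Stmt.pd l F) (τ y) * (jac τ y k i * jac τ y l j) +
        ∑ k, Stmt.pd k F (τ y) * Stmt.pd i (Stmt.pd j fun z => τ z k) y := by
  have d1 := hτ.differentiableAt two_ne_zero
  have e : (Stmt.pd j fun z => F (τ z)) =ᶠ[𝓝 y] fun z => ∑ l, jac τ z l j * Stmt.pd l F (τ z) := by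
    filter_upwards [d1.continuousAt.eventually (P366Z.ev_diff hF),
      hτ.eventually (by simp)] with z h1 h2 using pd_chain h1 (h2.differentiableAt two_ne_zero) j
  have d2 : ∀ l, DifferentiableAt ℝ (fun z => jac τ z l j) y := fun l => zdiff_pd (cd_coord hτ l) j
  have d3 : ∀ l, DifferentiableAt ℝ (fun z => Stmt.pd l F (τ z)) y := fun l =>
    (zdiff_pd hF l).comp y d1
  rw [P366Z.pd_congr e, P366Z.pd_sum _ fun l _ => (d2 l).fun_mul (d3 l), Finset.sum_comm,
    ← Finset.sum_add_distrib]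
  refine Finset.sum_congr rfl fun l _ => ?_
  rw [P366Z.pd_mul (d2 l) (d3 l), pd_chain (zdiff_pd hF l) d1, Finset.mul_sum, add_comm, mul_comm]
  congr 1
  exact Finset.sum_congr rfl fun k _ => by ring

end E

variable {n : ℕ} {M : Type} [Mf0 n M] {g : Fld n M} {f h u v : M → ℝ} {x : M}

theorem pd2_const (c : ℝ) (i j : Fin n) (x : M) : pd2 i j (fun _ => c) x = 0 := by
  have : Stmt.pd j (loc (ch x) fun _ : M => c) = fun _ => 0 := funext (P366Z.pd_const c j)
  unfold pd2
  rw [this, P366Z.pd_const]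

theorem pd2_add (hf : CAt 2 f x) (hh : CAt 2 h x) (i j : Fin n) :
    pd2 i j (fun z => f z + h z) x = pd2 i j f x + pd2 i j h x := zpd2_add hf hh i j

theorem pd2_const_mul (c : ℝ) (i j : Fin n) : pd2 i j (fun z => c * f z) x = c * pd2 i j f x := by
  have : Stmt.pd j (loc (ch x) fun z => c * f z) = fun y => c * Stmt.pd j (loc (ch x) f) y :=
    funext fun _ => P366Z.pd_const_mul c j
  unfold pd2
  rw [this, P366Z.pd_const_mul]

theorem pd2_neg (i j : Fin n) : pd2 i j (fun z => -f z) x = -pd2 i j f x := by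
  simpa using pd2_const_mul (f := f) (x := x) (-1) i j

theorem pd2_add_const (c : ℝ) (i j : Fin n) : pd2 i j (fun z => f z + c) x = pd2 i j f x := by
  have : Stmt.pd j (loc (ch x) fun z => f z + c) = Stmt.pd j (loc (ch x) f) :=
    funext fun _ => P366Z.pd_add_const c j
  unfold pd2
  rw [this]

theorem pd2_sub (hf : CAt 2 f x) (hh : CAt 2 h x) (i j : Fin n) :
    pd2 i j (fun z => f z - h z) x = pd2 i j f x - pd2 i j h x := by
  simp only [sub_eq_add_neg]
  rw [pd2_add hf hh.neg, pd2_neg]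

theorem pd2_mul (hf : CAt 2 f x) (hh : CAt 2 h x) (i j : Fin n) :
    pd2 i j (fun z => f z * h z) x = f x * pd2 i j h x + h x * pd2 i j f x +
      (pd i f x * pd j h x + pd i h x * pd j f x) := by
  have := zpd2_mul hf hh i j
  rwa [loc_pt, loc_pt] at this

theorem pd2_comp_E {N : ℕ} {Φ : M → E N} {F : E N → ℝ} (hF : ContDiffAt ℝ 2 F (Φ x))
    (hΦ : CAt 2 Φ x) (i j : Fin n) : pd2 i j (fun z => F (Φ z)) x =
      ∑ k, ∑ l, Stmt.pd k (Stmt.pd l F) (Φ x) *
        (pd i (fun z => Φ z k) x * pd j (fun z => Φ z l) x) +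
        ∑ k, Stmt.pd k F (Φ x) * pd2 i j (fun z => Φ z k) x := by
  have := zpd2_comp (τ := loc (ch x) Φ) (F := F) (by rwa [loc_pt]) hΦ i j
  rwa [loc_pt] at this

theorem pd2_comp {φ : ℝ → ℝ} (hφ : ContDiffAt ℝ 2 φ (f x)) (hf : CAt 2 f x) (i j : Fin n) :
    pd2 i j (fun z => φ (f z)) x =
      deriv φ (f x) * pd2 i j f x + deriv (deriv φ) (f x) * (pd i f x * pd j f x) := by
  have hφ' : ContDiffAt ℝ 2 φ (loc (ch x) f (pt x)) := by rwa [loc_pt]
  have d0 := P366Z.diff2 hf
  have e : (Stmt.pd j (loc (ch x) fun z => φ (f z))) =ᶠ[𝓝 (pt x)]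
      fun z => deriv φ (loc (ch x) f z) * Stmt.pd j (loc (ch x) f) z := by
    filter_upwards [d0.continuousAt.eventually (hφ'.eventually (by simp)), P366Z.ev_diff hf]
      with z h1 h2 using P366Z.pd_comp (h1.differentiableAt two_ne_zero).hasDerivAt h2 j
  have d1 : HasDerivAt (deriv φ) (deriv (deriv φ) (f x)) (loc (ch x) f (pt x)) := by
    rw [loc_pt]
    exact ((hφ.derivWithin (m := 1) (by norm_num)).differentiableAt one_ne_zero).hasDerivAt
  unfold pd2
  rw [P366Z.pd_congr e, P366Z.pd_mul (f := fun z => deriv φ (loc (ch x) f z))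
    (d1.differentiableAt.comp _ d0) (zdiff_pd hf j),
    P366Z.pd_comp d1 d0, loc_pt]
  unfold pd
  ring

/-! ### the Hessian -/

theorem hess_const (c : ℝ) (x : M) (i j : Fin n) : hess g (fun _ => c) x i j = 0 := by
  simp [hess, pd2_const, pd_const]

theorem hess_add (hf : CAt 2 f x) (hh : CAt 2 h x) (i j : Fin n) :
    hess g (fun z => f z + h z) x i j = hess g f x i j + hess g h x i j := by
  simp only [hess, pd2_add hf hh, pd_add (diff2 hf) (diff2 hh), mul_add, Finset.sum_add_distrib]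
  ring

theorem hess_sub (hf : CAt 2 f x) (hh : CAt 2 h x) (i j : Fin n) :
    hess g (fun z => f z - h z) x i j = hess g f x i j - hess g h x i j := by
  simp only [hess, pd2_sub hf hh, pd_sub (diff2 hf) (diff2 hh), mul_sub, Finset.sum_sub_distrib]
  ring

theorem hess_const_mul (c : ℝ) (i j : Fin n) :
    hess g (fun z => c * f z) x i j = c * hess g f x i j := by
  simp only [hess, pd2_const_mul, pd_const_mul, mul_sub, Finset.mul_sum, mul_left_comm]

theorem hess_neg (i j : Fin n) : hess g (fun z => -f z) x i j = -hess g f x i j := by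
  simpa using hess_const_mul (g := g) (f := f) (x := x) (-1) i j

theorem hess_add_const (c : ℝ) (i j : Fin n) :
    hess g (fun z => f z + c) x i j = hess g f x i j := by
  simp only [hess, pd2_add_const, pd_add_const]

theorem hess_sub_const (c : ℝ) (i j : Fin n) :
    hess g (fun z => f z - c) x i j = hess g f x i j := hess_add_const (-c) i j

theorem hess_const_sub (c : ℝ) (i j : Fin n) :
    hess g (fun z => c - f z) x i j = -hess g f x i j := by
  simp only [sub_eq_neg_add]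
  rw [hess_add_const, hess_neg]

theorem hess_sum {ι : Type*} (s : Finset ι) {F : ι → M → ℝ} (hF : ∀ a ∈ s, CAt 2 (F a) x)
    (i j : Fin n) : hess g (fun z => ∑ a ∈ s, F a z) x i j = ∑ a ∈ s, hess g (F a) x i j := by
  classical
  induction s using Finset.induction_on with
  | empty => simpa using hess_const 0 x i j
  | insert a s ha ih =>
    have h1 := fun b hb => hF b (Finset.mem_insert_of_mem hb)
    simp only [Finset.sum_insert ha]
    rw [hess_add (hF a (Finset.mem_insert_self _ _)) (CAt.sum h1), ih h1]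

theorem hess_mul (hf : CAt 2 f x) (hh : CAt 2 h x) (i j : Fin n) :
    hess g (fun z => f z * h z) x i j = f x * hess g h x i j + h x * hess g f x i j +
      (pd i f x * pd j h x + pd i h x * pd j f x) := by
  have e : ∀ k, chr g k i j x * (pd k f x * h x + f x * pd k h x) =
      f x * (chr g k i j x * pd k h x) + h x * (chr g k i j x * pd k f x) := fun k => by ring
  simp only [hess, pd2_mul hf hh, pd_mul (diff2 hf) (diff2 hh), e, Finset.sum_add_distrib,
    ← Finset.mul_sum]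
  ring

theorem hess_comp {φ : ℝ → ℝ} (hφ : ContDiffAt ℝ 2 φ (f x)) (hf : CAt 2 f x) (i j : Fin n) :
    hess g (fun z => φ (f z)) x i j =
      deriv φ (f x) * hess g f x i j + deriv (deriv φ) (f x) * (pd i f x * pd j f x) := by
  simp only [hess, pd2_comp hφ hf, pd_comp (hφ.differentiableAt two_ne_zero).hasDerivAt (diff2 hf),
    mul_left_comm _ (deriv φ (f x)), ← Finset.mul_sum]
  ring

theorem CAt.coord {N : ℕ} {m : WithTop ℕ∞} {Φ : M → E N} (hΦ : CAt m Φ x) (k : Fin N) :
    CAt m (fun z => Φ z k) x := cd_coord hΦ k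

theorem hess_comp_E {N : ℕ} {Φ : M → E N} {F : E N → ℝ} (hF : ContDiffAt ℝ 2 F (Φ x))
    (hΦ : CAt 2 Φ x) (i j : Fin n) : hess g (fun z => F (Φ z)) x i j =
      ∑ k, ∑ l, Stmt.pd k (Stmt.pd l F) (Φ x) *
        (pd i (fun z => Φ z k) x * pd j (fun z => Φ z l) x) +
        ∑ k, Stmt.pd k F (Φ x) * hess g (fun z => Φ z k) x i j := by
  simp only [hess, pd2_comp_E hF hΦ, pd_comp_E (P366Z.diff2 hF) (hΦ.differentiableAt two_ne_zero),
    mul_sub, Finset.sum_sub_distrib, Finset.mul_sum]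
  rw [Finset.sum_comm (f := fun a k => chr g a i j x * _), add_sub_assoc]
  congr 2
  exact Finset.sum_congr rfl fun k _ => Finset.sum_congr rfl fun a _ => by ring

theorem ip_comp_E {N : ℕ} {Φ : M → E N} {F : E N → ℝ} (hF : DifferentiableAt ℝ F (Φ x))
    (hΦ : DAt Φ x) (v : M → ℝ) :
    ip g (fun z => F (Φ z)) v x = ∑ k, Stmt.pd k F (Φ x) * ip g (fun z => Φ z k) v x := by
  simp only [ip, pd_comp_E hF hΦ, Finset.mul_sum, Finset.sum_mul]
  conv_rhs => rw [Finset.sum_comm]
  refine Finset.sum_congr rfl fun i _ => ?_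
  rw [Finset.sum_comm]
  exact Finset.sum_congr rfl fun k _ => Finset.sum_congr rfl fun j _ => by ring

theorem Met.lap_comp_E (hg : Met g) {N : ℕ} {Φ : M → E N} {F : E N → ℝ}
    (hF : ContDiffAt ℝ 2 F (Φ x)) (hΦ : CAt 2 Φ x) : lap g (fun z => F (Φ z)) x =
      ∑ k, ∑ l, Stmt.pd k (Stmt.pd l F) (Φ x) * ip g (fun z => Φ z k) (fun z => Φ z l) x +
        ∑ k, Stmt.pd k F (Φ x) * lap g (fun z => Φ z k) x := by
  simp only [hg.lap_eq_tr (hF.compM hΦ), hg.lap_eq_tr (hΦ.coord _), tr, hess_comp_E hF hΦ, ip,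
    mul_add, Finset.sum_add_distrib, Finset.mul_sum]
  congr 1
  · rw [Finset.sum_comm' (t' := Finset.univ) (s' := fun _ => Finset.univ) (by simp)]
    simp only [← Finset.sum_product', Finset.univ_product_univ]
    refine Fintype.sum_equiv ⟨fun p => (p.2.2.1, p.2.2.2, p.2.1, p.1),
      fun p => (p.2.2.2, p.2.2.1, p.1, p.2.1), fun _ => rfl, fun _ => rfl⟩ _ _ fun p => ?_
    simp only [Equiv.coe_fn_mk]
    ring
  · conv_rhs => rw [Finset.sum_comm]
    refine Finset.sum_congr rfl fun i _ => ?_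
    rw [Finset.sum_comm]
    exact Finset.sum_congr rfl fun k _ => Finset.sum_congr rfl fun j _ => by ring

end Vale.Agent.P366M
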