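import Vale.Agent.P366M.Inv1
import Mathlib.MeasureTheory.Function.Jacobian

/-!
# P366M: the Riemannian volume in a chart
-/

open MeasureTheory Metric Filter Topology Set
open scoped ContDiff ENNReal
open Vale.Agent.P366 Vale.Agent.P366.Stmt Vale.Agent.P366Z

noncomputable section

namespace Vale.Agent.P366M

theorem det_fderiv {n : ℕ} {τ : E n → E n} {y : E n} (hτ : DifferentiableAt ℝ τ y) :
    (fderiv ℝ τ y).det = (jac τ y).det := by
  rw [ContinuousLinearMap.det, ← LinearMap.det_toMatrix (EuclideanSpace.basisFun (Fin n) ℝ).toBasis]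
  congr 1
  ext k i
  rw [LinearMap.toMatrix_apply, jac_eq hτ]
  simp

section L0

variable {n : ℕ} {M : Type} [Mf0 n M] {e e' : Ch n M} {x : M} {y : E n} {g : Fld n M}

theorem measEmb_symm (he : e ∈ At M) : MeasurableEmbedding e.symm :=
  (openEmb_symm he).measurableEmbedding

theorem meas_dens (hg : Met g) (he : e ∈ At M) :
    Measurable fun y => ENNReal.ofReal (P366Z.dens (rep e g) y) :=
  (hg.rep he).sm_dens.cont.measurable.ennreal_ofReal

theorem lintegral_volC (hg : Met g) (he : e ∈ At M) (f : M → ℝ≥0∞) :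
    ∫⁻ x, f x ∂volC g e = ∫⁻ y, ENNReal.ofReal (P366Z.dens (rep e g) y) * f (e.symm y) := by
  unfold volC
  rw [(measEmb_symm he).lintegral_map, lintegral_withDensity_eq_lintegral_mul_non_measurable _
    (meas_dens hg he) (Eventually.of_forall fun _ => ENNReal.ofReal_lt_top)]
  rfl

theorem volC_apply (he : e ∈ At M) {s : Set M} (hs : MeasurableSet s) :
    volC g e s = ∫⁻ y in e.symm ⁻¹' s, ENNReal.ofReal (P366Z.dens (rep e g) y) := by
  unfold volC
  rw [(measEmb_symm he).map_apply, withDensity_apply _ ((measEmb_symm he).measurable hs)]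

theorem dens_tm (g : Fld n M) (he : e ∈ At M) (he' : e' ∈ At M) (h : e.symm y ∈ e'.source) :
    P366Z.dens (rep e g) y = |(jac (tm e e') y).det| * P366Z.dens (rep e' g) (tm e e' y) := by
  rw [dens_rep, dens_rep, J_tm he he' h, symm_tm h, Matrix.det_mul, abs_mul]
  ring

theorem volC_eq (he : e ∈ At M) (he' : e' ∈ At M) {s : Set M} (hs : MeasurableSet s)
    (h : s ⊆ e.source) (h' : s ⊆ e'.source) : volC g e s = volC g e' s := by
  have hm := (measEmb_symm he).measurable hs
  have him : e'.symm ⁻¹' s = tm e e' '' (e.symm ⁻¹' s) := by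
    ext z
    refine ⟨fun hz => ⟨e (e'.symm z), ?_, ?_⟩, ?_⟩
    · rwa [mem_preimage, e.left_inv (h hz)]
    · unfold tm; rw [e.left_inv (h hz), right_inv he']
    · rintro ⟨y, hy, rfl⟩
      rwa [mem_preimage, symm_tm (h' hy)]
  rw [volC_apply he hs, volC_apply he' hs, him,
    lintegral_image_eq_lintegral_abs_det_fderiv_mul volume hm
      (fun y hy => (tm_diff he he' (h' hy)).hasFDerivAt.hasFDerivWithinAt)
      fun a ha b hb hab => symm_inj he (by rw [← symm_tm (h' ha), hab, symm_tm (h' hb)])]
  refine setLIntegral_congr_fun hm fun y hy => ?_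
  rw [dens_tm g he he' (h' hy), ENNReal.ofReal_mul (abs_nonneg _),
    det_fderiv (tm_diff he he' (h' hy))]

theorem meas_pc (k : ℕ) : MeasurableSet (pc M k) :=
  MeasurableSet.disjointed (fun k => (ch (cv M k)).open_source.measurableSet) k

theorem pc_sub (k : ℕ) : pc M k ⊆ (ch (cv M k)).source := disjointed_subset _ k

theorem union_pc : ⋃ k, pc M k = univ := by
  unfold pc; rw [iUnion_disjointed]; exact (exists_cv M).choose_spec

theorem volC_src (he : e ∈ At M) : (volC g e).restrict e.source = volC g e := by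
  refine Measure.restrict_eq_self_of_ae_mem ?_
  unfold volC
  rw [(measEmb_symm he).ae_map_iff]
  exact Eventually.of_forall (symm_mem he)

/-- the volume in the source of a chart -/
theorem vol_restrict (g : Fld n M) (he : e ∈ At M) : (vol g).restrict e.source = volC g e := by
  rw [← volC_src he]
  ext s hs
  have hs' := hs.inter e.open_source.measurableSet
  rw [Measure.restrict_apply hs, Measure.restrict_apply hs, vol, Measure.sum_apply _ hs']
  have h1 : ∀ k, (volC g (ch (cv M k))).restrict (pc M k) (s ∩ e.source) =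
      volC g e (s ∩ e.source ∩ pc M k) := fun k => by
    rw [Measure.restrict_apply hs']
    exact volC_eq (ch_mem _) he (hs'.inter (meas_pc k)) (fun _ h => pc_sub k h.2) fun _ h => h.1.2
  simp only [h1]
  rw [← measure_iUnion _ fun k => hs'.inter (meas_pc k), ← inter_iUnion, union_pc, inter_univ]
  exact (disjoint_disjointed _).mono fun i j h => h.mono inter_subset_right inter_subset_right

theorem lintegral_src (hg : Met g) (he : e ∈ At M) (f : M → ℝ≥0∞) :
    ∫⁻ x in e.source, f x ∂vol g = ∫⁻ y, ENNReal.ofReal (P366Z.dens (rep e g) y) * f (e.symm y) := by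
  rw [vol_restrict g he, lintegral_volC hg he]

theorem restrict_image (g : Fld n M) (he : e ∈ At M) {B : Set (E n)} (hB : MeasurableSet B) :
    (vol g).restrict (e.symm '' B) = (((volume : Measure (E n)).restrict B).withDensity
      fun y => ENNReal.ofReal (P366Z.dens (rep e g) y)).map e.symm := by
  have h1 : e.symm '' B ⊆ e.source := by rintro _ ⟨y, -, rfl⟩; exact symm_mem he y
  have h2 := (measEmb_symm he).measurableSet_image.2 hB
  rw [← inter_eq_self_of_subset_left h1, ← Measure.restrict_restrict h2, vol_restrict g he, volC,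
    (measEmb_symm he).restrict_map, preimage_image_eq _ (symm_inj he), restrict_withDensity hB]

theorem lintegral_image (hg : Met g) (he : e ∈ At M) {B : Set (E n)} (hB : MeasurableSet B)
    (f : M → ℝ≥0∞) : ∫⁻ x in e.symm '' B, f x ∂vol g =
      ∫⁻ y in B, ENNReal.ofReal (P366Z.dens (rep e g) y) * f (e.symm y) := by
  rw [restrict_image g he hB, (measEmb_symm he).lintegral_map,
    lintegral_withDensity_eq_lintegral_mul_non_measurable _
      (meas_dens hg he) (Eventually.of_forall fun _ => ENNReal.ofReal_lt_top)]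
  rfl

theorem vol_image (hg : Met g) (he : e ∈ At M) {B : Set (E n)} (hB : MeasurableSet B) :
    vol g (e.symm '' B) = ∫⁻ y in B, ENNReal.ofReal (P366Z.dens (rep e g) y) := by
  have := lintegral_image hg he hB fun _ => 1
  simpa using this

section V

variable {V : Type} [NormedAddCommGroup V] [NormedSpace ℝ V]

theorem integral_image (hg : Met g) (he : e ∈ At M) {B : Set (E n)} (hB : MeasurableSet B)
    (f : M → V) : ∫ x in e.symm '' B, f x ∂vol g =
      ∫ y in B, P366Z.dens (rep e g) y • f (e.symm y) := by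
  rw [restrict_image g he hB, (measEmb_symm he).integral_map,
    integral_withDensity_eq_integral_toReal_smul (meas_dens hg he)
      (Eventually.of_forall fun _ => ENNReal.ofReal_lt_top)]
  simp only [ENNReal.toReal_ofReal (P366Z.dens_nonneg _ _)]

theorem integrableOn_image (hg : Met g) (he : e ∈ At M) {B : Set (E n)} (hB : MeasurableSet B)
    (f : M → V) : IntegrableOn f (e.symm '' B) (vol g) ↔
      IntegrableOn (fun y => P366Z.dens (rep e g) y • f (e.symm y)) B := by
  unfold IntegrableOn
  rw [restrict_image g he hB, (measEmb_symm he).integrable_map_iff,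
    integrable_withDensity_iff_integrable_smul' (meas_dens hg he)
      (Eventually.of_forall fun _ => ENNReal.ofReal_lt_top)]
  simp only [ENNReal.toReal_ofReal (P366Z.dens_nonneg _ _)]
  rfl

theorem integral_chart (hg : Met g) (he : e ∈ At M) {f : M → V} (hf : ∀ x ∉ e.source, f x = 0) :
    ∫ x, f x ∂vol g = ∫ y, P366Z.dens (rep e g) y • f (e.symm y) := by
  rw [← setIntegral_eq_integral_of_forall_compl_eq_zero hf, ← range_symm he, ← image_univ,
    integral_image hg he MeasurableSet.univ, Measure.restrict_univ]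

theorem integrable_chart (hg : Met g) (he : e ∈ At M) {f : M → V} (hf : ∀ x ∉ e.source, f x = 0) :
    Integrable f (vol g) ↔ Integrable fun y => P366Z.dens (rep e g) y • f (e.symm y) := by
  rw [← integrableOn_iff_integrable_of_support_subset (s := e.source)
      fun x hx => by_contra fun h => hx (hf x h), ← range_symm he, ← image_univ,
    integrableOn_image hg he MeasurableSet.univ, integrableOn_univ]

end V

theorem ae_loc (hg : Met g) (he : e ∈ At M) {p : M → Prop} (h : ∀ᵐ x ∂vol g, p x) :
    ∀ᵐ y, p (e.symm y) := by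
  have h1 : ∀ᵐ x ∂volC g e, p x := by
    rw [← vol_restrict g he]; exact ae_restrict_of_ae h
  unfold volC at h1
  rw [(measEmb_symm he).ae_map_iff, ae_withDensity_iff (meas_dens hg he)] at h1
  exact h1.mono fun y hy => hy (ENNReal.ofReal_pos.2 ((hg.rep he).dens_pos y)).ne'

theorem ae_of_loc (g : Fld n M) {p : M → Prop} (h : ∀ e ∈ At M, ∀ᵐ y, p (e.symm y)) :
    ∀ᵐ x ∂vol g, p x := by
  rw [vol, Measure.ae_sum_iff]
  intro k
  refine ae_restrict_of_ae ?_
  unfold volC
  rw [(measEmb_symm (ch_mem _)).ae_map_iff]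
  exact withDensity_absolutelyContinuous _ _ (h _ (ch_mem _))

theorem image_nhds (x : M) {B : Set (E n)} (hB : B ∈ 𝓝 (pt x)) : (ch x).symm '' B ∈ 𝓝 x := by
  have := (openEmb_symm (ch_mem x)).image_mem_nhds.2 hB
  rwa [symm_pt] at this

theorem Met.locFin (hg : Met g) : IsLocallyFiniteMeasure (vol g) := ⟨fun x => by
  refine ⟨_, image_nhds x (closedBall_mem_nhds (pt x) one_pos), ?_⟩
  rw [vol_image hg (ch_mem x) measurableSet_closedBall]
  exact ((hg.rep (ch_mem x)).sm_dens.cont.continuousOn.integrableOn_compact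
    (isCompact_closedBall _ _)).lintegral_lt_top⟩

theorem Met.openPos (hg : Met g) : (vol g).IsOpenPosMeasure := ⟨fun U hU ⟨x, hx⟩ h0 => by
  have h1 : ∀ᵐ y, (ch x).symm y ∉ U := ae_loc hg (ch_mem x) (measure_eq_zero_iff_ae_notMem.1 h0)
  exact (hU.preimage (cont_symm (ch_mem x))).measure_ne_zero volume
    ⟨pt x, by rwa [mem_preimage, symm_pt]⟩ (measure_eq_zero_iff_ae_notMem.2 h1)⟩

theorem meas_of_loc {α : Type} [MeasurableSpace α] {f : M → α}
    (h : ∀ e ∈ At M, Measurable (loc e f)) : Measurable f := fun s hs => by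
  have : f ⁻¹' s = ⋃ k, (ch (cv M k)).symm '' (loc (ch (cv M k)) f ⁻¹' s) := by
    ext x
    refine ⟨fun hx => ?_, fun hx => ?_⟩
    · obtain ⟨k, hk⟩ := mem_iUnion.1 (union_pc (M := M) ▸ mem_univ x)
      have h1 := (ch (cv M k)).left_inv (pc_sub k hk)
      exact mem_iUnion.2 ⟨k, ch (cv M k) x, by rwa [mem_preimage, loc, h1], h1⟩
    · obtain ⟨k, y, hy, rfl⟩ := mem_iUnion.1 hx
      exact hy
  rw [this]
  exact MeasurableSet.iUnion fun k =>
    (measEmb_symm (ch_mem _)).measurableSet_image.2 (h _ (ch_mem _) hs)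

theorem aemeas_of_loc (g : Fld n M) {f : M → ℝ} (h : ∀ e ∈ At M, AEMeasurable (loc e f)) :
    AEMeasurable f (vol g) := by
  rw [vol, aemeasurable_sum_measure_iff]
  intro k
  refine AEMeasurable.restrict ?_
  unfold volC
  rw [(measEmb_symm (ch_mem _)).aemeasurable_map_iff]
  exact (h _ (ch_mem _)).mono_ac (withDensity_absolutelyContinuous _ _)

end L0

variable {n : ℕ} {M : Type} [Mf n M] {e : Ch n M} {x : M} {y : E n} {g : Fld n M}

theorem volume_eq : (volume : Measure M) = vol bg := rfl

instance : IsLocallyFiniteMeasure (volume : Measure M) := bg_met.locFin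

instance : (volume : Measure M).IsOpenPosMeasure := bg_met.openPos

example : IsFiniteMeasureOnCompacts (volume : Measure M) := inferInstance

example : SigmaFinite (volume : Measure M) := inferInstance

theorem dens_loc (he : e ∈ At M) (g : Fld n M) (y : E n) :
    dens g (e.symm y) = P366Z.dens (rep e g) y / P366Z.dens (rep e bg) y := by
  rw [dens_rep, dens_rep, mul_div_mul_left _ _ (abs_pos.2 (J_unit he y).ne_zero).ne']
  rfl

theorem dens_mul (he : e ∈ At M) (g : Fld n M) (y : E n) :
    P366Z.dens (rep e bg) y * dens g (e.symm y) = P366Z.dens (rep e g) y := by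
  rw [dens_loc he, mul_div_cancel₀ _ ((bg_met.rep he).dens_pos y).ne']

theorem Met.sm_dens (hg : Met g) : Smooth (dens g) := fun e he => by
  rw [show loc e (dens g) = _ from funext (dens_loc he g)]
  exact ContDiff.div (hg.rep he).sm_dens (bg_met.rep he).sm_dens
    fun y => ((bg_met.rep he).dens_pos y).ne'

theorem dens_nonneg (g : Fld n M) (x : M) : 0 ≤ dens g x :=
  div_nonneg (Real.sqrt_nonneg _) (Real.sqrt_nonneg _)

theorem Met.det_pos {M : Type} [Mf0 n M] {g : Fld n M} (hg : Met g) (x : M) :
    0 < (mat g x).det := (hg.pos x).det_pos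

theorem Met.dens_pos (hg : Met g) (x : M) : 0 < dens g x :=
  div_pos (Real.sqrt_pos.2 (hg.det_pos x)) (Real.sqrt_pos.2 (bg_met.det_pos x))

theorem dens_bg (x : M) : dens bg x = 1 := div_self (Real.sqrt_pos.2 (bg_met.det_pos x)).ne'

theorem Met.vol_eq (hg : Met g) :
    vol g = (volume : Measure M).withDensity fun x => ENNReal.ofReal (dens g x) := by
  ext s hs
  rw [withDensity_apply _ hs, ← inter_univ s, ← union_pc, inter_iUnion]
  have hd : Pairwise (Function.onFun Disjoint fun k => s ∩ pc M k) :=
    (disjoint_disjointed _).mono fun i j h => h.mono inter_subset_right inter_subset_right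
  rw [measure_iUnion hd fun k => hs.inter (meas_pc k),
    lintegral_iUnion (fun k => hs.inter (meas_pc k)) hd]
  refine tsum_congr fun k => ?_
  have he := ch_mem (cv M k)
  have hm := (measEmb_symm he).measurable (hs.inter (meas_pc k))
  have h1 : s ∩ pc M k = (ch (cv M k)).symm '' ((ch (cv M k)).symm ⁻¹' (s ∩ pc M k)) := by
    rw [image_preimage_eq_of_subset]
    rw [range_symm he]
    exact fun _ h => pc_sub k h.2
  rw [h1, vol_image hg he hm, volume_eq, lintegral_image bg_met he hm]
  refine lintegral_congr fun y => ?_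
  rw [← ENNReal.ofReal_mul (P366Z.dens_nonneg _ _), dens_mul he]

theorem Met.integral_vol (hg : Met g) (f : M → ℝ) : ∫ x, f x ∂vol g = ∫ x, f x * dens g x := by
  rw [hg.vol_eq, integral_withDensity_eq_integral_toReal_smul
    hg.sm_dens.cont.measurable.ennreal_ofReal (Eventually.of_forall fun _ => ENNReal.ofReal_lt_top)]
  simp only [ENNReal.toReal_ofReal (dens_nonneg _ _), smul_eq_mul, mul_comm]

theorem Met.lintegral_vol (hg : Met g) (f : M → ℝ≥0∞) :
    ∫⁻ x, f x ∂vol g = ∫⁻ x, ENNReal.ofReal (dens g x) * f x := by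
  rw [hg.vol_eq, lintegral_withDensity_eq_lintegral_mul_non_measurable _
    hg.sm_dens.cont.measurable.ennreal_ofReal (Eventually.of_forall fun _ => ENNReal.ofReal_lt_top)]
  rfl

theorem Met.integrable_vol (hg : Met g) (f : M → ℝ) :
    Integrable f (vol g) ↔ Integrable fun x => f x * dens g x := by
  rw [hg.vol_eq, integrable_withDensity_iff hg.sm_dens.cont.measurable.ennreal_ofReal
    (Eventually.of_forall fun _ => ENNReal.ofReal_lt_top)]
  simp only [ENNReal.toReal_ofReal (dens_nonneg _ _)]

/-- an integral over a piece of a chart -/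
theorem integral_dens_image (he : e ∈ At M) (g : Fld n M) {B : Set (E n)} (hB : MeasurableSet B)
    (f : M → ℝ) : ∫ x in e.symm '' B, f x * dens g x =
      ∫ y in B, f (e.symm y) * P366Z.dens (rep e g) y := by
  rw [volume_eq, integral_image bg_met he hB]
  simp only [smul_eq_mul, ← dens_mul he g]
  exact integral_congr_ae (Eventually.of_forall fun y => by ring)

theorem lintegral_dens_image (he : e ∈ At M) (g : Fld n M) {B : Set (E n)} (hB : MeasurableSet B)
    (f : M → ℝ) : ∫⁻ x in e.symm '' B, ENNReal.ofReal (f x * dens g x) =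
      ∫⁻ y in B, ENNReal.ofReal (f (e.symm y) * P366Z.dens (rep e g) y) := by
  rw [volume_eq, lintegral_image bg_met he hB]
  refine lintegral_congr fun y => ?_
  rw [← ENNReal.ofReal_mul (P366Z.dens_nonneg _ _), ← dens_mul he g]
  congr 1
  ring

theorem integral_dens_chart (he : e ∈ At M) (g : Fld n M) {f : M → ℝ}
    (hf : ∀ x ∉ e.source, f x = 0) :
    ∫ x, f x * dens g x = ∫ y, f (e.symm y) * P366Z.dens (rep e g) y := by
  rw [← setIntegral_eq_integral_of_forall_compl_eq_zero (s := e.source)
    fun x hx => by rw [hf x hx, zero_mul], ← range_symm he, ← image_univ,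
    integral_dens_image he g MeasurableSet.univ, Measure.restrict_univ]

end Vale.Agent.P366M
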