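import Vale.Agent.P366M.Int
import Vale.Agent.P366Z.LinkA

/-!
# P366M: extension by zero from a chart; smooth approximation of locally Lipschitz functions
-/

open MeasureTheory Metric Filter Topology Set ContinuousLinearMap
open scoped ContDiff Convolution
open Vale.Agent.P366 Vale.Agent.P366.Stmt Vale.Agent.P366Z

noncomputable section

namespace Vale.Agent.P366M

/-- mollification on Euclidean space -/
theorem mollE {n : ℕ} {ψ : E n → ℝ} {Φ : E n × (Fin n → ℝ) → ℝ} {y₀ : E n} (hψ : P366Z.Lip ψ)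
    (hs : ∀ y ∉ closedBall y₀ 1, ψ y = 0) (hΦ : Continuous Φ) (h0 : ∀ y, Φ (y, 0) = 0) {ε : ℝ}
    (hε : 0 < ε) : ∃ v, Stmt.Smooth v ∧ (∀ y, |v y - ψ y| ≤ ε) ∧ (∀ y ∉ closedBall y₀ 2, v y = 0) ∧
      ∫ y, Φ (y, fun i => Stmt.pd i v y - Stmt.pd i ψ y) ≤ ε := by
  obtain ⟨A, hA0, hA⟩ := hψ.le
  obtain ⟨M, hM0, hM⟩ := hψ.pd_bd
  have hp : ∀ j : ℕ, (0 : ℝ) < 1 / ((j : ℝ) + 1) := fun j => by positivity
  let φ : ℕ → ContDiffBump (0 : E n) := fun j =>
    ⟨1 / ((j : ℝ) + 1) / 2, 1 / ((j : ℝ) + 1), half_pos (hp j), half_lt_self (hp j)⟩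
  have hφ : Tendsto (fun j => (φ j).rOut) atTop (𝓝 0) := tendsto_one_div_add_atTop_nhds_zero_nat
  have hφ1 : ∀ j, (φ j).rOut ≤ 1 := fun j =>
    (div_le_one (by positivity)).2 (le_add_of_nonneg_left (Nat.cast_nonneg j))
  let v : ℕ → E n → ℝ := fun j => (φ j).normed volume ⋆[lsmul ℝ ℝ, volume] ψ
  have hv : ∀ j, Stmt.Smooth (v j) := fun j =>
    (φ j).hasCompactSupport_normed.contDiff_convolution_left _ (φ j).contDiff_normed
      hψ.cont.locallyIntegrable
  have hz : ∀ j, ∀ y ∉ closedBall y₀ 2, v j y = 0 := fun j y hy => by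
    have k : ∀ z ∈ ball y (φ j).rOut, ψ z = 0 := fun z hz => hs z fun k => hy (mem_closedBall.2 (by
      linarith [dist_triangle y z y₀, mem_closedBall.1 k, mem_ball'.1 hz, hφ1 j]))
    exact ((φ j).normed_convolution_eq_right fun z hz => (k z hz).trans
      (k y (mem_ball_self (φ j).rOut_pos)).symm).trans (k y (mem_ball_self (φ j).rOut_pos))
  have hd : ∀ j i x, Stmt.pd i (v j) x =
      ((φ j).normed volume ⋆[lsmul ℝ ℝ, volume] Stmt.pd i ψ) x :=
    fun j i x => Lk.pd_conv (φ j).continuous_normed (φ j).hasCompactSupport_normed hψ i x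
  have hm : ∀ i, AEStronglyMeasurable (Stmt.pd i ψ) volume := fun i =>
    (measurable_pd hψ.cont i).aestronglyMeasurable
  have hb : ∀ j i x, |Stmt.pd i (v j) x - Stmt.pd i ψ x| ≤ 2 * M := fun j i x => by
    have h1 := (φ j).dist_normed_convolution_le (μ := volume) (x₀ := x) (ε := 2 * M) (hm i)
      fun y _ => (abs_sub _ _).trans (by linarith [hM y i, hM x i])
    rwa [← hd, Real.dist_eq] at h1
  have hl : ∀ᵐ x, ∀ i, Tendsto (fun j => Stmt.pd i (v j) x) atTop (𝓝 (Stmt.pd i ψ x)) := by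
    refine ae_all_iff.2 fun i => ?_
    simp only [hd]
    refine ContDiffBump.ae_convolution_tendsto_right_of_locallyIntegrable (K := 2) hφ
      (.of_forall fun j => le_of_eq (by simp only [φ]; ring)) ?_
    exact (memLp_top_of_bound (hm i) M (.of_forall fun x => hM x i)).locallyIntegrable le_top
  have hK := isCompact_closedBall y₀ 2
  obtain ⟨C, hC⟩ := (hK.prod (isCompact_closedBall (0 : Fin n → ℝ)
    (2 * M))).exists_bound_of_continuousOn hΦ.continuousOn
  have : IsFiniteMeasure (volume.restrict (closedBall y₀ 2)) := ⟨by simpa using hK.measure_lt_top⟩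
  have ht : Tendsto (fun j => ∫ x in closedBall y₀ 2,
      Φ (x, fun i => Stmt.pd i (v j) x - Stmt.pd i ψ x)) atTop
      (𝓝 (∫ x in closedBall y₀ 2, Φ (x, 0))) := by
    refine tendsto_integral_of_dominated_convergence (fun _ => C) (fun j => ?_) (integrable_const C)
      (fun j => (ae_restrict_mem hK.measurableSet).mono fun x hx => hC _ ⟨hx, ?_⟩)
      ((ae_restrict_of_ae hl).mono fun x hx => (hΦ.tendsto _).comp
        (tendsto_const_nhds.prodMk_nhds (tendsto_pi_nhds.2 fun i => ?_)))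
    · exact (hΦ.measurable.comp (measurable_id.prodMk (measurable_pi_lambda _ fun i =>
        ((hv j).pd i).cont.measurable.sub (measurable_pd hψ.cont i)))).aestronglyMeasurable
    · exact mem_closedBall_zero_iff.2 ((pi_norm_le_iff_of_nonneg (by positivity)).2 fun i => hb j i x)
    · simpa using (hx i).sub_const (Stmt.pd i ψ x)
  simp only [h0, integral_zero] at ht
  obtain ⟨j, h1, h2⟩ := ((ht.eventually (gt_mem_nhds hε)).and
    (hφ.eventually (gt_mem_nhds (div_pos hε hA0)))).exists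
  refine ⟨v j, hv j, fun x => ?_, hz j, le_trans (le_of_eq ?_) h1.le⟩
  · refine (φ j).dist_normed_convolution_le (μ := volume) hψ.cont.aestronglyMeasurable
      fun y hy => ?_
    have h3 := (lt_div_iff₀ hA0).1 ((mem_ball_iff_norm.1 hy).trans h2)
    exact (hA y x).trans (by linarith)
  · refine (setIntegral_eq_integral_of_forall_compl_eq_zero fun y hy => ?_).symm
    have k : ∀ {f : E n → ℝ}, (∀ y ∉ closedBall y₀ 2, f y = 0) → ∀ i, Stmt.pd i f y = 0 :=
      fun h i => by
        rw [P366Z.pd_congr (Eventually.mono (hK.isClosed.isOpen_compl.mem_nhds hy) h),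
          P366Z.pd_const]
    simp only [k (hz j), k fun z hz => hs z fun l => hz (closedBall_subset_closedBall one_le_two l),
      sub_self]
    exact h0 y

variable {n : ℕ} {M : Type} [Mf0 n M] {e : Ch n M} {g g0 : Fld n M} {φ w : M → ℝ}

section V

variable {V : Type} [NormedAddCommGroup V] [NormedSpace ℝ V] {v : E n → V} {B : Set (E n)}

/-- the extension by zero from the chart `e` -/
def zx (e : Ch n M) (v : E n → V) : M → V := e.source.indicator fun x => v (e x)

omit [NormedSpace ℝ V] in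
theorem zx_symm (he : e ∈ At M) (v : E n → V) (y : E n) : zx e v (e.symm y) = v y := by
  rw [zx, indicator_of_mem (symm_mem he y), right_inv he]

omit [NormedSpace ℝ V] in
theorem loc_zx (he : e ∈ At M) (v : E n → V) : loc e (zx e v) = v := funext (zx_symm he v)

omit [NormedSpace ℝ V] in
theorem zx_zero (hv : ∀ y ∉ B, v y = 0) {x : M} (hx : x ∉ e.symm '' B) : zx e v x = 0 :=
  indicator_apply_eq_zero.2 fun k => hv _ fun l => hx ⟨_, l, e.left_inv k⟩

omit [NormedSpace ℝ V] in
theorem tsupport_zx (he : e ∈ At M) (hB : IsCompact B) (hv : ∀ y ∉ B, v y = 0) :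
    tsupport (zx e v) ⊆ e.symm '' B :=
  closure_minimal (fun _ hx => by_contra fun k => hx (zx_zero hv k)) (cpt_image he hB).isClosed

omit [NormedSpace ℝ V] in
theorem supp_zx (he : e ∈ At M) (hB : IsCompact B) (hv : ∀ y ∉ B, v y = 0) :
    HasCompactSupport (zx e v) := HasCompactSupport.intro (cpt_image he hB) fun _ => zx_zero hv

theorem cd_zx {m : WithTop ℕ∞} (hm : m ≤ ∞) (he : e ∈ At M) (hB : IsCompact B)
    (hv : ∀ y ∉ B, v y = 0) (h : ContDiff ℝ m v) : CD m (zx e v) := cd_of_cAt hm fun x => by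
  by_cases hx : x ∈ e.symm '' B
  · obtain ⟨y, -, rfl⟩ := hx
    exact cAt_of_loc hm he (by rw [loc_zx he]; exact h.contDiffAt)
  · exact cAt_const.congr_of_eventuallyEq (Eventually.mono
      ((cpt_image he hB).isClosed.isOpen_compl.mem_nhds hx) fun _ => zx_zero hv)

end V

theorem apx_chart (hg : Met g) (h0 : Met g0) (he : e ∈ At M) (hφ : LLip φ) {y₀ : E n}
    (hs : tsupport φ ⊆ e.symm '' closedBall y₀ 1) (hw : Continuous w) {ε : ℝ} (hε : 0 < ε) :
    ∃ v, Smooth v ∧ HasCompactSupport v ∧ (∀ x, |v x - φ x| ≤ ε) ∧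
      ∫ x, w x * gn g (fun y => v y - φ y) x ∂vol g0 ≤ ε := by
  have hs' := (subset_tsupport φ).trans hs
  have hK := isCompact_closedBall y₀ 2
  have hG := hg.rep he
  obtain ⟨v, h1, h2, h3, h4⟩ := mollE (y₀ := y₀) (Φ := fun q => P366Z.dens (rep e g0) q.1 *
      (w (e.symm q.1) * √(∑ i, ∑ j, Stmt.up (rep e g) i j q.1 * q.2 i * q.2 j)))
    (hφ.lip_loc he (isCompact_closedBall _ _) hs')
    (fun y hy => by_contra fun k => let ⟨z, hz, l⟩ := hs' k; hy (symm_inj he l ▸ hz))
    (((h0.rep he).sm_dens.cont.comp continuous_fst).mul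
      ((hw.comp ((cont_symm he).comp continuous_fst)).mul (Continuous.sqrt
        (continuous_finsetSum _ fun i _ => continuous_finsetSum _ fun j _ =>
          (((hG.sm_up i j).cont.comp continuous_fst).mul (by fun_prop)).mul (by fun_prop)))))
    (fun y => by simp) hε
  have sv : Smooth (zx e v) := cd_zx le_rfl he hK h3 h1
  have z : ∀ x ∉ e.symm '' closedBall y₀ 2, zx e v x - φ x = 0 := fun x hx => by
    rw [zx_zero h3 hx, image_eq_zero_of_notMem_tsupport fun k =>
      hx (image_mono (closedBall_subset_closedBall one_le_two) (hs k)), sub_self]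
  refine ⟨zx e v, sv, supp_zx he hK h3, fun x => ?_, le_trans (le_of_eq ?_) h4⟩
  · by_cases hx : x ∈ e.symm '' closedBall y₀ 2
    · obtain ⟨y, -, rfl⟩ := hx
      rw [zx_symm he]
      exact h2 y
    · rw [z x hx, abs_zero]
      exact hε.le
  · rw [integral_chart h0 he fun x hx => by
      rw [gn_zero (pd_zero_of_ev (Eventually.mono ((cpt_image he hK).isClosed.isOpen_compl.mem_nhds
        fun k => hx (image_sub he _ k)) z)), mul_zero]]
    refine integral_congr_ae ?_
    filter_upwards [hφ.ae_loc he] with y hy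
    have k : ∀ i, Stmt.pd i (loc e fun y => zx e v y - φ y) y =
        Stmt.pd i v y - Stmt.pd i (loc e φ) y := fun i => by
      rw [← P366Z.pd_sub (h1.diff y) (hy.lc he)]
      exact congrArg (fun f => Stmt.pd i f y) (funext fun z => congrArg (· - _) (zx_symm he v z))
    rw [← gn_rep he g ((sv.diff _).sub hy), smul_eq_mul, P366Z.gn, P366Z.ip]
    simp only [k]

theorem Met.gn_sum_le (hg : Met g) {ι : Type*} (s : Finset ι) {f : ι → M → ℝ} {x : M}
    (hf : ∀ k, DAt (f k) x) : gn g (fun y => ∑ k ∈ s, f k y) x ≤ ∑ k ∈ s, gn g (f k) x := by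
  classical
  induction s using Finset.induction_on with
  | empty => simp [gn_zero (g := g) fun i => pd_const 0 i x]
  | insert a s ha ih =>
    simp only [Finset.sum_insert ha]
    exact (hg.gn_add_le fun i => pd_add (hf a) (DAt.fun_sum fun k _ => hf k) i).trans (by linarith)

theorem LLip.int_gn (hφ : LLip φ) (hc : HasCompactSupport φ) (hg : Met g) (h0 : Met g0)
    (hw : Continuous w) : Integrable (fun x => w x * gn g φ x) (vol g0) :=
  hφ.integrable_gn' hg h0 hc hw fun x hx => by rw [gn_zero (pd_zero_of_notMem hx), mul_zero]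

/-- **smooth approximation**, uniformly and in `W^(1,1)` -/
theorem LLip.apx (hφ : LLip φ) (hc : HasCompactSupport φ) (hg : Met g) (h0 : Met g0)
    (hw : Continuous w) (hw0 : ∀ x, 0 ≤ w x) {ε : ℝ} (hε : 0 < ε) :
    ∃ v, Smooth v ∧ HasCompactSupport v ∧ (∀ x, |v x - φ x| ≤ ε) ∧
      ∫ x, w x * gn g (fun y => v y - φ y) x ∂vol g0 ≤ ε := by
  obtain ⟨t, χ, h1, h2, -, -, h3⟩ := exists_pou hc (fun p => (ch p).symm '' closedBall (pt p) 1)
    fun p => image_nhds p (closedBall_mem_nhds _ one_pos)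
  have l : ∀ p, LLip fun x => χ p x * φ x := fun p => (h1 p).llip.mul hφ
  have e0 : ∀ x, φ x = ∑ p ∈ t, χ p x * φ x := fun x => by
    by_cases hx : x ∈ tsupport φ
    · rw [← Finset.sum_mul, (h3 x hx).self_of_nhds, one_mul]
    · simp [image_eq_zero_of_notMem_tsupport hx]
  have c0 : (0 : ℝ) < t.card + 1 := Nat.cast_add_one_pos _
  choose v a1 a2 a3 a4 using fun p => apx_chart hg h0 (ch_mem p) (l p)
    (tsupport_mul_subset_left.trans (h2 p)) hw (div_pos hε c0)
  have e1 : ∀ x, ∑ p ∈ t, v p x - φ x = ∑ p ∈ t, (v p x - χ p x * φ x) := fun x => by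
    rw [Finset.sum_sub_distrib, ← e0]
  have e2 : ∑ _p ∈ t, ε / (t.card + 1) ≤ ε := by
    rw [Finset.sum_const, nsmul_eq_mul, ← mul_div_assoc, div_le_iff₀ c0]
    linarith
  have l' : ∀ p, LLip fun x => v p x - χ p x * φ x := fun p => (a1 p).llip.sub (l p)
  have i1 : ∀ p, Integrable (fun x => w x * gn g (fun y => v p y - χ p y * φ y) x) (vol g0) :=
    fun p => (l' p).int_gn ((a2 p).sub hc.mul_left) hg h0 hw
  refine ⟨fun x => ∑ p ∈ t, v p x, CD.sum fun p _ => a1 p, ?_, fun x => ?_, ?_⟩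
  · refine HasCompactSupport.intro (t.isCompact_biUnion fun p _ => (a2 p).isCompact) fun x hx => ?_
    exact Finset.sum_eq_zero fun p hp => image_eq_zero_of_notMem_tsupport fun k =>
      hx (mem_biUnion hp k)
  · rw [e1]
    exact (Finset.abs_sum_le_sum_abs _ _).trans ((Finset.sum_le_sum fun p _ => a3 p x).trans e2)
  · simp only [e1]
    refine le_trans ?_ ((Finset.sum_le_sum fun p _ => a4 p).trans e2)
    rw [← integral_finsetSum _ fun p _ => i1 p]
    refine integral_mono_of_nonneg (.of_forall fun x => mul_nonneg (hw0 x) (gn_nonneg _ _ _))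
      (integrable_finsetSum _ fun p _ => i1 p) ?_
    filter_upwards [hφ.ae_diff' g0] with x hx
    rw [← Finset.mul_sum]
    exact mul_le_mul_of_nonneg_left (hg.gn_sum_le t fun p =>
      ((a1 p).diff x).sub (((h1 p).diff x).mul hx)) (hw0 x)

/-- the same with the bound of the weighted total variation -/
theorem LLip.apx_le (hφ : LLip φ) (hc : HasCompactSupport φ) (hg : Met g) (h0 : Met g0)
    (hw : Continuous w) (hw0 : ∀ x, 0 ≤ w x) {ε : ℝ} (hε : 0 < ε) :
    ∃ v, Smooth v ∧ HasCompactSupport v ∧ (∀ x, |v x - φ x| ≤ ε) ∧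
      ∫ x, w x * gn g v x ∂vol g0 ≤ ∫ x, w x * gn g φ x ∂vol g0 + ε := by
  obtain ⟨v, h1, h2, h3, h4⟩ := hφ.apx hc hg h0 hw hw0 hε
  have i1 := hφ.int_gn hc hg h0 hw
  have i2 := (h1.llip.sub hφ).int_gn (h2.sub hc) hg h0 hw
  refine ⟨v, h1, h2, h3, le_trans ?_ (add_le_add_right h4 _)⟩
  rw [← integral_add i1 i2]
  refine integral_mono_of_nonneg (.of_forall fun x => mul_nonneg (hw0 x) (gn_nonneg _ _ _))
    (i1.add i2) ?_
  filter_upwards [hφ.ae_diff' g0] with x hx
  rw [← mul_add]
  exact mul_le_mul_of_nonneg_left (hg.gn_add_le fun i => by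
    rw [pd_sub (h1.diff x) hx]; ring) (hw0 x)

end Vale.Agent.P366M
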