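import Vale.Agent.P366M.Calc
import Vale.Agent.P366N.Mk0
import Vale.Agent.P366Z.Int
import Mathlib.Analysis.Calculus.LocalExtr.LineDeriv

/-!
# P366M: partitions of unity, locally Lipschitz functions, integration by parts
-/

open MeasureTheory Metric Filter Topology Set
open scoped ContDiff NNReal
open Vale.Agent.P366 Vale.Agent.P366.Stmt Vale.Agent.P366Z

noncomputable section

namespace Vale.Agent.P366M

section E

variable {n : ℕ} {u : E n → ℝ}

theorem ll_on (hu : LocallyLipschitz u) (y : E n) (r : ℝ) :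
    ∃ K, LipschitzOnWith K u (closedBall y r) :=
  hu.locallyLipschitzOn.exists_lipschitzOnWith_of_compact (isCompact_closedBall y r)

theorem ll_ae_diff (hu : LocallyLipschitz u) : ∀ᵐ y, DifferentiableAt ℝ u y := by
  have h : ∀ k : ℕ, ∀ᵐ y, y ∈ closedBall (0 : E n) k → DifferentiableWithinAt ℝ u (closedBall 0 k) y :=
    fun k => (ll_on hu 0 k).choose_spec.ae_differentiableWithinAt_of_mem
  filter_upwards [ae_all_iff.2 h] with y hy
  obtain ⟨k, hk⟩ := exists_nat_gt ‖y‖
  exact (hy k (by simpa using hk.le)).differentiableAt (closedBall_mem_nhds_of_mem (by simpa using hk))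

theorem ll_lip (hu : LocallyLipschitz u) (hc : HasCompactSupport u) : P366Z.Lip u := by
  obtain ⟨R, hR, e⟩ := P366Z.out_of_supp hc
  obtain ⟨K, hK⟩ := ll_on hu 0 (R + 1)
  obtain ⟨A, hA⟩ := hu.continuous.bounded_above_of_compact_support hc
  have hA0 : 0 ≤ A := (norm_nonneg _).trans (hA 0)
  have k : ∀ x y : E n, R + 1 < ‖y‖ → |u x - u y| ≤ (K + A) * ‖x - y‖ := fun x y hy => by
    rw [e y (by linarith), sub_zero]
    by_cases hx : R ≤ ‖x‖
    · rw [e x hx, abs_zero]; positivity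
    · have h1 := norm_sub_norm_le y x
      rw [norm_sub_rev] at h1
      have h2 : |u x| ≤ A := hA x
      nlinarith [K.2, norm_nonneg (x - y)]
  refine P366Z.lip_of_le (K := K + A) fun x y => ?_
  by_cases hy : R + 1 < ‖y‖
  · exact k x y hy
  by_cases hx : R + 1 < ‖x‖
  · rw [abs_sub_comm, norm_sub_rev]; exact k y x hx
  have := hK.dist_le_mul x (by simpa using not_lt.1 hx) y (by simpa using not_lt.1 hy)
  rw [Real.dist_eq, dist_eq_norm] at this
  nlinarith [norm_nonneg (x - y)]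

theorem ll_pd (hu : LocallyLipschitz u) (y : E n) (r : ℝ) :
    ∃ L, ∀ z ∈ closedBall y r, ∀ i, |Stmt.pd i u z| ≤ L := by
  obtain ⟨K, hK⟩ := ll_on hu y (r + 1)
  refine ⟨K, fun z hz i => ?_⟩
  have := norm_lineDeriv_le_of_lipschitzOn ℝ (x₀ := z) (v := EuclideanSpace.single i (1 : ℝ))
    (closedBall_mem_nhds_of_mem (closedBall_subset_ball (by linarith) hz)) hK
  simp only [PiLp.norm_single, norm_one, mul_one, Real.norm_eq_abs] at this
  exact this

end E

section L0

variable {n : ℕ} {M : Type} [Mf0 n M] {e : Ch n M} {x : M} {y : E n} {g g0 : Fld n M}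
  {f h u v w U φ : M → ℝ} {K : Set M}

instance : LocallyCompactSpace M := ChartedSpace.locallyCompactSpace (E n) M

instance : SigmaCompactSpace M := inferInstance

/-! ### partitions of unity -/

/-- a finite partition of unity near a compact set -/
theorem exists_pou (hK : IsCompact K) (O : M → Set M) (hO : ∀ x, O x ∈ 𝓝 x) :
    ∃ (t : Finset M) (χ : M → M → ℝ), (∀ p, Smooth (χ p)) ∧ (∀ p, tsupport (χ p) ⊆ O p) ∧
      (∀ p x, 0 ≤ χ p x) ∧ (∀ x, ∑ p ∈ t, χ p x ≤ 1) ∧
      ∀ x ∈ K, ∀ᶠ z in 𝓝 x, ∑ p ∈ t, χ p z = 1 := by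
  classical
  have := P366N.isManifold (n := n) (M := M)
  obtain ⟨K', hK', hs⟩ := exists_compact_superset hK
  obtain ⟨ρ, hρ⟩ := SmoothPartitionOfUnity.exists_isSubordinate (modelWithCornersSelf ℝ (E n))
    isClosed_univ (fun x => interior (O x)) (fun _ => isOpen_interior)
    fun x _ => mem_iUnion.2 ⟨x, mem_interior_iff_mem_nhds.2 (hO x)⟩
  have hf := ρ.locallyFinite.finite_nonempty_inter_compact hK'
  refine ⟨hf.toFinset, fun p => ρ p, fun p => P366N.cd_of_contMDiff (ρ p).contMDiff,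
    fun p => (hρ p).trans interior_subset, fun p x => ρ.nonneg p x, fun x => ?_, fun x hx => ?_⟩
  · rw [← ρ.sum_eq_one (mem_univ x), finsum_eq_sum_of_support_subset
      (s := hf.toFinset ∪ ρ.finsupport x) _ fun p hp => by
        simp only [Finset.coe_union]; exact Or.inr ((ρ.mem_finsupport x).2 hp)]
    exact Finset.sum_le_sum_of_subset_of_nonneg Finset.subset_union_left
      fun p _ _ => ρ.nonneg p x
  · filter_upwards [isOpen_interior.mem_nhds (hs hx)] with z hz
    rw [← ρ.sum_eq_one (mem_univ z), finsum_eq_sum_of_support_subset]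
    intro p hp
    simp only [Finite.coe_toFinset]
    exact ⟨z, hp, interior_subset hz⟩

/-- a cut-off function which is `1` near a compact set -/
theorem exists_cut (hK : IsCompact K) {O : Set M} (hO : IsOpen O) (hKO : K ⊆ O) :
    ∃ χ : M → ℝ, Smooth χ ∧ HasCompactSupport χ ∧ tsupport χ ⊆ O ∧ (∀ x, 0 ≤ χ x ∧ χ x ≤ 1) ∧
      ∀ x ∈ K, χ =ᶠ[𝓝 x] fun _ => 1 := by
  classical
  obtain ⟨K1, h1, h2, h3⟩ := exists_compact_between hK hO hKO
  obtain ⟨K2, h4, h5, h6⟩ := exists_compact_between hK isOpen_interior h2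
  obtain ⟨t, χ, a1, a2, a3, a4, a5⟩ := exists_pou hK
    (fun p => if p ∈ K2 then interior K1 else K2ᶜ ∩ (K2ᶜ)) fun p => by
      split_ifs with hp
      · exact isOpen_interior.mem_nhds (h6 hp)
      · rw [inter_self]; exact h4.isClosed.isOpen_compl.mem_nhds hp
  have b : tsupport (fun x => ∑ p ∈ t.filter (· ∈ K2), χ p x) ⊆ K1 := by
    refine closure_minimal (fun x hx => ?_) h1.isClosed
    obtain ⟨p, hp, hx⟩ := Finset.exists_ne_zero_of_sum_ne_zero hx
    have := a2 p (subset_tsupport _ hx)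
    rw [if_pos (Finset.mem_filter.1 hp).2] at this
    exact interior_subset this
  refine ⟨fun x => ∑ p ∈ t.filter (· ∈ K2), χ p x, CD.sum fun p _ => a1 p,
    h1.of_isClosed_subset (isClosed_tsupport _) b, b.trans h3, fun x =>
    ⟨Finset.sum_nonneg fun p _ => a3 p x, le_trans (Finset.sum_le_sum_of_subset_of_nonneg
      (Finset.filter_subset _ _) fun p _ _ => a3 p x) (a4 x)⟩, fun x hx => ?_⟩
  filter_upwards [a5 x hx, isOpen_interior.mem_nhds (h5 hx)] with z hz hz'
  rw [← hz]
  refine Finset.sum_subset (Finset.filter_subset _ _) fun p hp hp' => ?_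
  by_contra h0
  have := a2 p (subset_tsupport _ h0)
  rw [if_neg fun k => hp' (Finset.mem_filter.2 ⟨hp, k⟩)] at this
  exact this.1 (interior_subset hz')

/-- bounds on a compact set are found in the charts -/
theorem bdd_cpt (hK : IsCompact K) {p : M → Prop} (H : ∀ x : M, ∃ C, ∀ y ∈ closedBall (pt x) 1,
    p ((ch x).symm y) → h ((ch x).symm y) ≤ C) : ∃ C, ∀ x ∈ K, p x → h x ≤ C := by
  refine hK.induction_on (p := fun s => ∃ C, ∀ x ∈ s, p x → h x ≤ C) ⟨0, by simp⟩
    (fun s t hst ⟨C, hC⟩ => ⟨C, fun x hx => hC x (hst hx)⟩) ?_ fun x _ => ?_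
  · rintro s t ⟨C, hC⟩ ⟨D, hD⟩
    refine ⟨max C D, fun x hx k => hx.elim (fun hx => ?_) fun hx => ?_⟩
    exacts [le_max_of_le_left (hC x hx k), le_max_of_le_right (hD x hx k)]
  · obtain ⟨C, hC⟩ := H x
    refine ⟨_, mem_nhdsWithin_of_mem_nhds (image_nhds x (closedBall_mem_nhds (pt x) one_pos)), C, ?_⟩
    rintro _ ⟨y, hy, rfl⟩
    exact hC y hy

theorem supp_loc {α : Type} [Zero α] {F : M → α} (he : e ∈ At M) {B : Set (E n)} (hB : IsCompact B)
    (hs : Function.support F ⊆ e.symm '' B) : HasCompactSupport (loc e F) :=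
  HasCompactSupport.intro hB fun y hy => by
    by_contra h0
    obtain ⟨z, hz, k⟩ := hs h0
    exact hy (symm_inj he k ▸ hz)

theorem cpt_image (he : e ∈ At M) {B : Set (E n)} (hB : IsCompact B) : IsCompact (e.symm '' B) :=
  hB.image (cont_symm he)

theorem image_sub (he : e ∈ At M) (B : Set (E n)) : e.symm '' B ⊆ e.source := by
  rintro _ ⟨y, -, rfl⟩; exact symm_mem he y

theorem pd_zero_of_notMem (hx : x ∉ tsupport u) (i : Fin n) : pd i u x = 0 := by
  rw [pd_congr (notMem_tsupport_iff_eventuallyEq.1 hx)]; exact pd_const 0 i x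

theorem pd_zero_of_ev {c : ℝ} (hx : u =ᶠ[𝓝 x] fun _ => c) (i : Fin n) : pd i u x = 0 := by
  rw [pd_congr hx, pd_const]

/-! ### locally Lipschitz functions -/

section V

variable {V W : Type} [NormedAddCommGroup V] [NormedSpace ℝ V] [NormedAddCommGroup W]
  [NormedSpace ℝ W] {F G : M → V}

omit [NormedSpace ℝ V] in
theorem LLip.cont (hF : LLip F) : Continuous F := cont_of_loc fun e he => (hF e he).continuous

theorem CD.llip (hF : CD 1 F) : LLip F := fun e he => (hF e he).locallyLipschitz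

omit [NormedSpace ℝ V] in
theorem llip_const (c : V) : LLip fun _ : M => c := fun _ _ => LocallyLipschitz.const c

omit [NormedSpace ℝ V] in
theorem LLip.add (hF : LLip F) (hG : LLip G) : LLip fun x => F x + G x := fun e he =>
  (hF e he).add (hG e he)

omit [NormedSpace ℝ V] in
theorem LLip.sub (hF : LLip F) (hG : LLip G) : LLip fun x => F x - G x := fun e he =>
  (hF e he).sub (hG e he)

omit [NormedSpace ℝ V] in
theorem LLip.neg (hF : LLip F) : LLip fun x => -F x := fun e he => (hF e he).neg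

omit [NormedSpace ℝ V] [NormedSpace ℝ W] in
theorem LLip.comp' (hF : LLip F) {Φ : V → W} (hΦ : LocallyLipschitz Φ) : LLip fun x => Φ (F x) :=
  fun e he => hΦ.comp (hF e he)

omit [NormedSpace ℝ V] [NormedSpace ℝ W] in
theorem LLip.comp (hF : LLip F) {Φ : V → W} {L : ℝ≥0} (hΦ : LipschitzWith L Φ) :
    LLip fun x => Φ (F x) := hF.comp' hΦ.locallyLipschitz

theorem LLip.comp_c1 (hF : LLip F) {Φ : V → W} (hΦ : ContDiff ℝ 1 Φ) : LLip fun x => Φ (F x) :=
  hF.comp' hΦ.locallyLipschitz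

omit [NormedSpace ℝ V] [NormedSpace ℝ W] in
theorem LLip.prodMk (hF : LLip F) {G : M → W} (hG : LLip G) : LLip fun x => (F x, G x) :=
  fun e he => (hF e he).prodMk (hG e he)

omit [NormedSpace ℝ V] in
theorem LLip.sum {ι : Type*} {s : Finset ι} {F : ι → M → V} (hF : ∀ i ∈ s, LLip (F i)) :
    LLip fun x => ∑ i ∈ s, F i x := by
  classical
  induction s using Finset.induction_on with
  | empty => simpa using llip_const 0
  | insert a s ha ih =>
    simp only [Finset.sum_insert ha]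
    exact (hF a (Finset.mem_insert_self _ _)).add
      (ih fun i hi => hF i (Finset.mem_insert_of_mem hi))

omit [NormedSpace ℝ V] in
/-- it is enough to check one chart near each point -/
theorem llip_of (H : ∀ x, ∃ e ∈ At M, x ∈ e.source ∧ ∃ L, ∃ t ∈ 𝓝 (e x),
    LipschitzOnWith L (loc e F) t) : LLip F := fun e he y => by
  obtain ⟨e', he', hx, L, t, ht, hL⟩ := H (e.symm y)
  obtain ⟨L', t', ht', hL'⟩ := ((tm_cd he he' hx).of_le one_le_oo).exists_lipschitzOnWith
  have h1 := (tm_diff he he' hx).continuousAt.preimage_mem_nhds ht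
  refine ⟨L * L', t' ∩ tm e e' ⁻¹' t ∩ {z | e.symm z ∈ e'.source},
    inter_mem (inter_mem ht' h1) (ev_src he hx), fun a ha b hb => ?_⟩
  have := (hL.comp (hL'.mono (inter_subset_left (t := tm e e' ⁻¹' t)))
    fun _ hz => hz.2) ha.1 hb.1
  simpa only [Function.comp, loc, symm_tm ha.2, symm_tm hb.2] using this

end V

theorem Smooth.llip (hu : Smooth u) : LLip u := hu.one.llip

theorem LLip.mul (hu : LLip u) (hv : LLip v) : LLip fun x => u x * v x :=
  (hu.prodMk hv).comp_c1 (Φ := fun p : ℝ × ℝ => p.1 * p.2) (contDiff_fst.mul contDiff_snd)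

theorem LLip.const_mul (hu : LLip u) (c : ℝ) : LLip fun x => c * u x := (llip_const c).mul hu

theorem LLip.div_const (hu : LLip u) (c : ℝ) : LLip fun x => u x / c := by
  simpa only [div_eq_inv_mul] using hu.const_mul c⁻¹

theorem LLip.max (hu : LLip u) (hv : LLip v) : LLip fun x => max (u x) (v x) := fun e he =>
  (hu e he).max (hv e he)

theorem LLip.min (hu : LLip u) (hv : LLip v) : LLip fun x => min (u x) (v x) := fun e he =>
  (hu e he).min (hv e he)

theorem LLip.abs (hu : LLip u) : LLip fun x => |u x| := hu.comp lipschitzWith_one_norm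

theorem LLip.pow (hu : LLip u) (k : ℕ) : LLip fun x => u x ^ k := hu.comp_c1 (contDiff_id.pow k)

theorem LLip.lip_loc (hu : LLip u) (he : e ∈ At M) {B : Set (E n)} (hB : IsCompact B)
    (hs : Function.support u ⊆ e.symm '' B) : P366Z.Lip (loc e u) :=
  ll_lip (hu e he) (supp_loc he hB hs)

theorem LLip.ae_loc (hu : LLip u) (he : e ∈ At M) : ∀ᵐ y, DAt u (e.symm y) :=
  (ll_ae_diff (hu e he)).mono fun _ hy => dAt_of_loc he hy

theorem LLip.ae_diff' (hu : LLip u) (g0 : Fld n M) : ∀ᵐ x ∂vol g0, DAt u x :=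
  ae_of_loc g0 fun _ he => hu.ae_loc he

theorem pd_of_isLocalMin (hu : IsLocalMin u x) (i : Fin n) : pd i u x = 0 :=
  congrFun (IsLocalMin.lineDeriv_eq_zero (isLocalMin_loc hu)) _

theorem pd_of_isLocalMax (hu : IsLocalMax u x) (i : Fin n) : pd i u x = 0 :=
  congrFun (IsLocalMax.lineDeriv_eq_zero (isLocalMax_loc hu)) _

/-- the gradients agree almost everywhere on the set where the functions agree -/
theorem LLip.ae_pd_eq' (hu : LLip u) (hv : LLip v) (g0 : Fld n M) :
    ∀ᵐ x ∂vol g0, u x = v x → ∀ i, pd i u x = pd i v x := by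
  filter_upwards [hu.ae_diff' g0, hv.ae_diff' g0, (hu.max hv).ae_diff' g0] with x h1 h2 h3 e i
  have k : ∀ {a : M → ℝ}, DAt a x → (∀ y, a y ≤ Max.max (u y) (v y)) →
      a x = Max.max (u x) (v x) → pd i (fun y => Max.max (u y) (v y)) x = pd i a x := by
    intro a ha h4 h5
    have h6 : IsLocalMin (fun y => Max.max (u y) (v y) - a y) x :=
      Eventually.of_forall fun y => by simp only [h5, sub_self, sub_nonneg, h4]
    have h7 := pd_sub h3 ha i
    rw [pd_of_isLocalMin h6] at h7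
    linarith
  rw [← k h1 (fun y => le_max_left _ _) (by rw [e, max_self]),
    ← k h2 (fun y => le_max_right _ _) (by rw [e, max_self])]

theorem LLip.ae_pd_zero' (hu : LLip u) (g0 : Fld n M) (c : ℝ) :
    ∀ᵐ x ∂vol g0, u x = c → ∀ i, pd i u x = 0 := by
  filter_upwards [hu.ae_pd_eq' (llip_const c) g0] with x h1 e i
  rw [h1 e, pd_const]

theorem LLip.ae_pd_max' (hu : LLip u) (hv : LLip v) (g0 : Fld n M) : ∀ᵐ x ∂vol g0, ∀ i,
    pd i (fun y => Max.max (u y) (v y)) x = if v x ≤ u x then pd i u x else pd i v x := by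
  filter_upwards [(hu.max hv).ae_pd_eq' hu g0, (hu.max hv).ae_pd_eq' hv g0] with x h1 h2 i
  split_ifs with e
  · exact h1 (max_eq_left e) i
  · exact h2 (max_eq_right (not_le.1 e).le) i

theorem LLip.ae_pd_min' (hu : LLip u) (hv : LLip v) (g0 : Fld n M) : ∀ᵐ x ∂vol g0, ∀ i,
    pd i (fun y => Min.min (u y) (v y)) x = if v x ≤ u x then pd i v x else pd i u x := by
  filter_upwards [(hu.min hv).ae_pd_eq' hu g0, (hu.min hv).ae_pd_eq' hv g0] with x h1 h2 i
  split_ifs with e
  · exact h2 (min_eq_right e) i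
  · exact h1 (min_eq_left (not_le.1 e).le) i

theorem gn_of_pd_eq (e : ∀ i, pd i u x = pd i v x) : gn g u x = gn g v x := by
  unfold gn ip; simp only [e]

theorem ip_of_pd_eq (e : ∀ i, pd i u x = pd i v x) : ip g u u x = ip g v v x := by
  unfold ip; simp only [e]

theorem LLip.ae_gn_max' (hu : LLip u) (hv : LLip v) (g g0 : Fld n M) : ∀ᵐ x ∂vol g0,
    gn g (fun y => Max.max (u y) (v y)) x = if v x ≤ u x then gn g u x else gn g v x := by
  filter_upwards [hu.ae_pd_max' hv g0] with x h1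
  split_ifs with e <;> exact gn_of_pd_eq fun i => by simp only [h1, e, if_true, if_false]

theorem LLip.ae_gn_min' (hu : LLip u) (hv : LLip v) (g g0 : Fld n M) : ∀ᵐ x ∂vol g0,
    gn g (fun y => Min.min (u y) (v y)) x = if v x ≤ u x then gn g v x else gn g u x := by
  filter_upwards [hu.ae_pd_min' hv g0] with x h1
  split_ifs with e <;> exact gn_of_pd_eq fun i => by simp only [h1, e, if_true, if_false]

theorem LLip.ae_gn_zero' (hu : LLip u) (g g0 : Fld n M) (c : ℝ) :
    ∀ᵐ x ∂vol g0, u x = c → gn g u x = 0 := by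
  filter_upwards [hu.ae_pd_zero' g0 c] with x h1 e
  exact gn_zero (h1 e)

/-! ### measurability and bounds -/

theorem dot_loc (he : e ∈ At M) (hu : DAt u (e.symm y)) (X : Fin n → M → ℝ) :
    ∑ i, pd i u (e.symm y) * X i (e.symm y) = ∑ i, Stmt.pd i (loc e u) y * repV e X i y := by
  simp only [pd_rep he hu]
  exact (dot_rep he (fun j => pd j u) X y).symm

theorem Met.aemeas_ip' (hg : Met g) (hu : LLip u) (hv : LLip v) (g0 : Fld n M) :
    AEMeasurable (ip g u v) (vol g0) := aemeas_of_loc g0 fun e he =>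
  ((hg.rep he).measurable_ip (hu e he).continuous (hv e he).continuous).aemeasurable.congr (by
    filter_upwards [hu.ae_loc he, hv.ae_loc he] with y h1 h2 using ip_rep he g h1 h2)

theorem Met.aemeas_gn' (hg : Met g) (hu : LLip u) (g0 : Fld n M) :
    AEMeasurable (gn g u) (vol g0) := (hg.aemeas_ip' hu hu g0).sqrt

theorem LLip.aemeas_dot' (hu : LLip u) {X : Fin n → M → ℝ} (hX : CV 0 X) (g0 : Fld n M) :
    AEMeasurable (fun x => ∑ i, pd i u x * X i x) (vol g0) := aemeas_of_loc g0 fun e he =>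
  (Finset.measurable_sum _ fun i _ => (P366Z.measurable_pd (hu e he).continuous i).mul
    (hX e he i).continuous.measurable).aemeasurable.congr (by
    filter_upwards [hu.ae_loc he] with y h1 using (dot_loc he h1 X).symm)

theorem LLip.dot_bd (hu : LLip u) {X : Fin n → M → ℝ} (hX : CV 0 X) (hK : IsCompact K) :
    ∃ C, ∀ x ∈ K, DAt u x → |∑ i, pd i u x * X i x| ≤ C := bdd_cpt hK fun x => by
  have he := ch_mem x
  obtain ⟨L, hL⟩ := ll_pd (hu _ he) (pt x) 1
  obtain ⟨C, hC⟩ := (isCompact_closedBall (pt x) 1).exists_bound_of_continuousOn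
    (continuous_finsetSum Finset.univ fun i _ =>
      (hX _ he i).continuous.abs.const_mul L).continuousOn
  refine ⟨C, fun y hy h1 => ?_⟩
  rw [dot_loc he h1]
  refine (Finset.abs_sum_le_sum_abs _ _).trans (le_trans (Finset.sum_le_sum fun i _ => ?_)
    ((le_abs_self _).trans (hC y hy)))
  rw [abs_mul]
  exact mul_le_mul_of_nonneg_right (hL y hy i) (abs_nonneg _)

theorem LLip.ip_bd (hu : LLip u) (hv : LLip v) (hg : Met g) (hK : IsCompact K) :
    ∃ C, ∀ x ∈ K, DAt u x ∧ DAt v x → |ip g u v x| ≤ C := bdd_cpt hK fun x => by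
  have he := ch_mem x
  obtain ⟨L, hL⟩ := ll_pd (hu _ he) (pt x) 1
  obtain ⟨L', hL'⟩ := ll_pd (hv _ he) (pt x) 1
  obtain ⟨C, hC⟩ := (isCompact_closedBall (pt x) 1).exists_bound_of_continuousOn
    (continuous_finsetSum Finset.univ fun i _ => continuous_finsetSum Finset.univ fun j _ =>
      ((((hg.rep he).sm_up i j).cont.abs.mul_const L).mul_const L')).continuousOn
  refine ⟨C, fun y hy h1 => ?_⟩
  rw [← ip_rep he g h1.1 h1.2]
  refine (Finset.abs_sum_le_sum_abs _ _).trans (le_trans (Finset.sum_le_sum fun i _ =>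
    (Finset.abs_sum_le_sum_abs _ _).trans (Finset.sum_le_sum fun j _ => ?_))
    ((le_abs_self _).trans (hC y hy)))
  rw [abs_mul, abs_mul]
  exact mul_le_mul (mul_le_mul_of_nonneg_left (hL y hy i) (abs_nonneg _)) (hL' y hy j)
    (abs_nonneg _) (mul_nonneg (abs_nonneg _) ((abs_nonneg _).trans (hL y hy i)))

theorem LLip.gn_bd (hu : LLip u) (hg : Met g) (hK : IsCompact K) :
    ∃ C, ∀ x ∈ K, DAt u x → gn g u x ≤ C := by
  obtain ⟨C, hC⟩ := hu.ip_bd hu hg hK
  exact ⟨√C, fun x hx h1 => Real.sqrt_le_sqrt ((le_abs_self _).trans (hC x hx ⟨h1, h1⟩))⟩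

/-- a continuous function times a bounded measurable function with compact support -/
theorem Met.integrable_cpt (h0 : Met g0) (hK : IsCompact K) (hf : Continuous f)
    (hh : AEMeasurable h (vol g0)) {C : ℝ} (hC : ∀ᵐ x ∂vol g0, x ∈ K → |h x| ≤ C)
    (e : ∀ x ∉ K, f x * h x = 0) : Integrable (fun x => f x * h x) (vol g0) := by
  have := h0.locFin
  obtain ⟨A, hA⟩ := hK.exists_bound_of_continuousOn hf.continuousOn
  refine (integrableOn_iff_integrable_of_support_subset (s := K) fun x hx => ?_).1 ?_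
  · by_contra k
    exact hx (e x k)
  · refine Measure.integrableOn_of_bounded (M := A * C) hK.measure_lt_top.ne
      (hf.aemeasurable.mul hh).aestronglyMeasurable ?_
    filter_upwards [ae_restrict_mem hK.measurableSet, ae_restrict_of_ae hC] with x hx h1
    rw [norm_mul]
    exact mul_le_mul (hA x hx) (h1 hx) (norm_nonneg _) ((norm_nonneg _).trans (hA x hx))

theorem LLip.integrable_dot' (hu : LLip u) (h0 : Met g0) {X : Fin n → M → ℝ} (hX : CV 0 X)
    (hK : IsCompact K) (hf : Continuous f) (e : ∀ x ∉ K, f x * ∑ i, pd i u x * X i x = 0) :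
    Integrable (fun x => f x * ∑ i, pd i u x * X i x) (vol g0) := by
  obtain ⟨C, hC⟩ := hu.dot_bd hX hK
  exact h0.integrable_cpt hK hf (hu.aemeas_dot' hX g0)
    ((hu.ae_diff' g0).mono fun x h1 h2 => hC x h2 h1) e

theorem LLip.integrable_ip' (hu : LLip u) (hv : LLip v) (hg : Met g) (h0 : Met g0)
    (hK : IsCompact K) (hf : Continuous f) (e : ∀ x ∉ K, f x * ip g u v x = 0) :
    Integrable (fun x => f x * ip g u v x) (vol g0) := by
  obtain ⟨C, hC⟩ := hu.ip_bd hv hg hK
  refine h0.integrable_cpt hK hf (hg.aemeas_ip' hu hv g0) (C := C) ?_ e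
  filter_upwards [hu.ae_diff' g0, hv.ae_diff' g0] with x h1 h2 h3 using hC x h3 ⟨h1, h2⟩

theorem LLip.integrable_gn' (hu : LLip u) (hg : Met g) (h0 : Met g0)
    (hK : IsCompact K) (hf : Continuous f) (e : ∀ x ∉ K, f x * gn g u x = 0) :
    Integrable (fun x => f x * gn g u x) (vol g0) := by
  obtain ⟨C, hC⟩ := hu.gn_bd hg hK
  refine h0.integrable_cpt hK hf (hg.aemeas_gn' hu g0) (C := C) ?_ e
  filter_upwards [hu.ae_diff' g0] with x h1 h2
  rw [abs_of_nonneg (gn_nonneg _ _ _)]
  exact hC x h2 h1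

theorem Met.integrable_supp (h0 : Met g0) (hf : Continuous f) (hc : HasCompactSupport f) :
    Integrable f (vol g0) :=
  have := h0.locFin
  hf.integrable_of_hasCompactSupport hc

/-! ### integration by parts -/

theorem LLip.int_dot (hφ : LLip φ) (hc : HasCompactSupport φ) (h0 : Met g0) {X : Fin n → M → ℝ}
    (hX : CV 0 X) : Integrable (fun x => ∑ i, pd i φ x * X i x) (vol g0) := by
  simpa using hφ.integrable_dot' h0 hX hc (f := fun _ => 1) continuous_const fun x hx => by
    simp [pd_zero_of_notMem hx]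

theorem Met.ibp_chart (hg : Met g) (he : e ∈ At M) (hφ : LLip φ) {B : Set (E n)} (hB : IsCompact B)
    (hs : tsupport φ ⊆ e.symm '' B) {X : Fin n → M → ℝ} (hX : CV 1 X) :
    ∫ x, φ x * dv g X x ∂vol g = -∫ x, ∑ i, pd i φ x * X i x ∂vol g := by
  have h1 : ∀ x ∉ e.source, x ∉ tsupport φ := fun x hx k => hx (image_sub he B (hs k))
  have hs' := (subset_tsupport φ).trans hs
  have := (hg.rep he).ibp_dv (hφ.lip_loc he hB hs') (supp_loc he hB hs') (hX e he)
  rw [integral_chart hg he fun x hx => by rw [image_eq_zero_of_notMem_tsupport (h1 x hx), zero_mul],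
    integral_chart hg he fun x hx => by simp [pd_zero_of_notMem (h1 x hx)]]
  convert this using 2
  · funext y
    rw [dv_rep hg he (hX.dv one_ne_zero _), smul_eq_mul, mul_comm]; rfl
  · refine integral_congr_ae ?_
    filter_upwards [hφ.ae_loc he] with y hy
    rw [dot_loc he hy, smul_eq_mul, mul_comm]

/-- the divergence theorem -/
theorem Met.ibp_dv' (hg : Met g) (hφ : LLip φ) (hc : HasCompactSupport φ) {X : Fin n → M → ℝ}
    (hX : CV 1 X) : ∫ x, φ x * dv g X x ∂vol g = -∫ x, ∑ i, pd i φ x * X i x ∂vol g := by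
  obtain ⟨t, χ, h1, h2, -, -, h3⟩ := exists_pou hc (fun p => (ch p).symm '' closedBall (pt p) 1)
    fun p => image_nhds p (closedBall_mem_nhds _ one_pos)
  have l : ∀ p, LLip fun x => χ p x * φ x := fun p => (h1 p).llip.mul hφ
  have e0 : φ = fun x => ∑ p ∈ t, χ p x * φ x := funext fun x => by
    by_cases hx : x ∈ tsupport φ
    · rw [← Finset.sum_mul, (h3 x hx).self_of_nhds, one_mul]
    · simp [image_eq_zero_of_notMem_tsupport hx]
  have e1 : ∀ x, φ x * dv g X x = ∑ p ∈ t, χ p x * φ x * dv g X x := fun x => by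
    rw [← Finset.sum_mul, ← congrFun e0 x]
  have e2 : ∀ᵐ x ∂vol g, ∑ i, pd i φ x * X i x =
      ∑ p ∈ t, ∑ i, pd i (fun x => χ p x * φ x) x * X i x := by
    filter_upwards [hφ.ae_diff' g] with x hx
    rw [Finset.sum_comm]
    refine Finset.sum_congr rfl fun i _ => ?_
    rw [← Finset.sum_mul, ← pd_sum t fun p _ => ((h1 p).diff x).mul hx, ← e0]
  simp only [e1]
  rw [integral_congr_ae e2, integral_finsetSum, integral_finsetSum, ← Finset.sum_neg_distrib]
  · exact Finset.sum_congr rfl fun p _ => hg.ibp_chart (ch_mem p) (l p) (isCompact_closedBall _ _)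
      (tsupport_mul_subset_left.trans (h2 p)) hX
  · exact fun p _ => (l p).int_dot hc.mul_left hg (hX.of_le zero_le_one)
  · exact fun p _ => hg.integrable_supp ((l p).cont.mul (hg.cont_dv hX)) hc.mul_left.mul_right

theorem Met.integral_dv' (hg : Met g) {X : Fin n → M → ℝ} (hX : CV 1 X) (hK : IsCompact K)
    (e : ∀ x ∉ K, ∀ i, X i x = 0) : ∫ x, dv g X x ∂vol g = 0 := by
  obtain ⟨χ, h1, h2, -, -, h3⟩ := exists_cut hK isOpen_univ (subset_univ _)
  have := hg.ibp_dv' h1.llip h2 hX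
  have e1 : ∀ x, χ x * dv g X x = dv g X x := fun x => by
    by_cases hx : x ∈ K
    · rw [(h3 x hx).self_of_nhds, one_mul]
    · have : dv g X x = 0 := by
        rw [dv_congr (Y := fun i y => 0 * X i y) fun i => ?_, dv_const_mul, zero_mul]
        filter_upwards [hK.isClosed.isOpen_compl.mem_nhds hx] with z hz
        rw [e z hz, zero_mul]
      rw [this, mul_zero]
  have e2 : ∀ x, ∑ i, pd i χ x * X i x = 0 := fun x => by
    by_cases hx : x ∈ K
    · simp [pd_zero_of_ev (h3 x hx)]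
    · simp [e x hx]
  simpa only [e1, e2, integral_zero, neg_zero] using this

theorem Met.ibp_wl' (hg : Met g) (hφ : LLip φ) (hc : HasCompactSupport φ) (hU : CD 1 U)
    (hu : CD 2 u) : ∫ x, φ x * wl g U u x ∂vol g = -∫ x, U x ^ 2 * ip g φ u x ∂vol g := by
  simp only [wl_eq_dv g U hu.contDiffAt]
  rw [hg.ibp_dv' hφ hc (CV.smul (hU.pow 2) (hg.contDiff_gr hu))]
  congr 2
  funext x
  rw [ip_eq_gr, Finset.mul_sum]
  exact Finset.sum_congr rfl fun i _ => by ring

theorem Met.ibp_lap' (hg : Met g) (hφ : LLip φ) (hc : HasCompactSupport φ) (hu : CD 2 u) :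
    ∫ x, φ x * lap g u x ∂vol g = -∫ x, ip g φ u x ∂vol g := by
  simpa [wl_one] using hg.ibp_wl' hφ hc (U := fun _ => 1) cd_const hu

/-- the second identity of Green -/
theorem Met.green_wl' (hg : Met g) (hφ : CD 2 φ) (hc : HasCompactSupport φ) (hU : CD 1 U)
    (hu : CD 2 u) : ∫ x, φ x * wl g U u x ∂vol g = ∫ x, u x * wl g U φ x ∂vol g := by
  obtain ⟨χ, a1, a2, -, -, a3⟩ := exists_cut hc isOpen_univ (subset_univ _)
  have h2 := hg.ibp_wl' (a1.llip.mul (hu.of_le one_le_two).llip) a2.mul_right hU hφ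
  have e0 : ∀ x ∉ tsupport φ, φ =ᶠ[𝓝 x] fun _ => 0 := fun x hx =>
    notMem_tsupport_iff_eventuallyEq.1 hx
  have e1 : ∀ x, χ x * u x * wl g U φ x = u x * wl g U φ x := fun x => by
    by_cases hx : x ∈ tsupport φ
    · rw [(a3 x hx).self_of_nhds, one_mul]
    · rw [wl_congr EventuallyEq.rfl (e0 x hx), wl_const]; simp
  have e2 : ∀ x, ip g (fun x => χ x * u x) φ x = ip g φ u x := fun x => by
    by_cases hx : x ∈ tsupport φ
    · rw [hg.ip_sy φ]
      refine ip_congr ?_ EventuallyEq.rfl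
      filter_upwards [a3 x hx] with z hz
      rw [hz, one_mul]
    · rw [ip_congr EventuallyEq.rfl (e0 x hx), ip_congr (e0 x hx) EventuallyEq.rfl,
        ip_const_left, ip_const_right]
  simp only [e1, e2] at h2
  rw [h2, hg.ibp_wl' (hφ.of_le one_le_two).llip hc hU hu]

theorem Met.green_lap' (hg : Met g) (hφ : CD 2 φ) (hc : HasCompactSupport φ) (hu : CD 2 u) :
    ∫ x, φ x * lap g u x ∂vol g = ∫ x, u x * lap g φ x ∂vol g := by
  simpa [wl_one] using hg.green_wl' hφ hc (U := fun _ => 1) cd_const hu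

end L0

/-! ### the same for the background volume -/

variable {n : ℕ} {M : Type} [Mf n M] {g : Fld n M} {f h u v w U φ : M → ℝ} {K : Set M}

theorem LLip.ae_diff (hu : LLip u) : ∀ᵐ x, DAt u x := hu.ae_diff' bg

theorem LLip.ae_pd_eq (hu : LLip u) (hv : LLip v) :
    ∀ᵐ x, u x = v x → ∀ i, pd i u x = pd i v x := hu.ae_pd_eq' hv bg

theorem LLip.ae_pd_zero (hu : LLip u) (c : ℝ) : ∀ᵐ x, u x = c → ∀ i, pd i u x = 0 :=
  hu.ae_pd_zero' bg c

theorem LLip.ae_pd_max (hu : LLip u) (hv : LLip v) : ∀ᵐ x, ∀ i,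
    pd i (fun y => Max.max (u y) (v y)) x = if v x ≤ u x then pd i u x else pd i v x :=
  hu.ae_pd_max' hv bg

theorem LLip.ae_pd_min (hu : LLip u) (hv : LLip v) : ∀ᵐ x, ∀ i,
    pd i (fun y => Min.min (u y) (v y)) x = if v x ≤ u x then pd i v x else pd i u x :=
  hu.ae_pd_min' hv bg

theorem LLip.ae_gn_max (hu : LLip u) (hv : LLip v) (g : Fld n M) : ∀ᵐ x,
    gn g (fun y => Max.max (u y) (v y)) x = if v x ≤ u x then gn g u x else gn g v x :=
  hu.ae_gn_max' hv g bg

theorem LLip.ae_gn_min (hu : LLip u) (hv : LLip v) (g : Fld n M) : ∀ᵐ x,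
    gn g (fun y => Min.min (u y) (v y)) x = if v x ≤ u x then gn g v x else gn g u x :=
  hu.ae_gn_min' hv g bg

theorem LLip.ae_gn_zero (hu : LLip u) (g : Fld n M) (c : ℝ) : ∀ᵐ x, u x = c → gn g u x = 0 :=
  hu.ae_gn_zero' g bg c

theorem Met.aemeas_ip (hg : Met g) (hu : LLip u) (hv : LLip v) : AEMeasurable (ip g u v) :=
  hg.aemeas_ip' hu hv bg

theorem Met.aemeas_gn (hg : Met g) (hu : LLip u) : AEMeasurable (gn g u) := hg.aemeas_gn' hu bg

theorem LLip.aemeas_dot (hu : LLip u) {X : Fin n → M → ℝ} (hX : CV 0 X) :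
    AEMeasurable fun x => ∑ i, pd i u x * X i x := hu.aemeas_dot' hX bg

theorem integrable_cpt (hK : IsCompact K) (hf : Continuous f) (hh : AEMeasurable h) {C : ℝ}
    (hC : ∀ᵐ x, x ∈ K → |h x| ≤ C) (e : ∀ x ∉ K, f x * h x = 0) :
    Integrable fun x => f x * h x := bg_met.integrable_cpt hK hf hh hC e

theorem LLip.integrable_dot (hu : LLip u) {X : Fin n → M → ℝ} (hX : CV 0 X)
    (hK : IsCompact K) (hf : Continuous f) (e : ∀ x ∉ K, f x * ∑ i, pd i u x * X i x = 0) :
    Integrable fun x => f x * ∑ i, pd i u x * X i x := hu.integrable_dot' bg_met hX hK hf e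

theorem LLip.integrable_ip (hu : LLip u) (hv : LLip v) (hg : Met g) (hK : IsCompact K)
    (hf : Continuous f) (e : ∀ x ∉ K, f x * ip g u v x = 0) :
    Integrable fun x => f x * ip g u v x := hu.integrable_ip' hv hg bg_met hK hf e

theorem LLip.integrable_gn (hu : LLip u) (hg : Met g) (hK : IsCompact K) (hf : Continuous f)
    (e : ∀ x ∉ K, f x * gn g u x = 0) : Integrable fun x => f x * gn g u x :=
  hu.integrable_gn' hg bg_met hK hf e

/-- the divergence theorem -/
theorem Met.ibp_dv (hg : Met g) (hφ : LLip φ) (hc : HasCompactSupport φ) {X : Fin n → M → ℝ}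
    (hX : CV 1 X) :
    ∫ x, φ x * dv g X x * dens g x = -∫ x, (∑ i, pd i φ x * X i x) * dens g x := by
  rw [← hg.integral_vol, ← hg.integral_vol, hg.ibp_dv' hφ hc hX]

theorem Met.integral_dv (hg : Met g) {X : Fin n → M → ℝ} (hX : CV 1 X) (hK : IsCompact K)
    (e : ∀ x ∉ K, ∀ i, X i x = 0) : ∫ x, dv g X x * dens g x = 0 := by
  rw [← hg.integral_vol, hg.integral_dv' hX hK e]

theorem Met.ibp_wl (hg : Met g) (hφ : LLip φ) (hc : HasCompactSupport φ) (hU : CD 1 U)
    (hu : CD 2 u) :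
    ∫ x, φ x * wl g U u x * dens g x = -∫ x, U x ^ 2 * ip g φ u x * dens g x := by
  rw [← hg.integral_vol, ← hg.integral_vol, hg.ibp_wl' hφ hc hU hu]

theorem Met.ibp_lap (hg : Met g) (hφ : LLip φ) (hc : HasCompactSupport φ) (hu : CD 2 u) :
    ∫ x, φ x * lap g u x * dens g x = -∫ x, ip g φ u x * dens g x := by
  rw [← hg.integral_vol, ← hg.integral_vol, hg.ibp_lap' hφ hc hu]

/-- the second identity of Green -/
theorem Met.green_wl (hg : Met g) (hφ : CD 2 φ) (hc : HasCompactSupport φ) (hU : CD 1 U)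
    (hu : CD 2 u) :
    ∫ x, φ x * wl g U u x * dens g x = ∫ x, u x * wl g U φ x * dens g x := by
  rw [← hg.integral_vol, ← hg.integral_vol, hg.green_wl' hφ hc hU hu]

theorem Met.green_lap (hg : Met g) (hφ : CD 2 φ) (hc : HasCompactSupport φ) (hu : CD 2 u) :
    ∫ x, φ x * lap g u x * dens g x = ∫ x, u x * lap g φ x * dens g x := by
  rw [← hg.integral_vol, ← hg.integral_vol, hg.green_lap' hφ hc hu]

end Vale.Agent.P366M
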