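import Vale.Agent.P366M.Map

/-!
# P366M: local isometries and the change of variables
-/

open MeasureTheory Metric Filter Topology Set Matrix
open scoped ContDiff
open Vale.Agent.P366 Vale.Agent.P366.Stmt Vale.Agent.P366Z
open Vale.Agent.P366P (Ctx Chg C3 PT PC PV PF)
open Vale.Agent.P366D hiding Null Par Per Sub Lim
open Vale.Agent.P366N (Atl LD Cp)

noncomputable section

namespace Vale.Agent.P366M

variable {n : ℕ} {M : Type} [Mf0 n M] {Z : Type} [Mf0 n Z] {Φ : Z → M} {x : Z} {g T : Fld n M}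
  {g' T' : Fld n Z} {u v U : M → ℝ} {u' v' U' : Z → ℝ} {e : Ch n Z} {e' : Ch n M} {y : E n}

/-- the pull-back of a vector field -/
def pullV (Φ : Z → M) (X : Fin n → M → ℝ) : Fin n → Z → ℝ := fun i x =>
  ∑ a, (jm Φ x)⁻¹ i a * X a (Φ x)

theorem repV_pull (he : e ∈ At Z) (he' : e' ∈ At M) (h : SmM Φ (e.symm y))
    (hm : Φ (e.symm y) ∈ e'.source) (X : Fin n → M → ℝ) (i : Fin n) :
    repV e (pullV Φ X) i y = ∑ a, (jac (mp e e' Φ) y)⁻¹ i a * repV e' X a (mp e e' Φ y) := by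
  have h1 : (fun i => repV e (pullV Φ X) i y) =
      (jac (mp e e' Φ) y)⁻¹ *ᵥ fun a => repV e' X a (mp e e' Φ y) := by
    have h2 : (fun a => pullV Φ X a (e.symm y)) =
      (jm Φ (e.symm y))⁻¹ *ᵥ fun a => X a (Φ (e.symm y)) := rfl
    rw [repV_eq, repV_eq, h2, Matrix.mulVec_mulVec, Matrix.mulVec_mulVec, ← Matrix.mul_inv_rev,
      ← Matrix.mul_inv_rev, jm_chart he he' h hm, mp, e'.left_inv hm]
  exact congrFun h1 i

/-- a local diffeomorphism gives charts -/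
theorem exists_chart (h : ∀ᶠ z in 𝓝 x, SmM Φ z) (hd : IsUnit (jm Φ x).det) (he' : e' ∈ At M)
    (hm : Φ x ∈ e'.source) {O : Set Z} (hO : O ∈ 𝓝 x) :
    ∃ c ∈ At Z, x ∈ c.source ∧ c.source ⊆ O ∧ ∀ᶠ z in 𝓝 x, c z = e' (Φ z) := by
  have h0 := h.self_of_nhds
  have hx : Φ ((ch x).symm (pt x)) ∈ e'.source := by rwa [symm_pt]
  have h1 : ∀ᶠ y in 𝓝 (pt x), ContDiffAt ℝ ∞ (mp (ch x) e' Φ) y := by
    filter_upwards [ev_pt.1 h, ev_source (SmP.ct h0) hx] with y a b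
    exact a.cd (ch_mem x) he' b
  obtain ⟨t, ht, tp, tx⟩ := _root_.eventually_nhds_iff.1 h1
  have h2 := (ht _ tx).differentiableAt (by simp)
  have h3 : (fderiv ℝ (mp (ch x) e' Φ) (pt x)).det ≠ 0 := by
    have h4 := jm_chart (ch_mem x) he' (by rwa [symm_pt]) hx
    rw [symm_pt, J_pt, Matrix.mul_one] at h4
    rw [h4, Matrix.det_mul] at hd
    rw [det_fderiv h2]
    exact right_ne_zero_of_mul hd.ne_zero
  obtain ⟨θ, t1, -, t3, t4⟩ := P366N.locdiff tp tx ht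
    ((fderiv ℝ (mp (ch x) e' Φ) (pt x)).toContinuousLinearEquivOfDetNeZero h3)
    (by simpa using h2.hasFDerivAt)
  have hs : x ∈ ((ch x).trans θ).source := ⟨mem_ch x, t1⟩
  obtain ⟨c, c1, c2, c3, c4, r, hr, c5, c6⟩ :=
    exists_germ ((mx_of_At (ch_mem x)).trans t4) hs hO
  refine ⟨c, c1, c2, fun p hp => (c3 hp).1, ?_⟩
  have h5 : ∀ᶠ z in 𝓝 x, c z ∈ ball (((ch x).trans θ) x) r :=
    (c.continuousAt c2).eventually (by rw [c4]; exact ball_mem_nhds _ hr)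
  filter_upwards [h5, c.open_source.mem_nhds c2, chart_source_mem_nhds (E n) x] with z a b d
  have h6 := c6 _ a
  rw [c.left_inv b] at h6
  have h7 := ((ch x).trans θ).right_inv (c5 a)
  rw [← h6] at h7
  rw [← h7]
  show θ (ch x z) = _
  rw [t3, mp, (ch x).left_inv d]

theorem pt_pull (he : e ∈ At Z) (he' : e' ∈ At M) (h : ∀ᶠ z in 𝓝 (e.symm y), SmM Φ z)
    (hm : Φ (e.symm y) ∈ e'.source) (eT : T' =ᶠ[𝓝 (e.symm y)] pull Φ T) :
    PT (mp e e' Φ) (rep e' T) (rep e T') y := by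
  filter_upwards [(ev_iff he).1 h, ev_source (h.self_of_nhds.lc he).ct hm, rep_congr he eT]
    with z a b c i j
  rw [c, rep_pull' he he' a b]
  rfl

theorem pf_pull (he : e ∈ At Z) (h : SmM Φ (e.symm y)) (hm : Φ (e.symm y) ∈ e'.source)
    (eu : u' =ᶠ[𝓝 (e.symm y)] fun z => u (Φ z)) : PF (mp e e' Φ) (loc e' u) (loc e u') y :=
  (loc_congr' he eu).trans (comp_ev u (h.lc he).ct hm)

theorem pv_pull {X : Fin n → M → ℝ} {X' : Fin n → Z → ℝ} (he : e ∈ At Z) (he' : e' ∈ At M)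
    (h : ∀ᶠ z in 𝓝 (e.symm y), SmM Φ z) (hm : Φ (e.symm y) ∈ e'.source)
    (eX : ∀ i, X' i =ᶠ[𝓝 (e.symm y)] pullV Φ X i) :
    PV (mp e e' Φ) (repV e' X) (repV e X') y := by
  filter_upwards [(ev_iff he).1 h, ev_source (h.self_of_nhds.lc he).ct hm,
    (ev_iff he).1 (eventually_all.2 eX)] with z a b c i
  rw [← repV_pull he he' a b]
  unfold repV
  simp only [c]

section IsoM

variable (h : IsoM Φ g g' x)
include h

theorem _root_.Vale.Agent.P366D.IsoM.s : SmM Φ x := h.sm.self_of_nhds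

theorem _root_.Vale.Agent.P366D.IsoM.mat_eq : mat g' x = (jm Φ x)ᵀ * mat g (Φ x) * jm Φ x := by
  rw [← mat_pull]
  exact h.eq.self_of_nhds

theorem _root_.Vale.Agent.P366D.IsoM.unit : IsUnit (jm Φ x).det := by
  have h1 := (h.m'.det_pos x).ne'
  rw [h.mat_eq, Matrix.det_mul] at h1
  exact (right_ne_zero_of_mul h1).isUnit

omit h in
theorem _root_.Vale.Agent.P366D.IsoM.ctx' (h : IsoM Φ g g' (e.symm y)) (he : e ∈ At Z) (he' : e' ∈ At M)
    (hm : Φ (e.symm y) ∈ e'.source) : Ctx (mp e e' Φ) (rep e' g) (rep e g') y := by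
  refine Chg.ctx ⟨h.s.cd he he' hm, ?_⟩ (h.m.rep he') (h.m'.rep he) (pt_pull he he' h.sm hm h.eq)
  have h1 := h.unit.mul (J_unit he y)
  rw [← Matrix.det_mul, jm_chart he he' h.s hm, Matrix.det_mul] at h1
  exact (right_ne_zero_of_mul h1.ne_zero).isUnit

theorem _root_.Vale.Agent.P366D.IsoM.sp : IsoM Φ g g' ((ch x).symm (pt x)) := by rwa [symm_pt]

omit h in
theorem mm_pt (Φ : Z → M) (x : Z) : Φ ((ch x).symm (pt x)) ∈ (ch (Φ x)).source := by
  rw [symm_pt]; exact mem_ch _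

theorem _root_.Vale.Agent.P366D.IsoM.ctx : Ctx (mp (ch x) (ch (Φ x)) Φ) (rep (ch (Φ x)) g) (rep (ch x) g') (pt x) :=
  h.sp.ctx' (ch_mem x) (ch_mem _) (mm_pt Φ x)

theorem _root_.Vale.Agent.P366D.IsoM.pT (eT : T' =ᶠ[𝓝 x] pull Φ T) :
    PT (mp (ch x) (ch (Φ x)) Φ) (rep (ch (Φ x)) T) (rep (ch x) T') (pt x) :=
  pt_pull (ch_mem x) (ch_mem _) h.sp.sm (mm_pt Φ x) (by rwa [symm_pt])

theorem _root_.Vale.Agent.P366D.IsoM.pF (eu : u' =ᶠ[𝓝 x] fun z => u (Φ z)) :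
    PF (mp (ch x) (ch (Φ x)) Φ) (loc (ch (Φ x)) u) (loc (ch x) u') (pt x) :=
  pf_pull (ch_mem x) h.sp.s (mm_pt Φ x) (by rwa [symm_pt])

theorem _root_.Vale.Agent.P366D.IsoM.pV {X : Fin n → M → ℝ} {X' : Fin n → Z → ℝ} (eX : ∀ i, X' i =ᶠ[𝓝 x] pullV Φ X i) :
    PV (mp (ch x) (ch (Φ x)) Φ) (repV (ch (Φ x)) X) (repV (ch x) X') (pt x) :=
  pv_pull (ch_mem x) (ch_mem _) h.sp.sm (mm_pt Φ x) (by rwa [symm_pt])

theorem _root_.Vale.Agent.P366D.IsoM.ric_eq : ric g' x = pull Φ (ric g) x := by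
  funext i j
  have := h.ctx.rc_law i j
  rw [mp_pt] at this
  rw [pull_apply]
  exact this

theorem _root_.Vale.Agent.P366D.IsoM.up_eq (i j : Fin n) :
    up g' i j x = ∑ a, ∑ b, (jm Φ x)⁻¹ i a * (jm Φ x)⁻¹ j b * up g a b (Φ x) := by
  have := h.ctx.up_law i j
  simp only [mp_pt, up_pt] at this
  exact this

theorem _root_.Vale.Agent.P366D.IsoM.sqrt_det : √(mat g' x).det = |(jm Φ x).det| * √(mat g (Φ x)).det := by
  have := h.ctx.dens_law
  simp only [mp_pt, P366Z.dens, mat_pt] at this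
  exact this

theorem _root_.Vale.Agent.P366D.IsoM.gr_eq (hu : DAt u (Φ x)) (eu : u' =ᶠ[𝓝 x] fun z => u (Φ z)) (i : Fin n) :
    gr g' u' i x = pullV Φ (gr g u) i x := by
  have := h.ctx.gr_law (by rwa [mp_pt]) (h.pF eu) i
  simp only [mp_pt, gr_pt] at this
  exact this

theorem _root_.Vale.Agent.P366D.IsoM.hess_eq (hu : CAt 2 u (Φ x)) (eu : u' =ᶠ[𝓝 x] fun z => u (Φ z)) :
    hess g' u' x = pull Φ (hess g u) x := by
  funext i j
  have := h.ctx.hess_law (by rwa [mp_pt]) (h.pF eu) i j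
  rw [mp_pt] at this
  rw [pull_apply]
  exact this

theorem _root_.Vale.Agent.P366D.IsoM.dv_eq {X : Fin n → M → ℝ} {X' : Fin n → Z → ℝ} (hX : DV X (Φ x))
    (eX : ∀ i, X' i =ᶠ[𝓝 x] pullV Φ X i) : dv g' X' x = dv g X (Φ x) := by
  have := h.ctx.dv_law (by rwa [mp_pt]) (h.pV eX)
  rwa [mp_pt] at this

theorem _root_.Vale.Agent.P366D.IsoM.dV {X : Fin n → M → ℝ} {X' : Fin n → Z → ℝ} (hX : DV X (Φ x))
    (eX : ∀ i, X' i =ᶠ[𝓝 x] pullV Φ X i) : DV X' x :=
  h.ctx.c.diff_vec (by rwa [mp_pt]) (h.pV eX)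

theorem _root_.Vale.Agent.P366D.IsoM.wl_eq (hU : DAt U (Φ x)) (hu : CAt 2 u (Φ x)) (eU : U' =ᶠ[𝓝 x] fun z => U (Φ z))
    (eu : u' =ᶠ[𝓝 x] fun z => u (Φ z)) : wl g' U' u' x = wl g U u (Φ x) := by
  have := h.ctx.wl_law (by rwa [mp_pt]) (by rwa [mp_pt]) (h.pF eU) (h.pF eu)
  rwa [mp_pt] at this

theorem _root_.Vale.Agent.P366D.IsoM.cl_eq (hu : CAt 2 u (Φ x)) (eu : u' =ᶠ[𝓝 x] fun z => u (Φ z)) :
    cl g' u' x = cl g u (Φ x) := by
  unfold cl
  rw [h.lap hu eu, h.scal, eu.self_of_nhds]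

omit h in
theorem t_law (eT : T' x = pull Φ T x) (i j : Fin n) : rep (ch x) T' (pt x) i j =
    ∑ k, ∑ l, jac (mp (ch x) (ch (Φ x)) Φ) (pt x) k i * jac (mp (ch x) (ch (Φ x)) Φ) (pt x) l j *
      rep (ch (Φ x)) T (mp (ch x) (ch (Φ x)) Φ (pt x)) k l := by
  rw [mp_pt, rep_pt, rep_pt, eT, pull_apply]
  rfl

theorem _root_.Vale.Agent.P366D.IsoM.tr_eq (eT : T' x = pull Φ T x) : tr g' T' x = tr g T (Φ x) := by
  have := h.ctx.tr_law (t_law eT)
  rwa [mp_pt, tr_pt, tr_pt] at this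

theorem _root_.Vale.Agent.P366D.IsoM.normSq_eq (eT : T' x = pull Φ T x) : normSq g' T' x = normSq g T (Φ x) := by
  have := h.ctx.normSq_law (t_law eT)
  rwa [mp_pt, normSq_pt, normSq_pt] at this

theorem _root_.Vale.Agent.P366D.IsoM.mu_eq (eT : T' x = pull Φ T x) : mu g' T' x = mu g T (Φ x) := by
  unfold mu
  rw [h.scal, h.tr_eq eT, h.normSq_eq eT]

theorem _root_.Vale.Agent.P366D.IsoM.covNorm_eq {w : Fin n → M → ℝ} {w' : Fin n → Z → ℝ} (ew : ∀ i, w' i x = pullC Φ w i x) :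
    covNorm g' w' x = covNorm g w (Φ x) := by
  have := h.ctx.covNorm_law (w := repC (ch (Φ x)) w) (w' := repC (ch x) w') fun i => by
    simp only [mp_pt, repC_pt, ew]
    rfl
  rwa [mp_pt, covNorm_rep (ch_mem _), covNorm_rep (ch_mem _), symm_pt, symm_pt] at this

theorem _root_.Vale.Agent.P366D.IsoM.dvT_eq (hT : DT T (Φ x)) (eT : T' =ᶠ[𝓝 x] pull Φ T) (j : Fin n) :
    dvT g' T' j x = pullC Φ (dvT g T) j x := by
  have := h.ctx.dvT_law (by rwa [mp_pt]) (h.pT eT) j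
  rwa [mp_pt] at this

theorem _root_.Vale.Agent.P366D.IsoM.mom_eq (hT : DT T (Φ x)) (eT : T' =ᶠ[𝓝 x] pull Φ T) (j : Fin n) :
    mom g' T' j x = pullC Φ (mom g T) j x := by
  have := h.ctx.mom_law (by rwa [mp_pt]) (h.pT eT) j
  rwa [mp_pt] at this

theorem _root_.Vale.Agent.P366D.IsoM.covNorm_mom_eq (hT : DT T (Φ x)) (eT : T' =ᶠ[𝓝 x] pull Φ T) :
    covNorm g' (mom g' T') x = covNorm g (mom g T) (Φ x) := h.covNorm_eq (h.mom_eq hT eT)

theorem _root_.Vale.Agent.P366D.IsoM.trS_eq (hu : DAt u (Φ x)) (eu : u' =ᶠ[𝓝 x] fun z => u (Φ z)) (eT : T' x = pull Φ T x) :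
    trS g' T' u' x = trS g T u (Φ x) := by
  have := h.ctx.trS_law (by rwa [mp_pt]) (h.pF eu) (t_law eT)
  rwa [mp_pt, trS_rep (ch_mem _) _ _ (by rw [symm_pt]; exact (h.s.dAt hu).congr_of_eventuallyEq eu),
    trS_rep (ch_mem _) _ _ (by rwa [symm_pt]), symm_pt, symm_pt] at this

theorem _root_.Vale.Agent.P366D.IsoM.thetaPlus_eq (hu : CAt 2 u (Φ x)) (eu : u' =ᶠ[𝓝 x] fun z => u (Φ z))
    (eT : T' x = pull Φ T x) : thetaPlus g' T' u' x = thetaPlus g T u (Φ x) := by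
  have := h.ctx.thetaPlus_law (by rwa [mp_pt]) (h.pF eu) (t_law eT)
  rwa [mp_pt, thetaPlus_pt, thetaPlus_pt] at this

/-- the conformal metrics -/
theorem _root_.Vale.Agent.P366D.IsoM.cf {U' : Z → ℝ} (hU : Met (cf U g)) (hU' : Met (cf U' g'))
    (eU : U' =ᶠ[𝓝 x] fun z => U (Φ z)) : IsoM Φ (P366M.cf U g) (P366M.cf U' g') x :=
  ⟨h.sm, hU, hU', by
    filter_upwards [h.eq, eU] with z a b
    unfold P366M.cf
    rw [pull_smul Φ (fun p => U p ^ (2 * bb n)) g, a, b]⟩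

end IsoM

/-! ### the change of variables -/

section Vol

variable {s t : Set Z}

theorem meas_inter (hs : MeasurableSet s) (hc : ContinuousOn Φ s) {A : Set M}
    (hA : MeasurableSet A) : MeasurableSet (s ∩ Φ ⁻¹' A) := by
  have := hs.subtype_image ((continuousOn_iff_continuous_domRestrict.1 hc).measurable hA)
  rwa [show Subtype.val '' (s.domRestrict Φ ⁻¹' A) = s ∩ Φ ⁻¹' A from
    Subtype.image_preimage_coe s (Φ ⁻¹' A)] at this

theorem vol_piece (he : e ∈ At Z) (he' : e' ∈ At M) (ht : MeasurableSet t)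
    (h : ∀ x ∈ t, IsoM Φ g g' x) (hi : InjOn Φ t) (h1 : t ⊆ e.source)
    (h2 : ∀ x ∈ t, Φ x ∈ e'.source) : MeasurableSet (Φ '' t) ∧ vol g (Φ '' t) = vol g' t := by
  rcases t.eq_empty_or_nonempty with rfl | ⟨x₀, hx₀⟩
  · simp
  have hm := (measEmb_symm he).measurable ht
  have e1 : t = e.symm '' (e.symm ⁻¹' t) :=
    (image_preimage_eq_of_subset (by rwa [range_symm he])).symm
  have e2 : Φ '' t = e'.symm '' (mp e e' Φ '' (e.symm ⁻¹' t)) := by
    conv_lhs => rw [e1]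
    rw [image_image, image_image]
    exact image_congr fun y hy => (e'.left_inv (h2 _ hy)).symm
  have hc := fun y (hy : y ∈ e.symm ⁻¹' t) => (h _ hy).ctx' he he' (h2 _ hy)
  have hj : InjOn (mp e e' Φ) (e.symm ⁻¹' t) := fun a ha b hb k =>
    symm_inj he (hi ha hb (e'.injOn (h2 _ ha) (h2 _ hb) k))
  have hm' : MeasurableSet (mp e e' Φ '' (e.symm ⁻¹' t)) :=
    hm.image_of_continuousOn_injOn (fun y hy => (hc y hy).c.cont.continuousWithinAt) hj
  refine ⟨e2 ▸ (measEmb_symm he').measurableSet_image.2 hm', ?_⟩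
  rw [e2, vol_image (h _ hx₀).m he' hm', lintegral_image_eq_lintegral_abs_det_fderiv_mul volume hm
    (fun y hy => (hc y hy).c.diff.hasFDerivAt.hasFDerivWithinAt) hj]
  conv_rhs => rw [e1, vol_image (h _ hx₀).m' he hm]
  refine setLIntegral_congr_fun hm fun y hy => ?_
  rw [(hc y hy).dens_law, ENNReal.ofReal_mul (abs_nonneg _), det_fderiv (hc y hy).c.diff]

theorem contOn_iso (h : ∀ x ∈ s, IsoM Φ g g' x) : ContinuousOn Φ s := fun x hx =>
  (h x hx).s.ct.continuousWithinAt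

/-- **injective local isometries preserve the volume** -/
theorem vol_iso (ht : MeasurableSet t) (h : ∀ x ∈ t, IsoM Φ g g' x) (hi : InjOn Φ t) :
    MeasurableSet (Φ '' t) ∧ vol g (Φ '' t) = vol g' t := by
  set P : ℕ × ℕ → Set Z := fun p => t ∩ Φ ⁻¹' pc M p.2 ∩ pc Z p.1 with hP
  have hm : ∀ p, MeasurableSet (P p) := fun p =>
    (meas_inter ht (contOn_iso h) (meas_pc _)).inter (meas_pc _)
  have hu : ⋃ p, P p = t := by
    refine Subset.antisymm (iUnion_subset fun p x hx => hx.1.1) fun x hx => ?_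
    obtain ⟨a, ha⟩ := mem_iUnion.1 (union_pc (M := Z) ▸ mem_univ x)
    obtain ⟨b, hb⟩ := mem_iUnion.1 (union_pc (M := M) ▸ mem_univ (Φ x))
    exact mem_iUnion.2 ⟨(a, b), ⟨hx, hb⟩, ha⟩
  have hd : Pairwise (Function.onFun Disjoint P) := fun p q hpq => by
    by_cases h1 : p.1 = q.1
    · have h2 : p.2 ≠ q.2 := fun h2 => hpq (Prod.ext h1 h2)
      exact disjoint_left.2 fun x a b => disjoint_left.1 (disjoint_disjointed _ h2)
        (mem_preimage.1 a.1.2) (mem_preimage.1 b.1.2)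
    · exact disjoint_left.2 fun x a b => disjoint_left.1 (disjoint_disjointed _ h1) a.2 b.2
  have hv := fun p => vol_piece (ch_mem (cv Z p.1)) (ch_mem (cv M p.2)) (hm p)
    (fun x hx => h x hx.1.1) (hi.mono fun x hx => hx.1.1) (fun x hx => pc_sub _ hx.2)
    fun x hx => pc_sub _ (mem_preimage.1 hx.1.2)
  rw [← hu, image_iUnion, measure_iUnion hd hm, measure_iUnion _ fun p => (hv p).1]
  · exact ⟨MeasurableSet.iUnion fun p => (hv p).1, tsum_congr fun p => (hv p).2⟩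
  · intro p q hpq
    exact (hd hpq).image hi (fun x hx => hx.1.1) fun x hx => hx.1.1

theorem measEmb_iso (hs : MeasurableSet s) (h : ∀ x ∈ s, IsoM Φ g g' x) (hi : InjOn Φ s) :
    MeasurableEmbedding (s.domRestrict Φ) where
  injective := hi.injective
  measurable := (continuousOn_iff_continuous_domRestrict.1 (contOn_iso h)).measurable
  measurableSet_image' A hA := by
    have h1 : Subtype.val '' A ⊆ s := Subtype.coe_image_subset s A
    have := (vol_iso (hs.subtype_image hA) (fun x hx => h x (h1 hx)) (hi.mono h1)).1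
    rwa [image_image] at this

theorem map_iso (hs : MeasurableSet s) (h : ∀ x ∈ s, IsoM Φ g g' x) (hi : InjOn Φ s) :
    ((vol g').comap Subtype.val).map (s.domRestrict Φ) = (vol g).restrict (Φ '' s) := by
  ext A hA
  have h1 := meas_inter hs (contOn_iso h) hA
  rw [(measEmb_iso hs h hi).map_apply, (MeasurableEmbedding.subtype_coe hs).comap_apply,
    show Subtype.val '' (s.domRestrict Φ ⁻¹' A) = s ∩ Φ ⁻¹' A from
      Subtype.image_preimage_coe s (Φ ⁻¹' A),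
    ← (vol_iso h1 (fun x hx => h x hx.1) (hi.mono inter_subset_left)).2, image_inter_preimage,
    Measure.restrict_apply hA, inter_comm]

theorem map_restrict_iso (hs : MeasurableSet s) (h : ∀ x ∈ s, IsoM Φ g g' x) (hi : InjOn Φ s) :
    ((vol g').restrict s).map Φ = (vol g).restrict (Φ '' s) := by
  ext A hA
  have h1 := meas_inter hs (contOn_iso h) hA
  rw [Measure.map_apply_of_aemeasurable ((contOn_iso h).aemeasurable hs) hA,
    Measure.restrict_apply' hs, inter_comm,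
    ← (vol_iso h1 (fun x hx => h x hx.1) (hi.mono inter_subset_left)).2, image_inter_preimage,
    Measure.restrict_apply hA, inter_comm]

theorem lintegral_iso (hs : MeasurableSet s) (h : ∀ x ∈ s, IsoM Φ g g' x) (hi : InjOn Φ s)
    (f : M → ENNReal) : ∫⁻ p in Φ '' s, f p ∂vol g = ∫⁻ x in s, f (Φ x) ∂vol g' := by
  rw [← map_iso hs h hi, (measEmb_iso hs h hi).lintegral_map]
  exact lintegral_subtype_comap hs fun x => f (Φ x)

variable {V : Type} [NormedAddCommGroup V] [NormedSpace ℝ V]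

theorem integral_iso (hs : MeasurableSet s) (h : ∀ x ∈ s, IsoM Φ g g' x) (hi : InjOn Φ s)
    (f : M → V) : ∫ p in Φ '' s, f p ∂vol g = ∫ x in s, f (Φ x) ∂vol g' := by
  rw [← map_iso hs h hi, (measEmb_iso hs h hi).integral_map]
  exact integral_subtype_comap hs fun x => f (Φ x)

omit [NormedSpace ℝ V] in
theorem integrableOn_iso (hs : MeasurableSet s) (h : ∀ x ∈ s, IsoM Φ g g' x) (hi : InjOn Φ s)
    (f : M → V) : IntegrableOn f (Φ '' s) (vol g) ↔ IntegrableOn (fun x => f (Φ x)) s (vol g') := by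
  rw [IntegrableOn, ← map_iso hs h hi, (measEmb_iso hs h hi).integrable_map_iff,
    integrableOn_iff_comap_subtypeVal hs]
  rfl

end Vol

end Vale.Agent.P366M
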