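import Mathlib.Analysis.Calculus.InverseFunctionTheorem.ContDiff
import Mathlib.Analysis.Calculus.MeanValue
import Mathlib.Topology.MetricSpace.HausdorffDimension

/-!
# The theorem of Sard for smooth real functions
-/

open MeasureTheory Metric Filter Topology Set Module
open scoped ContDiff ENNReal NNReal

noncomputable section

namespace Vale.Agent.P366M.Sard

theorem img_null {X : Type} [TopologicalSpace X] [SecondCountableTopology X] {f : X → ℝ}
    {s : Set X} (h : ∀ x ∈ s, ∃ t ∈ 𝓝[s] x, volume (f '' t) = 0) : volume (f '' s) = 0 := by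
  choose! t h1 h2 using h
  obtain ⟨u, hu, hc, hs⟩ := TopologicalSpace.countable_cover_nhdsWithin h1
  refine measure_mono_null (image_mono hs) ?_
  rw [image_iUnion₂]
  exact (measure_biUnion_null_iff hc).2 fun x hx => h2 x (hu hx)

variable {V : Type} [NormedAddCommGroup V] [NormedSpace ℝ V] {f : V → ℝ}

/-- the estimate of Taylor at a point where the derivatives of order `1, …, N` vanish -/
theorem taylor {N : ℕ} {x : V} (hf : ContDiffAt ℝ ∞ f x) : ∃ C ≥ (0 : ℝ), ∃ t ∈ 𝓝 x,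
    ∀ y ∈ t, (∀ j, 1 ≤ j → j ≤ N → iteratedFDeriv ℝ j f y = 0) →
      ∀ z ∈ t, |f z - f y| ≤ C * ‖z - y‖ ^ (N + 1) := by
  have h1 : ContDiffAt ℝ (N + 1 : ℕ) f x := hf.of_le (by exact_mod_cast le_top)
  have h2 := (h1.continuousAt_iteratedFDeriv le_rfl).norm.eventually
    (gt_mem_nhds (lt_add_one ‖iteratedFDeriv ℝ (N + 1) f x‖))
  obtain ⟨r, r0, hr⟩ := Metric.eventually_nhds_iff_ball.1 ((h1.eventually (by simp)).and h2)
  refine ⟨‖iteratedFDeriv ℝ (N + 1) f x‖ + 1, by positivity, ball x r, ball_mem_nhds x r0,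
    fun y hy h0 => ?_⟩
  generalize hC : ‖iteratedFDeriv ℝ (N + 1) f x‖ + 1 = C at hr
  have C0 : 0 ≤ C := by rw [← hC]; positivity
  have step : ∀ {W : Type} [NormedAddCommGroup W] [NormedSpace ℝ W] (F : V → W) (k : ℕ),
      (∀ z ∈ ball x r, DifferentiableAt ℝ F z ∧ ‖fderiv ℝ F z‖ ≤ C * ‖z - y‖ ^ k) →
      ∀ z ∈ ball x r, ‖F z - F y‖ ≤ C * ‖z - y‖ ^ (k + 1) := fun F k h z hz => by
    have := ((convex_ball x r).inter (convex_closedBall y ‖z - y‖)).norm_image_sub_le_of_norm_fderiv_le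
      (𝕜 := ℝ) (f := F) (C := C * ‖z - y‖ ^ k) (fun w hw => (h w hw.1).1)
      (fun w hw => (h w hw.1).2.trans (by gcongr; exact mem_closedBall_iff_norm.1 hw.2))
      ⟨hy, mem_closedBall_self (norm_nonneg _)⟩ ⟨hz, mem_closedBall_iff_norm.2 le_rfl⟩
    rwa [mul_assoc, ← pow_succ] at this
  have key : ∀ k j, k + j = N → ∀ z ∈ ball x r,
      ‖iteratedFDeriv ℝ (j + 1) f z‖ ≤ C * ‖z - y‖ ^ k := fun k => by
    induction k with
    | zero =>
      intro j hj z hz
      obtain rfl : j = N := by omega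
      simpa using (hr z hz).2.le
    | succ k ih =>
      intro j hj z hz
      have := step (iteratedFDeriv ℝ (j + 1) f) k (fun w hw => ⟨(hr w hw).1.differentiableAt_iteratedFDeriv
        (by exact_mod_cast (by omega : j + 1 < N + 1)), by
          rw [norm_fderiv_iteratedFDeriv]; exact ih (j + 1) (by omega) w hw⟩) z hz
      rwa [h0 (j + 1) (by omega) (by omega), sub_zero] at this
  exact step f N fun w hw => ⟨(hr w hw).1.differentiableAt (by simp), by
    rw [← norm_iteratedFDeriv_one]; exact key N 0 rfl w hw⟩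

/-- the very flat points -/
theorem flat [FiniteDimensional ℝ V] {s : Set V} (hf : ∀ x ∈ s, ContDiffAt ℝ ∞ f x)
    (h0 : ∀ y ∈ s, ∀ j, 1 ≤ j → j ≤ finrank ℝ V → iteratedFDeriv ℝ j f y = 0) :
    volume (f '' s) = 0 := by
  have h1 : dimH (f '' s) ≤ dimH s / ((finrank ℝ V + 1 : ℕ) : ℝ≥0) := by
    refine dimH_image_le_of_locally_holder_on (by positivity) fun x hx => ?_
    obtain ⟨C, C0, t, ht, h⟩ := taylor (N := finrank ℝ V) (hf x hx)
    lift C to ℝ≥0 using C0
    refine ⟨C, s ∩ t, inter_mem_nhdsWithin s ht, fun z hz y hy => ?_⟩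
    rw [edist_dist, edist_dist, ENNReal.ofReal_rpow_of_nonneg dist_nonneg (by positivity),
      ← ENNReal.ofReal_coe_nnreal, ← ENNReal.ofReal_mul (by positivity), NNReal.coe_natCast,
      Real.rpow_natCast, dist_eq_norm z]
    exact ENNReal.ofReal_le_ofReal (h y hy.2 (h0 y hy.1) z hz.2)
  refine measure_zero_of_dimH_lt (d := 1) (by simpa using Measure.AbsolutelyContinuous.rfl)
    (h1.trans_lt ?_)
  have h2 : dimH s ≤ finrank ℝ V := (dimH_mono (subset_univ s)).trans_eq (Real.dimH_univ_eq_finrank V)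
  refine (ENNReal.div_le_div_right h2 _).trans_lt ?_
  rw [ENNReal.div_lt_iff (by simp) (by simp)]
  simp only [ENNReal.coe_one, one_mul, ENNReal.coe_natCast]
  exact_mod_cast Nat.lt_succ_self _

/-- the statement in dimensions less than `N` -/
def Sd (N : ℕ) : Prop := ∀ (V : Type) [NormedAddCommGroup V] [NormedSpace ℝ V]
  [FiniteDimensional ℝ V] (f : V → ℝ) (s : Set V), finrank ℝ V < N →
    (∀ x ∈ s, ContDiffAt ℝ ∞ f x ∧ fderiv ℝ f x = 0) → volume (f '' s) = 0

/-- critical points on a hypersurface -/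
theorem hyp [FiniteDimensional ℝ V] (ih : Sd (finrank ℝ V)) {s : Set V} {w : V → ℝ} {x : V}
    (hx : x ∈ s) (hf : ∀ x ∈ s, ContDiffAt ℝ ∞ f x ∧ fderiv ℝ f x = 0)
    (hw : ∀ x ∈ s, ContDiffAt ℝ ∞ w x ∧ w x = 0) (h0 : fderiv ℝ w x ≠ 0) :
    ∃ t ∈ 𝓝[s] x, volume (f '' t) = 0 := by
  generalize hL : fderiv ℝ w x = L at h0
  obtain ⟨v, hv⟩ : ∃ v, L v = 1 := by
    obtain ⟨v, hv⟩ := DFunLike.ne_iff.1 h0
    exact ⟨(L v)⁻¹ • v, by rw [map_smul, smul_eq_mul, inv_mul_cancel₀ hv]⟩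
  let Φ : V → V := fun y => y + (w y - L y) • v
  have sΦ : ∀ y ∈ s, ContDiffAt ℝ ∞ Φ y := fun y hy =>
    contDiffAt_id.add (((hw y hy).1.sub L.contDiff.contDiffAt).smul contDiffAt_const)
  have dΦ : HasFDerivAt Φ (ContinuousLinearEquiv.refl ℝ V : V →L[ℝ] V) x := by
    have h1 := ((hw x hx).1.differentiableAt (by simp)).hasFDerivAt
    rw [hL] at h1
    exact ((hasFDerivAt_id x).add ((h1.sub L.hasFDerivAt).smul_const v)).congr_fderiv (by simp)
  have cΦ : ContinuousAt (fderiv ℝ Φ) x :=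
    ((sΦ x hx).fderiv_right (m := 0) (by simp)).continuousAt
  have ev := cΦ.preimage_mem_nhds (dΦ.fderiv ▸ (ContinuousLinearEquiv.refl ℝ V).nhds)
  let e := (sΦ x hx).toOpenPartialHomeomorph Φ dΦ (by simp)
  have hs : e.source ∈ 𝓝 x :=
    e.open_source.mem_nhds ((sΦ x hx).mem_toOpenPartialHomeomorph_source dΦ (by simp))
  refine ⟨_, inter_mem_nhdsWithin s (inter_mem hs ev), ?_⟩
  have hk : finrank ℝ L.ker < finrank ℝ V := Submodule.finrank_lt fun h => by
    have : v ∈ L.ker := h ▸ Submodule.mem_top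
    simp [hv] at this
  refine measure_mono_null ?_ (ih L.ker (fun z => f (e.symm z)) {z | ∃ y ∈ s ∩ (e.source ∩
    fderiv ℝ Φ ⁻¹' range ((↑) : (V ≃L[ℝ] V) → V →L[ℝ] V)), Φ y = z} hk ?_)
  · rintro _ ⟨y, hy, rfl⟩
    refine ⟨⟨Φ y, ?_⟩, ⟨y, hy, rfl⟩, congrArg f (e.left_inv hy.2.1)⟩
    simp [Φ, hv, (hw y hy.1).2]
  · rintro z ⟨y, ⟨h1, h2, A, hA⟩, hz⟩
    have h3 : e.symm z = y := hz ▸ e.left_inv h2
    have h4 : ContDiffAt ℝ ∞ e.symm z := e.contDiffAt_symm (f₀' := A) (hz ▸ e.map_source h2)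
      (by rw [h3, hA]; exact ((sΦ y h1).differentiableAt (by simp)).hasFDerivAt)
      (by rw [h3]; exact sΦ y h1)
    have h5 : ContDiffAt ℝ ∞ (fun z : L.ker => e.symm z) z :=
      h4.comp z L.ker.subtypeL.contDiff.contDiffAt
    have h6 := hf y h1
    rw [← h3] at h6
    refine ⟨h6.1.comp z h5, ?_⟩
    have h7 := (h6.1.differentiableAt (by simp)).hasFDerivAt.comp z
      (h5.differentiableAt (by simp)).hasFDerivAt
    rw [h6.2, ContinuousLinearMap.zero_comp] at h7
    exact h7.fderiv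

theorem sd (N : ℕ) : Sd N := by
  induction N using Nat.strong_induction_on with
  | _ N ih =>
  intro V _ _ _ f s hN hf
  let A : ℕ → Set V := fun k => {y ∈ s | ∀ j, 1 ≤ j → j ≤ k → iteratedFDeriv ℝ j f y = 0}
  have h1 : ∀ k, volume (f '' (A k \ A (k + 1))) = 0 := fun k => img_null fun x hx => by
    have h2 : iteratedFDeriv ℝ (k + 1) f x ≠ 0 := fun h => hx.2 ⟨hx.1.1, fun j a b =>
      b.lt_or_eq.elim (fun c => hx.1.2 j a (by omega)) fun c => c ▸ h⟩
    have h3 : 1 ≤ k := Nat.pos_of_ne_zero fun h => h2 (by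
      rw [h, ← norm_eq_zero, norm_iteratedFDeriv_one, (hf x hx.1.1).2, norm_zero])
    obtain ⟨m, hm⟩ := DFunLike.ne_iff.1 h2
    rw [((hf x hx.1.1).1.differentiableAt_iteratedFDeriv
      (by exact_mod_cast ENat.natCast_lt_top k)).iteratedFDeriv_succ_apply_left'] at hm
    refine hyp (ih _ hN) (w := fun y => iteratedFDeriv ℝ k f y (Fin.tail m)) hx
      (fun y hy => hf y hy.1.1) (fun y hy => ⟨?_, by simp [hy.1.2 k h3 le_rfl]⟩)
      fun h => hm (by rw [h]; rfl)
    exact (ContinuousMultilinearMap.apply ℝ (fun _ : Fin k => V) ℝ (Fin.tail m)).contDiff.contDiffAt.comp y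
      ((hf y hy.1.1).1.iteratedFDeriv_right (by exact_mod_cast le_top))
  have h2 : ∀ k, volume (f '' (s \ A k)) = 0 := fun k => by
    induction k with
    | zero => rw [show s \ A 0 = ∅ from sdiff_eq_empty.2 fun y hy => ⟨hy, fun j a b => by omega⟩]; simp
    | succ k ih =>
      refine measure_mono_null ?_ (measure_union_null ih (h1 k))
      rw [← image_union]
      exact image_mono fun y hy => (em (y ∈ A k)).elim (fun h => .inr ⟨h, hy.2⟩) fun h => .inl ⟨hy.1, h⟩
  refine measure_mono_null ?_ (measure_union_null (h2 (finrank ℝ V))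
    (flat (s := A (finrank ℝ V)) (fun x hx => (hf x hx.1).1) fun y hy => hy.2))
  rw [← image_union]
  exact image_mono fun y hy => (em (y ∈ A _)).elim .inr fun h => .inl ⟨hy, h⟩

/-- **the theorem of Sard**: the critical values of a smooth real function are a null set -/
theorem sard [FiniteDimensional ℝ V] {s : Set V}
    (hf : ∀ x ∈ s, ContDiffAt ℝ ∞ f x ∧ fderiv ℝ f x = 0) : volume (f '' s) = 0 :=
  sd _ V f s (Nat.lt_succ_self _) hf

end Vale.Agent.P366M.Sard
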