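import Vale.Agent.P366M.Inv1
import Vale.Agent.P366M.Sard0

/-!
# P366M: the theorem of Sard for smooth real functions on a manifold
-/

open MeasureTheory Metric Filter Topology Set
open scoped ContDiff
open Vale.Agent.P366 Vale.Agent.P366.Stmt Vale.Agent.P366Z

noncomputable section

namespace Vale.Agent.P366M

/-- the theorem of Sard on Euclidean space -/
theorem sardE {n : ℕ} {u : E n → ℝ} {s : Set (E n)}
    (h : ∀ y ∈ s, ContDiffAt ℝ ∞ u y ∧ ∀ i, Stmt.pd i u y = 0) : volume (u '' s) = 0 :=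
  Sard.sard fun y hy => ⟨(h y hy).1, ContinuousLinearMap.ext fun ξ => by
    rw [P366Z.fderiv_eq_sum ((h y hy).1.differentiableAt (by simp))]
    simp [(h y hy).2]⟩

variable {n : ℕ} {M : Type} [Mf0 n M] {u : M → ℝ}

/-- **the theorem of Sard** -/
theorem sard_on {s : Set M} (h : ∀ x ∈ s, CAt ∞ u x ∧ ∀ i, pd i u x = 0) :
    volume (u '' s) = 0 := Sard.img_null fun x _ => by
  have he := ch_mem x
  refine ⟨_, inter_mem_nhdsWithin s ((ch x).open_source.mem_nhds (mem_ch x)), measure_mono_null ?_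
    (sardE (u := loc (ch x) u) (s := (ch x).symm ⁻¹' s) fun y hy => ⟨(h _ hy).1.lc le_rfl he, fun i => ?_⟩)⟩
  · rintro _ ⟨z, hz, rfl⟩
    have := (ch x).left_inv hz.2
    exact ⟨ch x z, by rw [mem_preimage, this]; exact hz.1, by rw [loc, this]⟩
  · rw [pd_rep he ((h _ hy).1.differentiableAt (by simp))]
    simp [repC, (h _ hy).2]

/-- the critical values -/
def Cv (u : M → ℝ) : Set ℝ := {t | ∃ x, u x = t ∧ ∀ i, pd i u x = 0}

theorem cv_null (hu : Smooth u) : volume (Cv u) = 0 :=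
  measure_mono_null (fun _ ⟨_, h1, h2⟩ => h1 ▸ mem_image_of_mem u h2)
    (sard_on (s := {x | ∀ i, pd i u x = 0}) fun _ hx => ⟨CD.contDiffAt hu, hx⟩)

theorem reg_of_notMem {t : ℝ} (h : t ∉ Cv u) (x : M) (hx : u x = t) : ∃ i, pd i u x ≠ 0 :=
  not_forall.1 fun k => h ⟨x, hx, k⟩

theorem exists_notMem {N : Set ℝ} (hN : volume N = 0) {a b : ℝ} (h : a < b) :
    ∃ t ∈ Ioo a b, t ∉ N := by
  by_contra k
  have k1 : Ioo a b ⊆ N := fun z hz => by_contra fun k2 => k ⟨z, hz, k2⟩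
  have k2 := measure_mono_null k1 hN
  rw [Real.volume_Ioo, ENNReal.ofReal_eq_zero] at k2
  linarith

/-- regular values are dense -/
theorem exists_regular (hu : Smooth u) {a b : ℝ} (h : a < b) :
    ∃ t ∈ Ioo a b, ∀ x, u x = t → ∃ i, pd i u x ≠ 0 :=
  let ⟨t, h1, h2⟩ := exists_notMem (cv_null hu) h
  ⟨t, h1, reg_of_notMem h2⟩

/-- regular values of a function which is smooth on a set -/
theorem exists_regular_on {s : Set M} (hu : ∀ x ∈ s, CAt ∞ u x) {a b : ℝ} (h : a < b) :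
    ∃ t ∈ Ioo a b, ∀ x ∈ s, u x = t → ∃ i, pd i u x ≠ 0 :=
  let ⟨t, h1, h2⟩ := exists_notMem (sard_on (u := u) (s := {x ∈ s | ∀ i, pd i u x = 0})
    fun x hx => ⟨hu x hx.1, hx.2⟩) h
  ⟨t, h1, fun x hx e => not_forall.1 fun k => h2 ⟨x, ⟨hx, k⟩, e⟩⟩

end Vale.Agent.P366M
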