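import Vale.Agent.P366M.Calc
import Vale.Agent.P366Z.Int

/-!
# P366M: far points, functions of the position, the filter at infinity
-/

open MeasureTheory Metric Filter Topology Set
open scoped ContDiff
open Vale.Agent.P366 Vale.Agent.P366.Stmt Vale.Agent.P366Z

noncomputable section

namespace Vale.Agent.P366M

variable {n : ℕ} {M : Type} [Mfs n M] {j : Nd M} {x : M} {y z : E n} {e : Ch n M}
  {g T : Fld n M} {u v U : M → ℝ} {X : Fin n → M → ℝ}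

theorem R0_ge (M : Type) [Mfs n M] : 8 ≤ R0 M := Mfs.R0_ge

theorem sm_px : CD ∞ (px : M → E n) := Mfs.sm_px

theorem cont_px : Continuous (px : M → E n) := sm_px.continuous

theorem cont_npx : Continuous fun x : M => ‖px x‖ := cont_px.norm

theorem px_ye (h : R0 M - 6 ≤ ‖y‖) : px (ye j y) = y := Mfs.px_ye j y h

theorem px_ye' (h : R0 M ≤ ‖y‖) : px (ye j y) = y := px_ye (by linarith)

theorem far_ex (hx : R0 M - 6 ≤ ‖px x‖) : ∃ j : Nd M, ye j (px x) = x := Mfs.ye_px x hx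

/-- a far point is `ye j y` -/
theorem far_rep (hx : R0 M - 6 ≤ ‖px x‖) : ∃ (j : Nd M) (y : E n), x = ye j y ∧ px x = y :=
  let ⟨j, h⟩ := far_ex hx
  ⟨j, px x, h.symm, rfl⟩

theorem pt_ye (h : R0 M ≤ ‖y‖) : pt (ye j y) = y := (Mfs.far j y h).1

theorem symm_ye (h : R0 M ≤ ‖y‖) (hz : z ∈ ball y 5) : (ch (ye j y)).symm z = ye j z :=
  (Mfs.far j y h).2 z hz

theorem pt_far (hx : R0 M ≤ ‖px x‖) : pt x = px x := by
  obtain ⟨j, h⟩ := far_ex (x := x) (by linarith)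
  rw [← h, pt_ye hx, h]

theorem isCompact_px (M : Type) [Mfs n M] (R : ℝ) : IsCompact {x : M | ‖px x‖ ≤ R} := Mfs.cpt R

theorem px_le (x y : M) : ‖px x - px y‖ ≤ dist x y := Mfs.px_le x y

theorem lipW_px : LipschitzWith 1 (px : M → E n) :=
  LipschitzWith.of_dist_le_mul fun x y => by simpa [dist_eq_norm] using px_le x y

theorem dist_ye (hy : R0 M - 6 ≤ ‖y‖) (hz : R0 M - 6 ≤ ‖z‖) : dist (ye j y) (ye j z) = ‖y - z‖ :=
  Mfs.dist_far j y z hy hz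

theorem norm_ball (hz : z ∈ ball y 5) : ‖y‖ - 5 < ‖z‖ := by
  have h1 := mem_ball_iff_norm.1 hz
  have h2 := norm_sub_norm_le y z
  rw [norm_sub_rev] at h2
  linarith

theorem symm_ev (h : R0 M ≤ ‖y‖) : (ch (ye j y)).symm =ᶠ[𝓝 y] ye j :=
  Eventually.mono (ball_mem_nhds y (by norm_num)) fun _ hz => symm_ye h hz

theorem loc_ye {α : Type} (h : R0 M ≤ ‖y‖) (u : M → α) : loc (ch (ye j y)) u =ᶠ[𝓝 y] fj j u :=
  (symm_ev (j := j) h).mono fun z hz => by simp only [loc, fj, hz]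

theorem px_symm (hx : R0 M ≤ ‖px x‖) (hz : z ∈ ball (px x) 5) : px ((ch x).symm z) = z := by
  obtain ⟨j, y, rfl, h⟩ := far_rep (x := x) (by linarith)
  rw [h] at hx hz
  rw [symm_ye hx hz, px_ye (by linarith [norm_ball hz])]

theorem tendsto_ye_nhds (h : R0 M ≤ ‖y‖) : Tendsto (ye j) (𝓝 y) (𝓝 (ye j y)) := by
  have := tendsto_pt (ye j y)
  rw [pt_ye h] at this
  exact this.congr' (symm_ev h)

theorem ev_ye {p : M → Prop} (h : R0 M ≤ ‖y‖) :
    (∀ᶠ x in 𝓝 (ye j y), p x) ↔ ∀ᶠ z in 𝓝 y, p (ye j z) := by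
  rw [ev_pt, pt_ye h]
  exact eventually_congr ((symm_ev h).mono fun z hz => by rw [hz])

theorem ev_lt_px {ρ : ℝ} (hx : ρ < ‖px x‖) : ∀ᶠ z in 𝓝 x, ρ < ‖px z‖ :=
  (isOpen_lt continuous_const cont_npx).mem_nhds hx

theorem ev_px_lt {ρ : ℝ} (hx : ‖px x‖ < ρ) : ∀ᶠ z in 𝓝 x, ‖px z‖ < ρ :=
  (isOpen_lt cont_npx continuous_const).mem_nhds hx

theorem ev_lt_norm {ρ : ℝ} (hy : ρ < ‖y‖) : ∀ᶠ z in 𝓝 y, ρ < ‖z‖ :=
  (isOpen_lt continuous_const continuous_norm).mem_nhds hy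

/-! ### tensors in the coordinates of an end -/

theorem J_of_ev (he : e.symm =ᶠ[𝓝 y] ye j) (h : R0 M ≤ ‖y‖) : J e y = 1 := by
  unfold J
  rw [he.eq_of_nhds, ← jac_id y]
  refine jac_congr ?_
  filter_upwards [he, symm_ev (j := j) h] with z h1 h2
  unfold tm
  rw [h1, ← h2, right_inv (ch_mem _)]

theorem rep_of_ev (he : e.symm =ᶠ[𝓝 y] ye j) (h : R0 M ≤ ‖y‖) (T : Fld n M) :
    rep e T y = T (ye j y) := by
  have := mat_rep e T y
  rwa [J_of_ev he h, he.eq_of_nhds, Matrix.transpose_one, Matrix.one_mul, Matrix.mul_one] at this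

theorem repU_of_ev (he : e.symm =ᶠ[𝓝 y] ye j) (h : R0 M ≤ ‖y‖) (T : Fld n M) :
    repU e T y = T (ye j y) := by
  have := mat_repU e T y
  rwa [J_of_ev he h, he.eq_of_nhds, inv_one, Matrix.transpose_one, Matrix.one_mul,
    Matrix.mul_one] at this

theorem repV_of_ev (he : e.symm =ᶠ[𝓝 y] ye j) (h : R0 M ≤ ‖y‖) (X : Fin n → M → ℝ) (i : Fin n) :
    repV e X i y = X i (ye j y) := by
  have := congrFun (repV_eq e X y) i
  rwa [J_of_ev he h, he.eq_of_nhds, inv_one, Matrix.one_mulVec] at this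

theorem repC_of_ev (he : e.symm =ᶠ[𝓝 y] ye j) (h : R0 M ≤ ‖y‖) (X : Fin n → M → ℝ) (i : Fin n) :
    repC e X i y = X i (ye j y) := by
  have := congrFun (repC_eq e X y) i
  rwa [J_of_ev he h, he.eq_of_nhds, Matrix.transpose_one, Matrix.one_mulVec] at this

theorem symm_ev' (h : R0 M ≤ ‖y‖) (hz : z ∈ ball y 5) : (ch (ye j y)).symm =ᶠ[𝓝 z] ye j :=
  Eventually.mono (isOpen_ball.mem_nhds hz) fun _ hw => symm_ye h hw

theorem rep_ye_ball (h : R0 M ≤ ‖y‖) (hz : z ∈ ball y 5) (hz' : R0 M ≤ ‖z‖) (T : Fld n M) :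
    rep (ch (ye j y)) T z = T (ye j z) := rep_of_ev (symm_ev' h hz) hz' T

theorem ev_far (h : R0 M < ‖y‖) : ∀ᶠ z in 𝓝 y, (ch (ye j y)).symm =ᶠ[𝓝 z] ye j ∧ R0 M ≤ ‖z‖ :=
  (symm_ev h.le).eventuallyEq_nhds.and ((ev_lt_norm h).mono fun _ hz => hz.le)

theorem rep_ye (h : R0 M < ‖y‖) (T : Fld n M) : rep (ch (ye j y)) T =ᶠ[𝓝 y] fj j T :=
  (ev_far h).mono fun _ hz => rep_of_ev hz.1 hz.2 T

theorem repU_ye (h : R0 M < ‖y‖) (T : Fld n M) : repU (ch (ye j y)) T =ᶠ[𝓝 y] fj j T :=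
  (ev_far h).mono fun _ hz => repU_of_ev hz.1 hz.2 T

theorem repV_ye (h : R0 M < ‖y‖) (X : Fin n → M → ℝ) (i : Fin n) :
    repV (ch (ye j y)) X i =ᶠ[𝓝 y] fj j (X i) :=
  (ev_far h).mono fun _ hz => repV_of_ev hz.1 hz.2 X i

theorem repC_ye (h : R0 M < ‖y‖) (X : Fin n → M → ℝ) (i : Fin n) :
    repC (ch (ye j y)) X i =ᶠ[𝓝 y] fj j (X i) :=
  (ev_far h).mono fun _ hz => repC_of_ev hz.1 hz.2 X i

theorem fj_eu (j : Nd M) : fj j (eu n) = P366Z.eu n := rfl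

section V

variable {V : Type} [NormedAddCommGroup V] [NormedSpace ℝ V] {f : M → V} {m : WithTop ℕ∞}

theorem cAt_ye (h : R0 M ≤ ‖y‖) : CAt m f (ye j y) ↔ ContDiffAt ℝ m (fj j f) y := by
  unfold CAt
  rw [pt_ye h]
  exact ⟨fun k => k.congr_of_eventuallyEq (loc_ye h f).symm,
    fun k => k.congr_of_eventuallyEq (loc_ye h f)⟩

theorem dAt_ye (h : R0 M ≤ ‖y‖) : DAt f (ye j y) ↔ DifferentiableAt ℝ (fj j f) y := by
  unfold DAt
  rw [pt_ye h]
  exact (loc_ye h f).differentiableAt_iff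

theorem fd_ye (h : R0 M ≤ ‖y‖) (f : M → V) : fd f (ye j y) = fderiv ℝ (fj j f) y := by
  unfold fd
  rw [pt_ye h]
  exact (loc_ye h f).fderiv_eq

theorem CD.fj_at (hf : CD m f) (h : R0 M ≤ ‖y‖) : ContDiffAt ℝ m (fj j f) y :=
  (cAt_ye h).1 hf.contDiffAt

end V

theorem SmT.fj_at (hT : SmT T) (h : R0 M < ‖y‖) (a b : Fin n) :
    ContDiffAt ℝ ∞ (fun z => fj j T z a b) y :=
  (ContDiff.contDiffAt (hT _ (ch_mem (ye j y)) a b)).congr_of_eventuallyEq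
    ((rep_ye (j := j) h T).mono fun z hz => by simp only [hz])

theorem CV.fj_at {m : WithTop ℕ∞} (hX : CV m X) (h : R0 M < ‖y‖) (i : Fin n) :
    ContDiffAt ℝ m (fj j (X i)) y :=
  (hX _ (ch_mem (ye j y)) i).contDiffAt.congr_of_eventuallyEq (repV_ye h X i).symm

theorem CC.fj_at {m : WithTop ℕ∞} (hX : CC m X) (h : R0 M < ‖y‖) (i : Fin n) :
    ContDiffAt ℝ m (fj j (X i)) y :=
  (hX _ (ch_mem (ye j y)) i).contDiffAt.congr_of_eventuallyEq (repC_ye h X i).symm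

theorem pd_ye (h : R0 M ≤ ‖y‖) (i : Fin n) (u : M → ℝ) :
    pd i u (ye j y) = Stmt.pd i (fj j u) y := by
  unfold pd
  rw [pt_ye h]
  exact P366Z.pd_congr (loc_ye h u) i

theorem fj_pd (h : R0 M < ‖y‖) (i : Fin n) (u : M → ℝ) :
    fj j (pd i u) =ᶠ[𝓝 y] Stmt.pd i (fj j u) :=
  (ev_lt_norm h).mono fun _ hz => pd_ye hz.le i u

theorem pd2_ye (h : R0 M ≤ ‖y‖) (a b : Fin n) (u : M → ℝ) :
    pd2 a b u (ye j y) = Stmt.pd a (Stmt.pd b (fj j u)) y := by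
  unfold pd2
  rw [pt_ye h]
  exact P366Z.pd_congr (P366Z.pd_congr_ev (loc_ye h u) b) a

/-- far out the second derivatives are iterated first derivatives -/
theorem pd_pd_far (hx : R0 M < ‖px x‖) (a b : Fin n) (u : M → ℝ) :
    pd a (pd b u) x = pd2 a b u x := by
  obtain ⟨j, y, rfl, h⟩ := far_rep (x := x) (by linarith)
  rw [h] at hx
  rw [pd_ye hx.le, pd2_ye hx.le]
  exact P366Z.pd_congr (fj_pd hx b u) a

theorem up_ye (j : Nd M) (g : Fld n M) (a b : Fin n) (y : E n) :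
    up g a b (ye j y) = Stmt.up (fj j g) a b y := rfl

theorem tr_ye (j : Nd M) (g T : Fld n M) (y : E n) :
    tr g T (ye j y) = Stmt.tr (fj j g) (fj j T) y := rfl

theorem normSq_ye (j : Nd M) (g T : Fld n M) (y : E n) :
    normSq g T (ye j y) = Stmt.normSq (fj j g) (fj j T) y := rfl

theorem covNorm_ye (j : Nd M) (g : Fld n M) (w : Fin n → M → ℝ) (y : E n) :
    covNorm g w (ye j y) = Stmt.covNorm (fj j g) (fun i => fj j (w i)) y := rfl

theorem ip_ye (h : R0 M ≤ ‖y‖) (g : Fld n M) (u v : M → ℝ) :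
    ip g u v (ye j y) = P366Z.ip (fj j g) (fj j u) (fj j v) y := by
  unfold ip P366Z.ip
  simp only [pd_ye h, up_ye]

theorem gn_ye (h : R0 M ≤ ‖y‖) (g : Fld n M) (u : M → ℝ) :
    gn g u (ye j y) = P366Z.gn (fj j g) (fj j u) y := by
  unfold gn P366Z.gn
  rw [ip_ye h]

theorem gr_ye (h : R0 M ≤ ‖y‖) (g : Fld n M) (u : M → ℝ) (i : Fin n) :
    gr g u i (ye j y) = P366Z.gr (fj j g) (fj j u) i y := by
  unfold gr P366Z.gr
  simp only [pd_ye h, up_ye]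

theorem bg_far (hx : R0 M ≤ ‖px x‖) : bg x = eu n x := Mfs.bg_far x hx

theorem dens_far (hx : R0 M ≤ ‖px x‖) (g : Fld n M) : dens g x = √(mat g x).det := by
  unfold dens
  rw [show mat bg x = mat (eu n) x from bg_far hx, mat_eu]
  simp

theorem dens_ye (h : R0 M ≤ ‖y‖) (g : Fld n M) : dens g (ye j y) = P366Z.dens (fj j g) y :=
  dens_far (by rwa [px_ye' h]) g

theorem chr_ye (h : R0 M < ‖y‖) (g : Fld n M) (k a b : Fin n) :
    chr g k a b (ye j y) = Stmt.chr (fj j g) k a b y := by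
  unfold chr
  rw [pt_ye h.le]
  exact P366Z.chr_of_ev (rep_ye h g) k a b

theorem scal_ye (h : R0 M < ‖y‖) (g : Fld n M) : scal g (ye j y) = Stmt.scal (fj j g) y := by
  unfold scal
  rw [pt_ye h.le]
  exact P366Z.scal_of_ev (rep_ye h g)

theorem hess_ye (h : R0 M < ‖y‖) (g : Fld n M) (u : M → ℝ) :
    hess g u (ye j y) = Stmt.hess (fj j g) (fj j u) y := by
  funext a b
  unfold hess Stmt.hess
  simp only [pd2_ye h.le, chr_ye h, pd_ye h.le]

theorem dv_ye (h : R0 M < ‖y‖) (g : Fld n M) (X : Fin n → M → ℝ) :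
    dv g X (ye j y) = P366Z.dv (fj j g) (fun i => fj j (X i)) y := by
  unfold dv
  rw [pt_ye h.le]
  exact P366Z.dv_of_ev (rep_ye h g) (repV_ye h X)

theorem lap_ye (h : R0 M < ‖y‖) (g : Fld n M) (u : M → ℝ) :
    lap g u (ye j y) = P366Z.lap (fj j g) (fj j u) y := by
  unfold lap
  rw [pt_ye h.le, P366Z.lap_of_ev (rep_ye h g), P366Z.lap_congr (loc_ye h.le u)]

theorem wl_ye (h : R0 M < ‖y‖) (g : Fld n M) (U u : M → ℝ) :
    wl g U u (ye j y) = P366Z.wl (fj j g) (fj j U) (fj j u) y := by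
  unfold wl
  rw [pt_ye h.le, P366Z.wl_of_ev (rep_ye h g),
    P366Z.wl_congr (loc_ye h.le U) (loc_ye h.le u)]

theorem cl_ye (h : R0 M < ‖y‖) (g : Fld n M) (u : M → ℝ) :
    cl g u (ye j y) = P366Z.cl (fj j g) (fj j u) y := by
  unfold cl P366Z.cl
  rw [lap_ye h, scal_ye h]
  rfl

theorem dvT_ye (h : R0 M < ‖y‖) (g T : Fld n M) (a : Fin n) :
    dvT g T a (ye j y) = P366Z.dvT (fj j g) (fj j T) a y := by
  have h1 := rep_ye (j := j) h g
  have h2 := rep_ye (j := j) h T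
  have h3 : ∀ a b c, Stmt.pd c (fun z => rep (ch (ye j y)) T z a b) y =
      Stmt.pd c (fun z => fj j T z a b) y := fun a b c =>
    P366Z.pd_congr (h2.mono fun z hz => by simp only [hz]) c
  unfold dvT P366Z.dvT
  rw [pt_ye h.le]
  simp only [h3, P366Z.up_of_eq h1.eq_of_nhds, P366Z.chr_of_ev h1, h2.eq_of_nhds]

theorem mom_ye (h : R0 M < ‖y‖) (g T : Fld n M) (a : Fin n) :
    mom g T a (ye j y) = Stmt.mom (fj j g) (fj j T) a y := by
  rw [mom_eq_dvT, dvT_ye h]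
  rfl

theorem mu_ye (h : R0 M < ‖y‖) (g T : Fld n M) :
    mu g T (ye j y) = Stmt.mu (fj j g) (fj j T) y := by
  unfold mu Stmt.mu
  rw [scal_ye h]
  rfl

/-! ### functions of the position -/

theorem loc_px {α : Type} (hx : R0 M ≤ ‖px x‖) (F : E n → α) :
    loc (ch x) (fun z => F (px z)) =ᶠ[𝓝 (pt x)] F := by
  rw [pt_far hx]
  filter_upwards [ball_mem_nhds (px x) (show (0 : ℝ) < 5 by norm_num)] with z hz
  simp only [loc, px_symm hx hz]

theorem fj_px {α : Type} (h : R0 M - 6 < ‖y‖) (F : E n → α) :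
    fj j (fun z => F (px z)) =ᶠ[𝓝 y] F :=
  (ev_lt_norm h).mono fun z hz => by simp only [fj, px_ye hz.le]

section V

variable {V : Type} [NormedAddCommGroup V] [NormedSpace ℝ V] {F : E n → V} {m : WithTop ℕ∞}

theorem cd_px (hF : ContDiff ℝ m F) (hm : m ≤ ∞) : CD m fun z : M => F (px z) :=
  hF.compM (sm_px.of_le hm)

theorem cAt_px (hF : ContDiffAt ℝ m F (px x)) (hm : m ≤ ∞) : CAt m (fun z => F (px z)) x :=
  hF.compM (sm_px.of_le hm).contDiffAt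

theorem dAt_px (hF : DifferentiableAt ℝ F (px x)) : DAt (fun z => F (px z)) x :=
  hF.compM (sm_px.differentiable (by simp) x)

theorem fd_px (hx : R0 M ≤ ‖px x‖) (F : E n → V) :
    fd (fun z => F (px z)) x = fderiv ℝ F (px x) := by
  unfold fd
  rw [(loc_px hx F).fderiv_eq, pt_far hx]

end V

variable {F G : E n → ℝ}

theorem smooth_px (hF : Stmt.Smooth F) : Smooth fun z : M => F (px z) := cd_px hF le_rfl

theorem sm_coord (k : Fin n) : Smooth fun z : M => px z k := smooth_px (P366Z.contDiff_coord k)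

theorem contDiff_normSq : Smooth fun z : M => ‖px z‖ ^ 2 := smooth_px P366Z.contDiff_normSq

theorem pd_px (hx : R0 M ≤ ‖px x‖) (i : Fin n) (F : E n → ℝ) :
    pd i (fun z => F (px z)) x = Stmt.pd i F (px x) := by
  unfold pd
  rw [P366Z.pd_congr (loc_px hx F), pt_far hx]

theorem pd2_px (hx : R0 M ≤ ‖px x‖) (a b : Fin n) (F : E n → ℝ) :
    pd2 a b (fun z => F (px z)) x = Stmt.pd a (Stmt.pd b F) (px x) := by
  unfold pd2
  rw [P366Z.pd_congr (P366Z.pd_congr_ev (loc_px hx F) b), pt_far hx]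

theorem pd_coord (hx : R0 M ≤ ‖px x‖) (i k : Fin n) :
    pd i (fun z => px z k) x = if i = k then 1 else 0 := by
  rw [pd_px hx i fun z => z k, P366Z.pd_coord]

theorem pd_normSq (hx : R0 M ≤ ‖px x‖) (i : Fin n) :
    pd i (fun z => ‖px z‖ ^ 2) x = 2 * px x i := by
  rw [pd_px hx i fun z => ‖z‖ ^ 2, P366Z.pd_normSq]

theorem px_ne (hx : R0 M ≤ ‖px x‖) : px x ≠ 0 :=
  norm_pos_iff.1 (by linarith [R0_ge M])

theorem pd_norm (hx : R0 M ≤ ‖px x‖) (i : Fin n) :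
    pd i (fun z => ‖px z‖) x = px x i / ‖px x‖ := by
  rw [pd_px hx i fun z => ‖z‖, P366Z.pd_norm (px_ne hx)]

theorem rep_eu (hx : R0 M < ‖px x‖) : rep (ch x) (eu n) =ᶠ[𝓝 (pt x)] P366Z.eu n := by
  obtain ⟨j, y, rfl, h⟩ := far_rep (x := x) (by linarith)
  rw [h] at hx
  rw [pt_ye hx.le]
  exact rep_ye hx _

theorem lap_eu_loc (hx : R0 M < ‖px x‖) (u : M → ℝ) :
    lap (eu n) u x = P366Z.lap (P366Z.eu n) (loc (ch x) u) (pt x) := P366Z.lap_of_ev (rep_eu hx) _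

theorem wl_eu_loc (hx : R0 M < ‖px x‖) (U u : M → ℝ) : wl (eu n) U u x =
    P366Z.wl (P366Z.eu n) (loc (ch x) U) (loc (ch x) u) (pt x) := P366Z.wl_of_ev (rep_eu hx) _ _

theorem lap_eu (hx : R0 M < ‖px x‖) (u : M → ℝ) : lap (eu n) u x = ∑ i, pd2 i i u x := by
  rw [lap_eu_loc hx, P366Z.lap_eu]
  rfl

theorem dv_eu (hx : R0 M < ‖px x‖) (X : Fin n → M → ℝ) : dv (eu n) X x = ∑ i, pd i (X i) x := by
  obtain ⟨j, y, rfl, h⟩ := far_rep (x := x) (by linarith)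
  rw [h] at hx
  rw [dv_ye hx, fj_eu, P366Z.dv_eu]
  simp only [pd_ye hx.le]

theorem wl_eu (hx : R0 M < ‖px x‖) (U u : M → ℝ) :
    wl (eu n) U u x = ∑ i, pd i (fun y => U y ^ 2 * pd i u y) x := by
  obtain ⟨j, y, rfl, h⟩ := far_rep (x := x) (by linarith)
  rw [h] at hx
  rw [wl_ye hx, fj_eu, P366Z.wl_eu]
  refine Finset.sum_congr rfl fun i _ => ?_
  rw [pd_ye hx.le]
  refine P366Z.pd_congr ((fj_pd (j := j) hx i u).mono fun z hz => ?_) i
  simp only [← hz]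
  rfl

theorem dens_eu (hx : R0 M ≤ ‖px x‖) : dens (eu n) x = 1 := by
  rw [dens_far hx, mat_eu]; simp

theorem chr_eu (hx : R0 M < ‖px x‖) (k a b : Fin n) : chr (eu n) k a b x = 0 := by
  unfold chr
  rw [P366Z.chr_of_ev (rep_eu hx), P366Z.chr_eu]

theorem scal_eu (hx : R0 M < ‖px x‖) : scal (eu n) x = 0 := by
  unfold scal
  rw [P366Z.scal_of_ev (rep_eu hx), P366Z.scal_eu]

theorem hess_eu (hx : R0 M < ‖px x‖) (u : M → ℝ) (a b : Fin n) :
    hess (eu n) u x a b = pd2 a b u x := by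
  unfold hess
  simp [chr_eu hx]

theorem ip_eu_px (hx : R0 M ≤ ‖px x‖) (F G : E n → ℝ) :
    ip (eu n) (fun z => F (px z)) (fun z => G (px z)) x = P366Z.ip (P366Z.eu n) F G (px x) := by
  rw [ip_eu, P366Z.ip_eu]
  simp only [pd_px hx]

theorem lap_eu_px (hx : R0 M < ‖px x‖) (F : E n → ℝ) :
    lap (eu n) (fun z => F (px z)) x = P366Z.lap (P366Z.eu n) F (px x) := by
  rw [lap_eu_loc hx, P366Z.lap_congr (loc_px hx.le F), pt_far hx.le]

theorem ip_eu_normSq (hx : R0 M ≤ ‖px x‖) :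
    ip (eu n) (fun y => ‖px y‖ ^ 2) (fun y => ‖px y‖ ^ 2) x = 4 * ‖px x‖ ^ 2 := by
  rw [ip_eu_px hx (fun y => ‖y‖ ^ 2) fun y => ‖y‖ ^ 2, P366Z.ip_eu_normSq]

theorem lap_eu_normSq (hx : R0 M < ‖px x‖) : lap (eu n) (fun y => ‖px y‖ ^ 2) x = 2 * n := by
  rw [lap_eu_px hx fun y => ‖y‖ ^ 2, P366Z.lap_eu_normSq]

theorem lap_eu_sq {φ : ℝ → ℝ} (hx : R0 M < ‖px x‖) (hφ : ContDiffAt ℝ 2 φ (‖px x‖ ^ 2)) :
    lap (eu n) (fun y => φ (‖px y‖ ^ 2)) x =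
      2 * n * deriv φ (‖px x‖ ^ 2) + 4 * ‖px x‖ ^ 2 * deriv (deriv φ) (‖px x‖ ^ 2) := by
  rw [lap_eu_px hx fun y => φ (‖y‖ ^ 2), P366Z.lap_eu_sq hφ]

theorem ip_eu_norm (hx : R0 M ≤ ‖px x‖) :
    ip (eu n) (fun y => ‖px y‖) (fun y => ‖px y‖) x = 1 := by
  rw [ip_eu_px hx (fun y => ‖y‖) fun y => ‖y‖, P366Z.ip_eu_norm (px_ne hx)]

theorem lap_eu_norm (hx : R0 M < ‖px x‖) : lap (eu n) (fun y => ‖px y‖) x = (n - 1) / ‖px x‖ := by
  rw [lap_eu_px hx fun y => ‖y‖, P366Z.lap_eu_norm (px_ne hx.le)]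

theorem lap_eu_radial {φ : ℝ → ℝ} (hx : R0 M < ‖px x‖) (hφ : ContDiffAt ℝ 2 φ ‖px x‖) :
    lap (eu n) (fun y => φ ‖px y‖) x =
      deriv (deriv φ) ‖px x‖ + (n - 1) / ‖px x‖ * deriv φ ‖px x‖ := by
  rw [lap_eu_px hx fun y => φ ‖y‖, P366Z.lap_eu_radial (px_ne hx.le) hφ]

theorem pd_radial {φ : ℝ → ℝ} {d : ℝ} (hx : R0 M ≤ ‖px x‖) (hφ : HasDerivAt φ d ‖px x‖)
    (i : Fin n) : pd i (fun y => φ ‖px y‖) x = d * (px x i / ‖px x‖) := by
  rw [pd_px hx i fun y => φ ‖y‖, P366Z.pd_radial (px_ne hx) hφ]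

theorem contDiffAt_norm {m : WithTop ℕ∞} (hx : px x ≠ 0) (hm : m ≤ ∞) :
    CAt m (fun y : M => ‖px y‖) x := cAt_px (F := fun y => ‖y‖) (_root_.contDiffAt_norm ℝ hx) hm

theorem contDiffAt_norm_rpow {m : WithTop ℕ∞} (hx : px x ≠ 0) (hm : m ≤ ∞) (p : ℝ) :
    CAt m (fun y : M => ‖px y‖ ^ p) x :=
  cAt_px (F := fun y => ‖y‖ ^ p) (P366Z.contDiffAt_norm_rpow hx p) hm

theorem pd_norm_rpow (hx : R0 M ≤ ‖px x‖) (p : ℝ) (i : Fin n) :
    pd i (fun y => ‖px y‖ ^ p) x = p * px x i * ‖px x‖ ^ (p - 2) := by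
  rw [pd_px hx i fun y => ‖y‖ ^ p, P366Z.pd_norm_rpow (px_ne hx)]

theorem lap_eu_rpow (hx : R0 M < ‖px x‖) (p : ℝ) :
    lap (eu n) (fun y => ‖px y‖ ^ p) x = p * (p + n - 2) * ‖px x‖ ^ (p - 2) := by
  rw [lap_eu_px hx fun y => ‖y‖ ^ p, P366Z.lap_eu_rpow (px_ne hx.le)]

/-! ### the filter at infinity -/

instance : ProperSpace M := ⟨fun x r => (isCompact_px M (‖px x‖ + r)).of_isClosed_subset
  isClosed_closedBall fun z hz => by
    have h1 := px_le z x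
    have h2 := norm_sub_norm_le (px z) (px x)
    have h3 := mem_closedBall.1 hz
    show ‖px z‖ ≤ _
    linarith⟩

theorem bdd_px {K : Set M} (hK : IsCompact K) : ∃ R, 0 < R ∧ ∀ x ∈ K, ‖px x‖ ≤ R := by
  obtain ⟨R, hR⟩ := hK.exists_bound_of_continuousOn cont_px.continuousOn
  exact ⟨max R 1, by positivity, fun x hx => (hR x hx).trans (le_max_left _ _)⟩

theorem ev_cocompact {p : M → Prop} :
    (∀ᶠ x in cocompact M, p x) ↔ ∃ R, ∀ x, R ≤ ‖px x‖ → p x := by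
  rw [Filter.Eventually, mem_cocompact]
  refine ⟨fun ⟨K, hK, h⟩ => ?_, fun ⟨R, h⟩ => ⟨_, isCompact_px M R, fun x hx =>
    h x (not_le.1 fun k => hx k).le⟩⟩
  obtain ⟨R, -, hR⟩ := bdd_px hK
  exact ⟨R + 1, fun x hx => h fun k => by linarith [hR x k]⟩

theorem ev_cocompactE {p : E n → Prop} :
    (∀ᶠ y in cocompact (E n), p y) ↔ ∃ R, ∀ y, R ≤ ‖y‖ → p y := by
  rw [← Metric.cobounded_eq_cocompact, ← comap_norm_atTop, eventually_comap, eventually_atTop]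
  exact ⟨fun ⟨R, h⟩ => ⟨R, fun y hy => h _ hy y rfl⟩,
    fun ⟨R, h⟩ => ⟨R, fun r hr y hy => h y (hy ▸ hr)⟩⟩

theorem tendsto_npx : Tendsto (fun x : M => ‖px x‖) (cocompact M) atTop :=
  tendsto_atTop.2 fun R => ev_cocompact.2 ⟨R, fun _ h => h⟩

theorem tendsto_px : Tendsto (px : M → E n) (cocompact M) (cocompact (E n)) := fun _ hs =>
  let ⟨R, h⟩ := ev_cocompactE.1 hs
  ev_cocompact.2 ⟨R, fun x hx => h _ hx⟩

theorem tendsto_ye (j : Nd M) : Tendsto (ye j) (cocompact (E n)) (cocompact M) := fun _ hs =>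
  let ⟨R, h⟩ := ev_cocompact.1 hs
  ev_cocompactE.2 ⟨max R (R0 M), fun y hy => h _ (by
    rw [px_ye' ((le_max_right _ _).trans hy)]; exact (le_max_left _ _).trans hy)⟩

theorem ev_cocompact_iff {p : M → Prop} :
    (∀ᶠ x in cocompact M, p x) ↔ ∀ j : Nd M, ∀ᶠ y in cocompact (E n), p (ye j y) := by
  refine ⟨fun h j => tendsto_ye j h, fun h => ?_⟩
  obtain ⟨R, hR⟩ := ev_cocompactE.1 (eventually_all.2 h)
  refine ev_cocompact.2 ⟨max R (R0 M), fun x hx => ?_⟩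
  obtain ⟨j, hj⟩ := far_ex (x := x) (by linarith [le_max_right R (R0 M)])
  rw [← hj]
  exact hR _ ((le_max_left _ _).trans hx) j

theorem tendsto_cocompact_iff {α : Type} {f : M → α} {l : Filter α} :
    Tendsto f (cocompact M) l ↔ ∀ j : Nd M, Tendsto (fj j f) (cocompact (E n)) l :=
  ⟨fun h j => h.comp (tendsto_ye j), fun h _ hs => ev_cocompact_iff.2 fun j => h j hs⟩

/-! ### the expansions -/

theorem Asy.asyE {a β : ℝ} (h : Asy v a β) (j : Nd M) : AsyE j v a β := by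
  obtain ⟨C, R, h⟩ := h
  refine ⟨C, max R (R0 M), fun y hy => ?_⟩
  have h0 : R0 M ≤ ‖y‖ := (le_max_right _ _).trans hy
  have := h (ye j y) (by rw [px_ye' h0]; exact (le_max_left _ _).trans hy)
  simp only [px_ye' h0, pd_ye h0] at this
  exact this

theorem asy_of_asyE {a β : ℝ} (h : ∀ j : Nd M, AsyE j v a β) : Asy v a β := by
  choose C R h using h
  obtain ⟨C', hC⟩ := (finite_range C).bddAbove
  obtain ⟨R', hR⟩ := (finite_range R).bddAbove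
  refine ⟨C', max R' (R0 M), fun x hx => ?_⟩
  have h0 : R0 M ≤ ‖px x‖ := (le_max_right _ _).trans hx
  obtain ⟨j, y, rfl, hy⟩ := far_rep (x := x) (by linarith)
  rw [hy] at hx h0 ⊢
  obtain ⟨h1, h2⟩ := h j y ((hR (mem_range_self j)).trans ((le_max_left _ _).trans hx))
  have h3 : C j ≤ C' := hC (mem_range_self j)
  simp only [pd_ye h0]
  exact ⟨h1.trans (by gcongr), fun i => (h2 i).trans (by gcongr)⟩

section one

variable {M : Type} [Mfe n M] {x : M} {v : M → ℝ}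

theorem fe_eq {α : Type} (u : M → α) : fe u = fj Mfe.o u := rfl

theorem yp_px (hx : R0 M - 6 ≤ ‖px x‖) : yp (px x) = x := by
  obtain ⟨j, h⟩ := far_ex hx
  rwa [Mfe.one j] at h

theorem px_yp (h : R0 M - 6 ≤ ‖y‖) : px (yp y : M) = y := px_ye h

theorem asy_iff {a β : ℝ} : Asy v a β ↔ P366Z.Asy (fe v) a β :=
  ⟨fun h => h.asyE _, fun h => asy_of_asyE fun j => by rwa [Mfe.one j]⟩

theorem tendsto_fe {α : Type} {f : M → α} {l : Filter α} :
    Tendsto f (cocompact M) l ↔ Tendsto (fe f) (cocompact (E n)) l :=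
  tendsto_cocompact_iff.trans ⟨fun h => h _, fun h j => by rwa [Mfe.one j]⟩

end one

end Vale.Agent.P366M
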