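import Vale.Agent.P366M.Sk
import Vale.Agent.P366M.End1
import Vale.Agent.P366M.Int
import Vale.Agent.P366Z.Max
import Vale.Agent.P366Z.Chain
import Vale.Agent.P366Z.Boch

/-!
# P366M: the maximum principles
-/

open Metric Filter Topology Set
open scoped ContDiff
open Vale.Agent.P366 Vale.Agent.P366.Stmt Vale.Agent.P366Z

noncomputable section

namespace Vale.Agent.P366M

theorem ptm : PTM := fun n _ _ _ _ _ x hg hU hu hx =>
  P366Z.ptm n _ _ _ _ (hg.loc' x) (hU.lc (ch_mem x)) hu (isLocalMax_loc hx)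

section L0

variable {n : ℕ} {M : Type} [Mf0 n M] {g : Fld n M} {U u : M → ℝ} {x : M}

theorem Met.wl_nonpos (hg : Met g) (hU : Smooth U) (hu : CAt 2 u x) (hx : IsLocalMax u x) :
    wl g U u x ≤ 0 := (ptm n M g U u x hg hU hu hx).2

theorem Met.wl_nonneg (hg : Met g) (hU : Smooth U) (hu : CAt 2 u x) (hx : IsLocalMin u x) :
    0 ≤ wl g U u x := by
  have := hg.wl_nonpos hU hu.neg hx.neg
  rw [wl_neg] at this
  linarith

theorem Met.lap_nonpos (hg : Met g) (hu : CAt 2 u x) (hx : IsLocalMax u x) : lap g u x ≤ 0 := by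
  rw [← wl_one]; exact hg.wl_nonpos cd_const hu hx

theorem Met.lap_nonneg (hg : Met g) (hu : CAt 2 u x) (hx : IsLocalMin u x) : 0 ≤ lap g u x := by
  rw [← wl_one]; exact hg.wl_nonneg cd_const hu hx

/-- lower bounds propagate in a small neighbourhood of every point -/
theorem chain_loc (hg : Met g) (hU : Smooth U) (U0 : ∀ x, 0 < U x) {c : ℝ} (hc : 0 ≤ c) {O : Set M}
    (hO : O ∈ 𝓝 x) : ∃ N ∈ 𝓝 x, ∀ y ∈ N, ∀ W ∈ 𝓝 y, ∃ k > (0 : ℝ), ∀ (m : ℝ) (u : M → ℝ), 0 < m →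
      (∀ z ∈ O, CAt 2 u z ∧ 0 ≤ u z ∧ wl g U u z ≤ c * u z) → (∀ z ∈ W, m ≤ u z) →
      ∀ z ∈ N, k * m ≤ u z := by
  have he := ch_mem x
  obtain ⟨ε, e0, hε⟩ := Metric.mem_nhds_iff.1 (tendsto_pt x hO)
  refine ⟨_, image_nhds x (closedBall_mem_nhds (pt x) (half_pos e0)), ?_⟩
  rintro _ ⟨y, hy, rfl⟩ W hW
  obtain ⟨r, r0, hr⟩ := Metric.mem_nhds_iff.1 (inter_mem (tendsto_symm he y hW)
    (isOpen_ball.mem_nhds (closedBall_subset_ball (half_lt_self e0) hy)))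
  obtain ⟨k, k0, hk⟩ := P366Z.chain_of P366Z.wmp n _ _ c r _ _ y (hg.rep he) (hU.lc he)
    (fun _ => U0 _) hc isOpen_ball (convex_ball (pt x) ε).isPreconnected
    (isCompact_closedBall (pt x) (ε / 2)) (closedBall_subset_ball (half_lt_self e0)) r0
    (hr.trans inter_subset_right)
  refine ⟨k, k0, fun m u m0 hu hm => ?_⟩
  rintro _ ⟨z, hz, rfl⟩
  have := hk (loc (ch x) fun p => m⁻¹ * u p) (fun w hw => ?_) (fun w hw => ?_) z hz
  · rwa [loc_apply, le_inv_mul_iff₀ m0, mul_comm] at this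
  · obtain ⟨h1, h2, h3⟩ := hu _ (hε hw)
    have h4 : CAt 2 (fun p => m⁻¹ * u p) ((ch x).symm w) := cAt_const.mul h1
    refine ⟨h4.lc two_le_oo he, mul_nonneg (inv_nonneg.2 m0.le) h2, ?_⟩
    rw [wl_rep hg he (hU.diff _) h4, wl_const_mul, loc_apply, mul_left_comm]
    exact mul_le_mul_of_nonneg_left h3 (inv_nonneg.2 m0.le)
  · rw [loc_apply, le_inv_mul_iff₀ m0, mul_one]
    exact hm _ (hr hw).1

/-- the strong minimum principle at a point -/
theorem Met.smp (hg : Met g) (hU : Smooth U) (U0 : ∀ x, 0 < U x) {c : ℝ} (hc : 0 ≤ c)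
    (hu : ∀ᶠ z in 𝓝 x, CAt 2 u z ∧ 0 ≤ u z ∧ wl g U u z ≤ c * u z) (hx : u x = 0) :
    ∀ᶠ z in 𝓝 x, u z = 0 := by
  obtain ⟨N, hN, h⟩ := chain_loc hg hU U0 hc hu
  filter_upwards [hN, hu] with y hy h1
  by_contra h0
  have h2 : 0 < u y := h1.2.1.lt_of_ne' h0
  obtain ⟨k, k0, hk⟩ := h y hy _ (h1.1.continuousAt.eventually (lt_mem_nhds (half_lt_self h2)))
  have := hk (u y / 2) u (half_pos h2) (fun z hz => hz) (fun z hz => le_of_lt hz) x
    (mem_of_mem_nhds hN)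
  have := mul_pos k0 (half_pos h2)
  linarith

/-- the strong minimum principle on a connected open set -/
theorem Met.smp_on (hg : Met g) (hU : Smooth U) (U0 : ∀ x, 0 < U x) {c : M → ℝ} {O : Set M}
    (hO : IsOpen O) (hO' : IsPreconnected O) (hc : ContinuousOn c O)
    (hu : ∀ z ∈ O, CAt 2 u z ∧ 0 ≤ u z ∧ wl g U u z ≤ c z * u z) (hx : x ∈ O) (h0 : u x = 0) :
    ∀ z ∈ O, u z = 0 := by
  have key : ∀ y ∈ O, u y = 0 → ∀ᶠ z in 𝓝 y, u z = 0 := fun y hy k =>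
    hg.smp hU U0 (c := |c y| + 1) (by positivity) (by
      filter_upwards [hO.mem_nhds hy, (hc.continuousAt (hO.mem_nhds hy)).eventually
        (gt_mem_nhds (show c y < |c y| + 1 by linarith [le_abs_self (c y)]))] with z hz h1
      exact ⟨(hu z hz).1, (hu z hz).2.1, (hu z hz).2.2.trans
        (mul_le_mul_of_nonneg_right h1.le (hu z hz).2.1)⟩) k
  have k : O ⊆ {y | ∀ᶠ z in 𝓝 y, u z = 0} := hO'.subset_of_closure_inter_subset
    (isOpen_iff_mem_nhds.2 fun y hy => Eventually.eventually_nhds hy) ⟨x, hx, key x hx h0⟩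
    fun y ⟨h1, h2⟩ => key y h2 (by
      by_contra h3
      obtain ⟨z, h4, h5⟩ := mem_closure_iff_nhds.1 h1 _
        ((hu y h2).1.continuousAt.eventually_ne h3)
      exact h4 (Eventually.self_of_nhds (p := fun z => u z = 0) h5))
  exact fun z hz => Eventually.self_of_nhds (p := fun z => u z = 0) (k hz)

/-- the weak minimum principle; `O` contains no compact component of the manifold -/
theorem Met.wmp0 (hg : Met g) (hU : Smooth U) (U0 : ∀ x, 0 < U x) {c : M → ℝ} {O : Set M}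
    (hO : IsOpen O) (hu : ContinuousOn u (closure O))
    (hi : ∀ x ∈ O, CAt 2 u x ∧ 0 ≤ c x ∧ wl g U u x ≤ c x * u x) (hf : ∀ x ∈ frontier O, 0 ≤ u x)
    (hR : ∀ e > 0, ∃ K, IsCompact K ∧ ∀ x ∈ O, x ∉ K → -e ≤ u x)
    (hn : ∀ S ⊆ O, IsOpen S → IsCompact S → S = ∅) : ∀ x ∈ O, 0 ≤ u x := by
  intro x₀ hx₀
  by_contra hneg
  obtain ⟨K, hK, hR⟩ := hR (-u x₀ / 2) (by linarith)
  have h0 : x₀ ∈ K := by_contra fun k => by linarith [hR x₀ hx₀ k]
  have hc := hK.inter_left (isClosed_closure (s := O))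
  obtain ⟨y, hy, hm⟩ := hc.exists_isMinOn ⟨x₀, subset_closure hx₀, h0⟩ (hu.mono inter_subset_left)
  have h1 : u y ≤ u x₀ := hm ⟨subset_closure hx₀, h0⟩
  have h2 : ∀ z ∈ O, u y ≤ u z := fun z hz => by
    by_cases k : z ∈ K
    · exact hm ⟨subset_closure hz, k⟩
    · linarith [hR z hz k]
  have h3 : closure O ∩ K ∩ u ⁻¹' {u y} ⊆ O := fun z hz => by_contra fun k => by
    have k1 : u z = u y := hz.2
    linarith [hf z ⟨hz.1.1, by rwa [hO.interior_eq]⟩]
  refine absurd (hn _ h3 (isOpen_iff_mem_nhds.2 fun z hz => ?_) (hc.of_isClosed_subset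
    ((hu.mono inter_subset_left).preimage_isClosed_of_isClosed hc.isClosed isClosed_singleton)
    inter_subset_left)) (Nonempty.ne_empty ⟨y, hy, rfl⟩)
  have k1 : u z = u y := hz.2
  have k2 := hO.mem_nhds (h3 hz)
  have k3 := hg.smp hU U0 (u := fun w => u w + -u y) (x := z) le_rfl (by
    filter_upwards [k2, (hi z (h3 hz)).1.continuousAt.eventually
      (gt_mem_nhds (show u z < 0 by linarith))] with w hw k4
    refine ⟨(hi w hw).1.add cAt_const, by linarith [h2 w hw], ?_⟩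
    rw [wl_add_const, zero_mul]
    exact (hi w hw).2.2.trans (mul_nonpos_of_nonneg_of_nonpos (hi w hw).2.1 k4.le)) (by linarith)
  filter_upwards [k2, k3] with w hw k4
  exact ⟨⟨subset_closure hw, by_contra fun k => by linarith [hR w hw k]⟩,
    show u w = u y by linarith⟩

theorem no_comp [PreconnectedSpace M] {O : Set M} (h : O ≠ univ ∨ ¬IsCompact (univ : Set M)) :
    ∀ S ⊆ O, IsOpen S → IsCompact S → S = ∅ := fun S h1 h2 h3 =>
  (isClopen_iff.1 ⟨h3.isClosed, h2⟩).resolve_right fun k => by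
    subst k
    exact h.elim (fun k => k (univ_subset_iff.1 h1)) fun k => k h3

/-- the weak minimum principle on a relatively compact open set which is not everything -/
theorem Met.wmp_cpt [PreconnectedSpace M] (hg : Met g) (hU : Smooth U) (U0 : ∀ x, 0 < U x)
    {c : M → ℝ} {O : Set M} (hO : IsOpen O) (hc : IsCompact (closure O)) (hne : O ≠ univ)
    (hu : ContinuousOn u (closure O))
    (hi : ∀ x ∈ O, CAt 2 u x ∧ 0 ≤ c x ∧ wl g U u x ≤ c x * u x) (hf : ∀ x ∈ frontier O, 0 ≤ u x) :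
    ∀ x ∈ O, 0 ≤ u x :=
  hg.wmp0 hU U0 hO hu hi hf (fun _ _ => ⟨_, hc, fun _ hx k => absurd (subset_closure hx) k⟩)
    (no_comp (Or.inl hne))

end L0

theorem chain : CHAIN := by
  intro n M _ g U c r O K x₀ hg hU U0 hc hO hO' hK hKO hr hb
  let A : (M → ℝ) → Prop := fun u =>
    (∀ x ∈ O, CAt 2 u x ∧ 0 ≤ u x ∧ wl g U u x ≤ c * u x) ∧ ∀ x ∈ ball x₀ r, 1 ≤ u x
  have k : O ⊆ {x | ∃ c' > (0 : ℝ), ∀ᶠ z in 𝓝 x, ∀ u, A u → c' ≤ u z} := by
    refine hO'.subset_of_closure_inter_subset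
      (isOpen_iff_mem_nhds.2 fun x ⟨c', c0, hx⟩ => hx.eventually_nhds.mono fun z hz => ⟨c', c0, hz⟩)
      ⟨x₀, hb (mem_ball_self hr), 1, one_pos,
        mem_of_superset (ball_mem_nhds x₀ hr) fun z hz u hu => hu.2 z hz⟩ fun x ⟨hx, hx'⟩ => ?_
    obtain ⟨N, hN, h⟩ := chain_loc hg hU U0 hc (hO.mem_nhds hx')
    obtain ⟨y, h1, m, m0, hy⟩ := mem_closure_iff_nhds.1 hx N hN
    obtain ⟨k, k0, hk⟩ := h y h1 _ hy
    exact ⟨k * m, mul_pos k0 m0, mem_of_superset hN fun z hz u hu =>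
      hk m u m0 hu.1 (fun w hw => hw u hu) z hz⟩
  obtain ⟨c', c0, hc'⟩ := hK.induction_on
    (p := fun S => ∃ c' > (0 : ℝ), ∀ z ∈ S, ∀ u, A u → c' ≤ u z)
    ⟨1, one_pos, fun _ h => h.elim⟩ (fun _ _ h ⟨N, a, b⟩ => ⟨N, a, fun y hy => b y (h hy)⟩)
    (fun _ _ ⟨N, a, b⟩ ⟨N', a', b'⟩ => ⟨min N N', lt_min a a', fun y hy u hu =>
      hy.elim (fun h => (min_le_left _ _).trans (b y h u hu))
        fun h => (min_le_right _ _).trans (b' y h u hu)⟩) fun x hx => by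
      obtain ⟨c', c0, h1⟩ := k (hKO hx)
      exact ⟨_, mem_nhdsWithin_of_mem_nhds h1, c', c0, fun z hz => hz⟩
  exact ⟨c', c0, fun u h1 h2 x hx => hc' x hx u ⟨h1, h2⟩⟩

theorem exists_far {n : ℕ} {M : Type} [Mfs n M] (hn : 0 < n) (j : Nd M) (R : ℝ) :
    ∃ y : E n, R ≤ ‖y‖ ∧ R ≤ ‖px (ye j y : M)‖ := by
  have h : ‖(EuclideanSpace.single (⟨0, hn⟩ : Fin n) (max R (R0 M)) : E n)‖ = max R (R0 M) := by
    rw [PiLp.norm_single, Real.norm_of_nonneg]
    exact le_max_of_le_right (by linarith [R0_ge M])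
  refine ⟨_, (le_max_left _ _).trans h.ge, ?_⟩
  rw [px_ye' ((le_max_right _ _).trans h.ge), h]
  exact le_max_left _ _

theorem not_compact {n : ℕ} {M : Type} [Mfs n M] [h : Nonempty (Nd M)] (hn : 0 < n) :
    ¬IsCompact (univ : Set M) := fun k => by
  obtain ⟨R, -, hR⟩ := bdd_px k
  obtain ⟨y, -, hy⟩ := exists_far hn h.some (R + 1)
  linarith [hR _ (mem_univ (ye h.some y))]

theorem wmp : WMP := fun _ M _ _ _ _ _ _ _ _ hn hg hU U0 hO hu hi hf hR =>
  hg.wmp0 hU U0 hO hu hi hf (fun e he =>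
    let ⟨R, h⟩ := hR e he
    ⟨_, isCompact_px M R, fun x hx k => h x hx (not_le.1 k).le⟩) (no_comp (Or.inr (not_compact hn)))

theorem boch : BOCH := by
  intro n M _ g hg
  refine ⟨fun K hK => ?_, fun u v hu x => ?_⟩
  · refine hK.induction_on (p := fun s => ∃ C : ℝ, ∀ u, Smooth u → ∀ x ∈ s,
      normSq g (hess g u) x + ip g u (lap g u) x - C * ip g u u x ≤ lap g (ip g u u) x / 2)
      ⟨0, by simp⟩ (fun s t hst ⟨C, hC⟩ => ⟨C, fun u hu x hx => hC u hu x (hst hx)⟩) ?_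
      fun x _ => ?_
    · rintro s t ⟨C, hC⟩ ⟨D, hD⟩
      refine ⟨max C D, fun u hu x hx => hx.elim (fun hx => ?_) fun hx => ?_⟩
      · linarith [hC u hu x hx, mul_le_mul_of_nonneg_right (le_max_left C D) (hg.ip_nonneg u x)]
      · linarith [hD u hu x hx, mul_le_mul_of_nonneg_right (le_max_right C D) (hg.ip_nonneg u x)]
    · have he := ch_mem x
      obtain ⟨C, hC⟩ := (P366Z.boch n _ (hg.rep he)).1 _ (isCompact_closedBall (pt x) 1)
      refine ⟨_, mem_nhdsWithin_of_mem_nhds (image_nhds x (closedBall_mem_nhds (pt x) one_pos)),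
        C, fun u hu => ?_⟩
      rintro _ ⟨y, hy, rfl⟩
      have := hC _ (hu.lc he) y hy
      rwa [← rep_hess hg he hu.two, normSq_rep he, ← loc_lap hg he hu.two,
        ← loc_ip he g hu.diff hu.diff, ip_rep he g (hu.diff _) ((hg.sm_lap hu).diff _),
        lap_rep hg he ((hg.sm_ip hu hu).c2 _)] at this
  · have he := ch_mem x
    have := (P366Z.boch n _ (hg.rep he)).2 _ (loc (ch x) v) (hu.lc he) (pt x)
    rw [← loc_ip he g hu.diff hu.diff, ip_pt, ← rep_hess hg he hu.two, normSq_pt, loc_pt] at this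
    simp only [gr_pt, rep_pt] at this
    exact this

end Vale.Agent.P366M
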