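import Vale.Agent.P366M.Inv2
import Vale.Agent.P366M.Vol

/-!
# P366M: pointwise calculus of `ip`, `dv`, `lap`, `wl` (the lemmas of `P366Z.Calc`, `Calc2`, `Calc3`)
-/

open MeasureTheory Metric Filter Topology Set
open scoped ContDiff
open Vale.Agent.P366 Vale.Agent.P366.Stmt Vale.Agent.P366Z

noncomputable section

namespace Vale.Agent.P366M

section L0

variable {n : ℕ} {M : Type} [Mf0 n M] {f h u v w U : M → ℝ} {x : M} {g g' T : Fld n M}

/-! ### the metric -/

theorem Met.sm_scal (hg : Met g) : Smooth (scal g) := fun e he => by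
  rw [loc_scal hg he]; exact (hg.rep he).sm_scal

theorem Met.sm_tr (hg : Met g) (hT : SmT T) : Smooth (tr g T) := SmU.pair hg.sm_up hT

theorem Met.sm_normSq (hg : Met g) (hT : SmT T) : Smooth (normSq g T) := fun e he => by
  rw [loc_normSq he]
  exact ContDiff.sum fun i _ => ContDiff.sum fun j _ => ContDiff.sum fun k _ =>
    ContDiff.sum fun l _ => ContDiff.mul (ContDiff.mul (ContDiff.mul ((hg.rep he).sm_up i k)
      ((hg.rep he).sm_up j l)) (hT e he i j)) (hT e he k l)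

theorem Met.sm_mu (hg : Met g) (hT : SmT T) : Smooth (mu g T) :=
  CD.div_const (CD.sub (CD.add hg.sm_scal (CD.pow (hg.sm_tr hT) 2)) (hg.sm_normSq hT)) 2

theorem Met.sm_momT (hg : Met g) (hT : SmT T) : SmT (momT g T) :=
  hT.sub (SmT.smul (hg.sm_tr hT) hg.sm)

theorem Met.sm_dvT (hg : Met g) (hT : SmT T) : CC ∞ (dvT g T) := fun e he j => by
  rw [repC_dvT hg he hT]
  have h := hg.rep he
  exact ContDiff.sum fun i _ => ContDiff.sum fun k _ => ContDiff.mul (h.sm_up i k) (ContDiff.sub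
    ((hT e he i j).pd k) (ContDiff.sum fun l _ => ContDiff.add
      (ContDiff.mul (h.sm_chr l k i) (hT e he l j)) (ContDiff.mul (h.sm_chr l k j) (hT e he i l))))

theorem Met.sm_mom (hg : Met g) (hT : SmT T) : CC ∞ (mom g T) := by
  rw [mom_eq_dvT]; exact hg.sm_dvT (hg.sm_momT hT)

theorem Met.sm_ric (hg : Met g) : SmT (ric g) := fun e he i l => by
  rw [← ric_rep hg he]
  have h := hg.rep he
  exact ContDiff.sum fun j _ => ContDiff.add (ContDiff.sub ((h.sm_chr j i l).pd j)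
    ((h.sm_chr j j l).pd i)) (ContDiff.sum fun k _ => ContDiff.sub
      (ContDiff.mul (h.sm_chr _ _ _) (h.sm_chr _ _ _)) (ContDiff.mul (h.sm_chr _ _ _) (h.sm_chr _ _ _)))

theorem Met.scal_eq_tr (hg : Met g) (x : M) : scal g x = tr g (ric g) x := by
  rw [← tr_pt, ← ric_rep hg (ch_mem x)]
  exact P366P.scal_eq_tr (hg.loc' x) _

theorem Met.cd_cov {m : WithTop ℕ∞} {a b : Fin n → M → ℝ} (hg : Met g) (hm : m ≤ ∞) (ha : CC m a)
    (hb : CC m b) : CD m fun x => ∑ i, ∑ j, up g i j x * a i x * b j x := by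
  have := CC.dot ha (SmU.raise hg.sm_up hm hb)
  simpa only [Finset.mul_sum, mul_left_comm, mul_assoc] using this

theorem Met.cont_covNorm {a : Fin n → M → ℝ} (hg : Met g) (ha : CC 0 a) :
    Continuous (covNorm g a) := (hg.cd_cov (by simp) ha ha).continuous.sqrt

theorem Met.chr_sy (hg : Met g) (k i j : Fin n) (x : M) : chr g k i j x = chr g k j i x :=
  (hg.loc' x).chr_sy k i j _

theorem Met.inv_pos (hg : Met g) (x : M) : ((mat g x)⁻¹).PosDef := (hg.pos x).inv

theorem Met.up_sy (hg : Met g) (i j : Fin n) (x : M) : up g i j x = up g j i x := by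
  have := (hg.inv_pos x).isHermitian.apply j i
  simpa [up] using this

theorem Met.up_mul (hg : Met g) (i j : Fin n) (x : M) :
    ∑ k, up g i k x * g x k j = if i = j then 1 else 0 := by
  have h1 : (mat g x)⁻¹ * mat g x = 1 :=
    Matrix.nonsing_inv_mul _ (isUnit_iff_ne_zero.2 (hg.det_pos x).ne')
  have := congrFun (congrFun h1 i) j
  rw [Matrix.mul_apply, Matrix.one_apply] at this
  exact this

theorem Met.mul_up (hg : Met g) (i j : Fin n) (x : M) :
    ∑ k, g x i k * up g k j x = if i = j then 1 else 0 := by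
  have h1 : mat g x * (mat g x)⁻¹ = 1 :=
    Matrix.mul_nonsing_inv _ (isUnit_iff_ne_zero.2 (hg.det_pos x).ne')
  have := congrFun (congrFun h1 i) j
  rw [Matrix.mul_apply, Matrix.one_apply] at this
  exact this

theorem Met.up_nonneg (hg : Met g) (x : M) (ξ : Fin n → ℝ) :
    0 ≤ ∑ i, ∑ j, up g i j x * ξ i * ξ j := by
  have := (hg.inv_pos x).posSemidef.dotProduct_mulVec_nonneg ξ
  rwa [← quad_eq] at this

theorem Met.up_pos (hg : Met g) (x : M) {ξ : Fin n → ℝ} (hξ : ξ ≠ 0) :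
    0 < ∑ i, ∑ j, up g i j x * ξ i * ξ j := by
  have := (hg.inv_pos x).dotProduct_mulVec_pos hξ
  rwa [← quad_eq] at this

theorem Met.g_nonneg (hg : Met g) (x : M) (ξ : Fin n → ℝ) :
    0 ≤ ∑ i, ∑ j, g x i j * ξ i * ξ j := by
  have := (hg.pos x).posSemidef.dotProduct_mulVec_nonneg ξ
  rwa [← quad_eq] at this

theorem Met.g_pos (hg : Met g) (x : M) {ξ : Fin n → ℝ} (hξ : ξ ≠ 0) :
    0 < ∑ i, ∑ j, g x i j * ξ i * ξ j := by
  have := (hg.pos x).dotProduct_mulVec_pos hξ
  rwa [← quad_eq] at this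

theorem Met.up_cs (hg : Met g) (x : M) (a b : Fin n → ℝ) :
    (∑ i, ∑ j, up g i j x * a i * b j) ^ 2 ≤
      (∑ i, ∑ j, up g i j x * a i * a j) * ∑ i, ∑ j, up g i j x * b i * b j :=
  quad_cs (fun i j => hg.up_sy i j x) (hg.up_nonneg x) a b

/-! ### `ip`, `gn`, `gr` -/

theorem ip_eq_gr (g : Fld n M) (u v : M → ℝ) (x : M) :
    ip g u v x = ∑ i, pd i u x * gr g v i x := by
  unfold ip gr
  refine Finset.sum_congr rfl fun i _ => ?_
  rw [Finset.mul_sum]
  exact Finset.sum_congr rfl fun j _ => by ring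

theorem Met.ip_sy (hg : Met g) (u v : M → ℝ) (x : M) : ip g u v x = ip g v u x := by
  unfold ip
  rw [Finset.sum_comm]
  exact Finset.sum_congr rfl fun i _ => Finset.sum_congr rfl fun j _ => by
    rw [hg.up_sy]; ring

theorem Met.ip_nonneg (hg : Met g) (u : M → ℝ) (x : M) : 0 ≤ ip g u u x :=
  hg.up_nonneg x fun i => pd i u x

theorem gn_nonneg (g : Fld n M) (u : M → ℝ) (x : M) : 0 ≤ gn g u x := Real.sqrt_nonneg _

theorem Met.gn_sq (hg : Met g) (u : M → ℝ) (x : M) : gn g u x ^ 2 = ip g u u x :=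
  Real.sq_sqrt (hg.ip_nonneg u x)

theorem gn_eq_covNorm (g : Fld n M) (u : M → ℝ) (x : M) :
    gn g u x = covNorm g (fun j => pd j u) x := rfl

theorem Met.ip_cs (hg : Met g) (u v : M → ℝ) (x : M) :
    ip g u v x ^ 2 ≤ ip g u u x * ip g v v x :=
  hg.up_cs x (fun i => pd i u x) fun i => pd i v x

theorem Met.abs_ip_le (hg : Met g) (u v : M → ℝ) (x : M) :
    |ip g u v x| ≤ gn g u x * gn g v x := by
  refine abs_le_of_sq_le_sq' ?_ (mul_nonneg (gn_nonneg _ _ _) (gn_nonneg _ _ _)) |> abs_le.2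
  rw [mul_pow, hg.gn_sq, hg.gn_sq]
  exact hg.ip_cs u v x

/-- `ip` depends only on the first derivatives at the point -/
theorem ip_of_pd {u' v' : M → ℝ} {s t : ℝ} (hu : ∀ i, pd i u x = s * pd i u' x)
    (hv : ∀ i, pd i v x = t * pd i v' x) : ip g u v x = s * t * ip g u' v' x := by
  unfold ip
  simp only [hu, hv, Finset.mul_sum]
  exact Finset.sum_congr rfl fun i _ => Finset.sum_congr rfl fun j _ => by ring

theorem ip_of_pd_add {u₁ u₂ : M → ℝ} {s t : ℝ}
    (hu : ∀ i, pd i u x = s * pd i u₁ x + t * pd i u₂ x) :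
    ip g u v x = s * ip g u₁ v x + t * ip g u₂ v x := by
  unfold ip
  simp only [hu, Finset.mul_sum, ← Finset.sum_add_distrib]
  exact Finset.sum_congr rfl fun i _ => Finset.sum_congr rfl fun j _ => by ring

theorem ip_of_pd_add' {v₁ v₂ : M → ℝ} {s t : ℝ}
    (hv : ∀ i, pd i v x = s * pd i v₁ x + t * pd i v₂ x) :
    ip g u v x = s * ip g u v₁ x + t * ip g u v₂ x := by
  unfold ip
  simp only [hv, Finset.mul_sum, ← Finset.sum_add_distrib]
  exact Finset.sum_congr rfl fun i _ => Finset.sum_congr rfl fun j _ => by ring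

theorem gn_of_pd {u' : M → ℝ} {s : ℝ} (hu : ∀ i, pd i u x = s * pd i u' x) :
    gn g u x = |s| * gn g u' x := by
  unfold gn
  rw [ip_of_pd hu hu, ← sq, Real.sqrt_mul (sq_nonneg _), Real.sqrt_sq_eq_abs]

theorem gn_zero (hu : ∀ i, pd i u x = 0) : gn g u x = 0 := by
  unfold gn ip; simp [hu]

theorem ip_congr {u' v' : M → ℝ} (hu : u =ᶠ[𝓝 x] u') (hv : v =ᶠ[𝓝 x] v') :
    ip g u v x = ip g u' v' x := by
  unfold ip; simp only [pd_congr hu, pd_congr hv]

theorem gn_congr {u' : M → ℝ} (hu : u =ᶠ[𝓝 x] u') : gn g u x = gn g u' x := by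
  unfold gn; rw [ip_congr hu hu]

theorem Met.gn_add_le (hg : Met g) {u₁ u₂ : M → ℝ}
    (hu : ∀ i, pd i u x = pd i u₁ x + pd i u₂ x) : gn g u x ≤ gn g u₁ x + gn g u₂ x := by
  have h1 : ∀ i, pd i u x = 1 * pd i u₁ x + 1 * pd i u₂ x := fun i => by rw [hu]; ring
  refine (abs_le_of_sq_le_sq' ?_ (add_nonneg (gn_nonneg _ _ _) (gn_nonneg _ _ _))).2
  rw [hg.gn_sq, ip_of_pd_add h1, ip_of_pd_add' h1, ip_of_pd_add' h1, add_sq, hg.gn_sq, hg.gn_sq,
    hg.ip_sy u₂ u₁]
  have := (abs_le.1 (hg.abs_ip_le u₁ u₂ x)).2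
  linarith

theorem ip_comp {φ ψ : ℝ → ℝ} {a b : ℝ} (hφ : HasDerivAt φ a (u x)) (hψ : HasDerivAt ψ b (v x))
    (hu : DAt u x) (hv : DAt v x) :
    ip g (fun y => φ (u y)) (fun y => ψ (v y)) x = a * b * ip g u v x :=
  ip_of_pd (pd_comp hφ hu) (pd_comp hψ hv)

theorem ip_comp_left {φ : ℝ → ℝ} {a : ℝ} (hφ : HasDerivAt φ a (u x))
    (hu : DAt u x) : ip g (fun y => φ (u y)) v x = a * ip g u v x := by
  rw [ip_of_pd (pd_comp hφ hu) (v' := v) (t := 1) fun i => by ring]; ring

theorem ip_comp_right {φ : ℝ → ℝ} {a : ℝ} (hφ : HasDerivAt φ a (v x))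
    (hv : DAt v x) : ip g u (fun y => φ (v y)) x = a * ip g u v x := by
  rw [ip_of_pd (u' := u) (s := 1) (fun i => by ring) (pd_comp hφ hv)]; ring

theorem gn_comp {φ : ℝ → ℝ} {a : ℝ} (hφ : HasDerivAt φ a (u x)) (hu : DAt u x) :
    gn g (fun y => φ (u y)) x = |a| * gn g u x := gn_of_pd (pd_comp hφ hu)

theorem ip_mul_left (hu : DAt u x) (hw : DAt w x) :
    ip g (fun y => u y * w y) v x = w x * ip g u v x + u x * ip g w v x :=
  ip_of_pd_add fun i => by rw [pd_mul hu hw]; ring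

theorem ip_mul_right (hv : DAt v x) (hw : DAt w x) :
    ip g u (fun y => v y * w y) x = w x * ip g u v x + v x * ip g u w x :=
  ip_of_pd_add' fun i => by rw [pd_mul hv hw]; ring

theorem ip_add_left (hu : DAt u x) (hw : DAt w x) :
    ip g (fun y => u y + w y) v x = ip g u v x + ip g w v x := by
  rw [ip_of_pd_add (s := 1) (t := 1) (u₁ := u) (u₂ := w) fun i => by rw [pd_add hu hw]; ring]; ring

theorem ip_add_right (hv : DAt v x) (hw : DAt w x) :
    ip g u (fun y => v y + w y) x = ip g u v x + ip g u w x := by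
  rw [ip_of_pd_add' (s := 1) (t := 1) (v₁ := v) (v₂ := w) fun i => by rw [pd_add hv hw]; ring]; ring

theorem ip_const_left (c : ℝ) : ip g (fun _ => c) v x = 0 := by
  unfold ip; simp [pd_const]

theorem ip_const_right (c : ℝ) : ip g u (fun _ => c) x = 0 := by
  unfold ip; simp [pd_const]

theorem Met.cv_gr (hg : Met g) {m k : WithTop ℕ∞} (hu : CD m u) (hk : k + 1 ≤ m) (hk' : k ≤ ∞) :
    CV k (gr g u) := SmU.raise hg.sm_up hk' (hu.cc_pd hk)

theorem Met.contDiff_gr (hg : Met g) (hu : CD 2 u) : CV 1 (gr g u) :=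
  hg.cv_gr hu (by norm_num) one_le_oo

theorem Met.diff_gr (hg : Met g) (hu : CAt 2 u x) : DV (gr g u) x := fun i =>
  ((hg.loc' x).diff_gr hu i).congr_of_eventuallyEq (ev_gr g hu i)

theorem Met.sm_gr (hg : Met g) (hu : Smooth u) : CV ∞ (gr g u) := hg.cv_gr hu (by simp) le_rfl

theorem Met.sm_ip (hg : Met g) (hu : Smooth u) (hv : Smooth v) : Smooth (ip g u v) :=
  hg.cd_cov le_rfl hu.cc_pd hv.cc_pd

theorem Met.cd_ip (hg : Met g) {m k : WithTop ℕ∞} (hu : CD m u) (hv : CD m v) (hk : k + 1 ≤ m)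
    (hk' : k ≤ ∞) : CD k (ip g u v) := hg.cd_cov hk' (hu.cc_pd hk) (hv.cc_pd hk)

theorem Met.cAt_ip (hg : Met g) {m k : WithTop ℕ∞} (hu : CAt m u x) (hv : CAt m v x)
    (hk : k + 1 ≤ m) (hk' : k ≤ ∞) (hm : 2 ≤ m) : CAt k (ip g u v) x := by
  refine ContDiffAt.congr_of_eventuallyEq ?_ (ev_ip g (hu.of_le hm) (hv.of_le hm))
  exact ContDiffAt.sum fun i _ => ContDiffAt.sum fun j _ =>
    ((((hg.loc' x).sm_up i j).contDiffAt.of_le hk').mul (P366Z.contDiffAt_pd hu hk i)).mul
      (P366Z.contDiffAt_pd hv hk j)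

theorem Met.diff_ip (hg : Met g) (hu : CAt 2 u x) (hv : CAt 2 v x) : DAt (ip g u v) x :=
  (hg.cAt_ip (k := 1) hu hv (by norm_num) one_le_oo le_rfl).differentiableAt (by simp)

/-! ### `dv`, `lap`, `wl` -/

theorem dv_congr {X Y : Fin n → M → ℝ} (e : ∀ i, X i =ᶠ[𝓝 x] Y i) : dv g X x = dv g Y x :=
  P366Z.dv_congr (repV_congr_pt e)

theorem Met.dv_smul (hg : Met g) {X : Fin n → M → ℝ} (hf : DAt f x) (hX : DV X x) :
    dv g (fun i y => f y * X i y) x = f x * dv g X x + ∑ i, pd i f x * X i x := by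
  have := (hg.loc' x).dv_smul hf hX
  simp only [loc_pt, repV_pt] at this
  unfold dv
  rw [repV_smul]
  exact this

theorem Met.dv_add (hg : Met g) {X Y : Fin n → M → ℝ} (hX : DV X x) (hY : DV Y x) :
    dv g (fun i y => X i y + Y i y) x = dv g X x + dv g Y x := by
  unfold dv
  rw [repV_add]
  exact (hg.loc' x).dv_add hX hY

theorem dv_const_mul (c : ℝ) (X : Fin n → M → ℝ) :
    dv g (fun i y => c * X i y) x = c * dv g X x := by
  unfold dv
  rw [repV_smul (f := fun _ => c)]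
  exact P366Z.dv_const_mul c _

theorem dv_neg (X : Fin n → M → ℝ) : dv g (fun i y => -X i y) x = -dv g X x := by
  simpa only [neg_one_mul] using dv_const_mul (g := g) (x := x) (-1) X

theorem Met.dv_sub (hg : Met g) {X Y : Fin n → M → ℝ} (hX : DV X x) (hY : DV Y x) :
    dv g (fun i y => X i y - Y i y) x = dv g X x - dv g Y x := by
  have h : DV (fun i y => -Y i y) x := by
    simpa only [neg_one_mul] using DV.smul (dAt_const (-1)) hY
  simp only [sub_eq_add_neg]
  rw [hg.dv_add hX h, dv_neg]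

theorem Met.dv_sum (hg : Met g) {ι : Type*} (s : Finset ι) {X : ι → Fin n → M → ℝ}
    (hX : ∀ k, DV (X k) x) : dv g (fun i y => ∑ k ∈ s, X k i y) x = ∑ k ∈ s, dv g (X k) x := by
  unfold dv
  rw [repV_sum]
  exact (hg.loc' x).dv_sum s (X := fun k => repV (ch x) (X k)) hX

theorem Met.cd_dv (hg : Met g) {m k : WithTop ℕ∞} {X : Fin n → M → ℝ} (hX : CV m X)
    (hk : k + 1 ≤ m) (hm : m ≤ ∞) : CD k (dv g X) := fun e he => by
  have h := hg.rep he
  rw [loc_dv hg he (hX.dv fun h => by simp [h] at hk)]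
  exact ContDiff.div (ContDiff.sum fun i _ => P366Z.contDiff_pd
    ((h.sm_dens.of_le hm).mul (hX e he i)) hk i) (h.sm_dens.of_le ((le_self_add.trans hk).trans hm))
    fun y => (h.dens_pos y).ne'

theorem Met.sm_dv (hg : Met g) {X : Fin n → M → ℝ} (hX : CV ∞ X) : Smooth (dv g X) :=
  hg.cd_dv hX (by simp) le_rfl

theorem Met.sm_lap (hg : Met g) (hu : Smooth u) : Smooth (lap g u) := fun e he => by
  rw [loc_lap hg he hu.two]; exact (hg.rep he).sm_lap (hu e he)

theorem Met.sm_wl (hg : Met g) (hU : Smooth U) (hu : Smooth u) : Smooth (wl g U u) :=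
  fun e he => by rw [loc_wl hg he hU.diff hu.two]; exact (hg.rep he).sm_wl (hU e he) (hu e he)

theorem Met.sm_cl (hg : Met g) (hu : Smooth u) : Smooth (cl g u) :=
  CD.add (CD.mul cd_const (hg.sm_lap hu)) (CD.mul hg.sm_scal hu)

theorem Met.cont_dv (hg : Met g) {X : Fin n → M → ℝ} (hX : CV 1 X) : Continuous (dv g X) :=
  (hg.cd_dv (k := 0) hX (by simp) one_le_oo).continuous

theorem Met.cont_wl (hg : Met g) (hU : CD 1 U) (hu : CD 2 u) : Continuous (wl g U u) := by
  rw [show wl g U u = _ from funext fun x => wl_eq_dv g U hu.contDiffAt]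
  exact hg.cont_dv (CV.smul (hU.pow 2) (hg.contDiff_gr hu))

theorem Met.cont_lap (hg : Met g) (hu : CD 2 u) : Continuous (lap g u) := by
  rw [show lap g u = _ from funext fun x => lap_eq_dv g hu.contDiffAt]
  exact hg.cont_dv (hg.contDiff_gr hu)

theorem Met.cont_ip (hg : Met g) (hu : CD 1 u) (hv : CD 1 v) : Continuous (ip g u v) :=
  (hg.cd_ip (k := 0) hu hv (by simp) (by simp)).continuous

theorem Met.cont_gn (hg : Met g) (hu : CD 1 u) : Continuous (gn g u) := (hg.cont_ip hu hu).sqrt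

theorem gr_congr_ev (e : u =ᶠ[𝓝 x] v) (i : Fin n) : gr g u i =ᶠ[𝓝 x] gr g v i :=
  e.eventuallyEq_nhds.mono fun y hy => by unfold gr; simp only [pd_congr hy]

theorem lap_congr (e : u =ᶠ[𝓝 x] v) : lap g u x = lap g v x := P366Z.lap_congr (loc_congr e)

theorem wl_congr {U' : M → ℝ} (eU : U =ᶠ[𝓝 x] U') (e : u =ᶠ[𝓝 x] v) :
    wl g U u x = wl g U' v x := P366Z.wl_congr (loc_congr eU) (loc_congr e)

theorem cl_congr (e : u =ᶠ[𝓝 x] v) : cl g u x = cl g v x := by
  unfold cl; rw [lap_congr e, e.eq_of_nhds]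

theorem hess_congr (e : u =ᶠ[𝓝 x] v) : hess g u x = hess g v x := by
  funext i j; unfold hess; simp only [pd2_congr e, pd_congr e]

/-- the first order coefficients of the Laplacian in the preferred chart -/
def bv (g : Fld n M) (j : Fin n) : M → ℝ := fun x => P366Z.bv (rep (ch x) g) j (pt x)

theorem Met.lap_eq (hg : Met g) (hu : CAt 2 u x) :
    lap g u x = ∑ i, ∑ j, up g i j x * pd2 i j u x + ∑ j, bv g j x * pd j u x := by
  have := (hg.loc' x).lap_eq hu
  simp only [up_pt] at this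
  exact this

theorem Met.wl_eq (hg : Met g) (hU : DAt U x) (hu : CAt 2 u x) :
    wl g U u x = U x ^ 2 * lap g u x + 2 * U x * ip g U u x := by
  have := (hg.loc' x).wl_eq hU hu
  simp only [loc_pt, ip_pt] at this
  exact this

theorem wl_one (g : Fld n M) (u : M → ℝ) : wl g (fun _ => 1) u = lap g u :=
  funext fun x => congrFun (P366Z.wl_one _ _) (pt x)

theorem lap_const (c : ℝ) : lap g (fun _ => c) x = 0 := P366Z.lap_const c

theorem wl_const (c : ℝ) : wl g U (fun _ => c) x = 0 := P366Z.wl_const c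

theorem Met.wl_of_pd (hg : Met g) {a b : M → ℝ} (hU : DAt U x) (ha : DAt a x) (hb : DAt b x)
    (hv : CAt 2 v x) (hw : CAt 2 w x) (hu : ∀ᶠ y in 𝓝 x, DAt u y)
    (e : ∀ᶠ y in 𝓝 x, ∀ i, pd i u y = a y * pd i v y + b y * pd i w y) :
    wl g U u x = a x * wl g U v x + b x * wl g U w x + U x ^ 2 * (ip g a v x + ip g b w x) := by
  have := (hg.loc' x).wl_of_pd (u := loc (ch x) u) hU ha hb hv hw (by
    filter_upwards [ev_pt.1 e, ev_pt.1 hu, ev_dAt hv, ev_dAt hw] with y h1 h2 h3 h4 i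
    rw [pd_rep (ch_mem x) h2, pd_rep (ch_mem x) h3, pd_rep (ch_mem x) h4]
    simp only [repC, h1, loc, Finset.mul_sum, ← Finset.sum_add_distrib]
    exact Finset.sum_congr rfl fun k _ => by ring)
  simp only [loc_pt, ip_pt] at this
  exact this

theorem Met.wl_lin (hg : Met g) (hU : DAt U x) (hv : CAt 2 v x) (hw : CAt 2 w x) (s t : ℝ) :
    wl g U (fun y => s * v y + t * w y) x = s * wl g U v x + t * wl g U w x :=
  (hg.loc' x).wl_lin hU hv hw s t

theorem Met.wl_add (hg : Met g) (hU : DAt U x) (hv : CAt 2 v x) (hw : CAt 2 w x) :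
    wl g U (fun y => v y + w y) x = wl g U v x + wl g U w x := (hg.loc' x).wl_add hU hv hw

theorem Met.wl_sub (hg : Met g) (hU : DAt U x) (hv : CAt 2 v x) (hw : CAt 2 w x) :
    wl g U (fun y => v y - w y) x = wl g U v x - wl g U w x := (hg.loc' x).wl_sub hU hv hw

theorem wl_affine (s c : ℝ) : wl g U (fun y => s * v y + c) x = s * wl g U v x :=
  P366Z.wl_affine s c

theorem wl_const_mul (s : ℝ) : wl g U (fun y => s * v y) x = s * wl g U v x :=
  P366Z.wl_const_mul s

theorem wl_neg : wl g U (fun y => -v y) x = -wl g U v x := P366Z.wl_neg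

theorem wl_const_sub (c : ℝ) : wl g U (fun y => c - v y) x = -wl g U v x := P366Z.wl_const_sub c

theorem wl_add_const (c : ℝ) : wl g U (fun y => v y + c) x = wl g U v x := P366Z.wl_add_const c

theorem Met.wl_mul (hg : Met g) (hU : DAt U x) (hv : CAt 2 v x) (hw : CAt 2 w x) :
    wl g U (fun y => v y * w y) x =
      w x * wl g U v x + v x * wl g U w x + 2 * U x ^ 2 * ip g v w x := by
  have := (hg.loc' x).wl_mul hU hv hw
  simp only [loc_pt, ip_pt] at this
  exact this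

theorem Met.wl_comp (hg : Met g) {φ : ℝ → ℝ} (hU : DAt U x) (hv : CAt 2 v x)
    (hφ : ContDiffAt ℝ 2 φ (v x)) : wl g U (fun y => φ (v y)) x =
      deriv φ (v x) * wl g U v x + deriv (deriv φ) (v x) * (U x ^ 2 * ip g v v x) := by
  have := (hg.loc' x).wl_comp (φ := φ) hU hv (by rwa [loc_pt])
  simp only [loc_pt, ip_pt] at this
  exact this

theorem Met.lap_lin (hg : Met g) (hv : CAt 2 v x) (hw : CAt 2 w x) (s t : ℝ) :
    lap g (fun y => s * v y + t * w y) x = s * lap g v x + t * lap g w x := by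
  simpa only [wl_one] using hg.wl_lin (U := fun _ => 1) (dAt_const _) hv hw s t

theorem Met.lap_add (hg : Met g) (hv : CAt 2 v x) (hw : CAt 2 w x) :
    lap g (fun y => v y + w y) x = lap g v x + lap g w x := by
  simpa only [wl_one] using hg.wl_add (U := fun _ => 1) (dAt_const _) hv hw

theorem Met.lap_sub (hg : Met g) (hv : CAt 2 v x) (hw : CAt 2 w x) :
    lap g (fun y => v y - w y) x = lap g v x - lap g w x := by
  simpa only [wl_one] using hg.wl_sub (U := fun _ => 1) (dAt_const _) hv hw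

theorem lap_affine (s c : ℝ) : lap g (fun y => s * v y + c) x = s * lap g v x := by
  simpa only [wl_one] using wl_affine (g := g) (U := fun _ => 1) (v := v) (x := x) s c

theorem lap_const_mul (s : ℝ) : lap g (fun y => s * v y) x = s * lap g v x := by
  simpa using lap_affine (g := g) (v := v) (x := x) s 0

theorem lap_neg : lap g (fun y => -v y) x = -lap g v x := by
  simpa using lap_affine (g := g) (v := v) (x := x) (-1) 0

theorem lap_add_const (c : ℝ) : lap g (fun y => v y + c) x = lap g v x := by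
  simpa using lap_affine (g := g) (v := v) (x := x) 1 c

theorem lap_const_sub (c : ℝ) : lap g (fun y => c - v y) x = -lap g v x := by
  simpa only [wl_one] using wl_const_sub (g := g) (U := fun _ => 1) (v := v) (x := x) c

theorem Met.lap_mul (hg : Met g) (hv : CAt 2 v x) (hw : CAt 2 w x) :
    lap g (fun y => v y * w y) x = w x * lap g v x + v x * lap g w x + 2 * ip g v w x := by
  simpa [wl_one] using hg.wl_mul (U := fun _ => 1) (dAt_const _) hv hw

theorem Met.lap_comp (hg : Met g) {φ : ℝ → ℝ} (hv : CAt 2 v x)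
    (hφ : ContDiffAt ℝ 2 φ (v x)) : lap g (fun y => φ (v y)) x =
      deriv φ (v x) * lap g v x + deriv (deriv φ) (v x) * ip g v v x := by
  simpa [wl_one] using hg.wl_comp (U := fun _ => 1) (dAt_const _) hv hφ

/-- `U lap (U f) = U f lap U + wl U f` -/
theorem Met.mul_lap_mul (hg : Met g) (hU : CAt 2 U x) (hf : CAt 2 f x) :
    U x * lap g (fun y => U y * f y) x = U x * f x * lap g U x + wl g U f x := by
  rw [hg.lap_mul hU hf, hg.wl_eq (diff2 hU) hf]; ring

theorem Met.lap_mul_wl (hg : Met g) (hU : CAt 2 U x) (hf : CAt 2 f x)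
    (h0 : U x ≠ 0) : lap g (fun y => U y * f y) x = f x * lap g U x + wl g U f x / U x := by
  have := hg.mul_lap_mul hU hf
  field_simp
  linarith

theorem Met.cl_mul (hg : Met g) (hU : CAt 2 U x) (hf : CAt 2 f x)
    (h0 : U x ≠ 0) :
    cl g (fun y => U y * f y) x = f x * cl g U x - 4 * gam n * (wl g U f x / U x) := by
  unfold cl
  rw [hg.lap_mul_wl hU hf h0]; ring

/-! ### conformal metrics -/

theorem mat_cf (U : M → ℝ) (g : Fld n M) (x : M) :
    mat (cf U g) x = U x ^ (2 * bb n) • mat g x := by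
  ext i j; rfl

theorem Met.cf (hg : Met g) (hU : Smooth U) (h0 : ∀ x, 0 < U x) : Met (cf U g) where
  sm := SmT.smul (hU.rpow h0 _) hg.sm
  sy x i j := by unfold P366M.cf; rw [hg.sy]
  pos x := by rw [mat_cf]; exact (hg.pos x).smul (Real.rpow_pos_of_pos (h0 x) _)

theorem Met.up_cf (hg : Met g) (h0 : 0 < U x) (i j : Fin n) :
    up (P366M.cf U g) i j x = U x ^ (-(2 * bb n)) * up g i j x := by
  have hp : 0 < U x ^ (2 * bb n) := Real.rpow_pos_of_pos h0 _
  have : (mat (P366M.cf U g) x)⁻¹ = (U x ^ (2 * bb n))⁻¹ • (mat g x)⁻¹ := by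
    rw [mat_cf]
    refine Matrix.inv_eq_left_inv ?_
    rw [smul_mul_smul_comm, inv_mul_cancel₀ hp.ne', one_smul,
      Matrix.nonsing_inv_mul _ (isUnit_iff_ne_zero.2 (hg.det_pos x).ne')]
  unfold up
  rw [this, Real.rpow_neg h0.le]; rfl

theorem Met.ip_cf (hg : Met g) (h0 : 0 < U x) (u v : M → ℝ) :
    ip (P366M.cf U g) u v x = U x ^ (-(2 * bb n)) * ip g u v x := by
  unfold ip
  simp only [hg.up_cf h0, Finset.mul_sum]
  exact Finset.sum_congr rfl fun i _ => Finset.sum_congr rfl fun j _ => by ring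

theorem Met.gn_cf (hg : Met g) (h0 : 0 < U x) (u : M → ℝ) :
    gn (P366M.cf U g) u x = U x ^ (-bb n) * gn g u x := by
  unfold gn
  rw [hg.ip_cf h0, Real.sqrt_mul (by positivity), Real.sqrt_eq_rpow, ← Real.rpow_mul h0.le]
  congr 2; ring

theorem Met.gr_cf (hg : Met g) (h0 : 0 < U x) (u : M → ℝ) (i : Fin n) :
    gr (P366M.cf U g) u i x = U x ^ (-(2 * bb n)) * gr g u i x := by
  unfold gr
  simp only [hg.up_cf h0, Finset.mul_sum]
  exact Finset.sum_congr rfl fun i _ => by ring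

theorem dv_cf (h0 : ∀ x, 0 < U x) (X : Fin n → M → ℝ) :
    dv (cf U g) X x = U x ^ (-(n * bb n)) * dv g (fun i y => U y ^ (n * bb n) * X i y) x := by
  have := P366Z.dv_cf (g := rep (ch x) g) (U := loc (ch x) U) (x := pt x) (fun _ => h0 _)
    (repV (ch x) X)
  rw [loc_pt] at this
  unfold dv
  rw [rep_cf, repV_smul]
  exact this

theorem Met.lap_cf (hg : Met g) (hn : 3 ≤ n) (h0 : ∀ x, 0 < U x) (u : M → ℝ) :
    lap (P366M.cf U g) u x = U x ^ (-(n * bb n)) * wl g U u x := by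
  have := (hg.loc' x).lap_cf (U := loc (ch x) U) (x := pt x) hn (fun _ => h0 _) (loc (ch x) u)
  rw [loc_pt, ← rep_cf] at this
  exact this

/-! ### the unit matrix -/

theorem mat_eu (x : M) : mat (eu n) x = 1 := by
  ext i j; simp [mat, eu, Matrix.one_apply]

theorem up_eu (i j : Fin n) (x : M) : up (eu n) i j x = if i = j then 1 else 0 := by
  unfold up; rw [mat_eu, inv_one, Matrix.one_apply]

theorem ip_eu (u v : M → ℝ) (x : M) : ip (eu n) u v x = ∑ i, pd i u x * pd i v x := by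
  unfold ip; simp [up_eu]

theorem gr_eu (u : M → ℝ) (i : Fin n) : gr (eu n) u i = pd i u := by
  funext x; unfold gr; simp [up_eu]

theorem gn_eu (hu : DAt u x) : gn (eu n) u x = ‖fd u x‖ := by
  unfold gn
  rw [ip_eu, ← Real.sqrt_sq (norm_nonneg (fd u x)), norm_fderiv_sq hu]
  simp only [sq]

/-! ### locality in the metric -/

theorem up_of_eq (e : g x = g' x) (i j : Fin n) : up g i j x = up g' i j x := by
  unfold up mat; rw [e]

theorem ip_of_eq (e : g x = g' x) (u v : M → ℝ) : ip g u v x = ip g' u v x := by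
  unfold ip; simp only [up_of_eq e]

theorem gn_of_eq (e : g x = g' x) (u : M → ℝ) : gn g u x = gn g' u x := by
  unfold gn; rw [ip_of_eq e]

theorem gr_of_eq (e : g x = g' x) (u : M → ℝ) (i : Fin n) : gr g u i x = gr g' u i x := by
  unfold gr; simp only [up_of_eq e]

theorem tr_of_eq (e : g x = g' x) {T' : Fld n M} (e' : T x = T' x) : tr g T x = tr g' T' x := by
  unfold tr; simp only [up_of_eq e, e']

theorem normSq_of_eq (e : g x = g' x) {T' : Fld n M} (e' : T x = T' x) :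
    normSq g T x = normSq g' T' x := by
  unfold normSq; simp only [up_of_eq e, e']

theorem dv_of_ev (e : g =ᶠ[𝓝 x] g') {X Y : Fin n → M → ℝ} (eX : ∀ i, X i =ᶠ[𝓝 x] Y i) :
    dv g X x = dv g' Y x := P366Z.dv_of_ev (rep_congr_pt e) (repV_congr_pt eX)

theorem lap_of_ev (e : g =ᶠ[𝓝 x] g') (u : M → ℝ) : lap g u x = lap g' u x :=
  P366Z.lap_of_ev (rep_congr_pt e) _

theorem wl_of_ev (e : g =ᶠ[𝓝 x] g') (U u : M → ℝ) : wl g U u x = wl g' U u x :=
  P366Z.wl_of_ev (rep_congr_pt e) _ _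

theorem chr_of_ev (e : g =ᶠ[𝓝 x] g') (k i j : Fin n) : chr g k i j x = chr g' k i j x :=
  P366Z.chr_of_ev (rep_congr_pt e) k i j

theorem scal_of_ev (e : g =ᶠ[𝓝 x] g') : scal g x = scal g' x :=
  P366Z.scal_of_ev (rep_congr_pt e)

theorem hess_of_ev (e : g =ᶠ[𝓝 x] g') (u : M → ℝ) : hess g u x = hess g' u x := by
  funext i j; unfold hess; simp only [chr_of_ev e]

theorem dvT_of_ev (e : g =ᶠ[𝓝 x] g') {T' : Fld n M} (e' : T =ᶠ[𝓝 x] T') (j : Fin n) :
    dvT g T j x = dvT g' T' j x := by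
  have h := rep_congr_pt e
  have h' := rep_congr_pt e'
  have h1 : ∀ i k, Stmt.pd k (fun y => rep (ch x) T y i j) (pt x) =
      Stmt.pd k (fun y => rep (ch x) T' y i j) (pt x) := fun i k =>
    P366Z.pd_congr (h'.mono fun y hy => by simp only [hy]) k
  unfold dvT P366Z.dvT
  simp only [h1, P366Z.chr_of_ev h, P366Z.up_of_eq h.eq_of_nhds, h'.eq_of_nhds]

theorem mom_of_ev (e : g =ᶠ[𝓝 x] g') {T' : Fld n M} (e' : T =ᶠ[𝓝 x] T') (j : Fin n) :
    mom g T j x = mom g' T' j x := by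
  rw [mom_eq_dvT, mom_eq_dvT]
  refine dvT_of_ev e ?_ j
  filter_upwards [e, e'] with y h1 h2
  funext i j
  unfold momT
  rw [tr_of_eq h1 h2, h1, h2]

theorem mu_of_ev (e : g =ᶠ[𝓝 x] g') {T' : Fld n M} (e' : T x = T' x) : mu g T x = mu g' T' x := by
  unfold mu; rw [scal_of_ev e, tr_of_eq e.eq_of_nhds e', normSq_of_eq e.eq_of_nhds e']

theorem Met.sq_le (hg : Met g) (x : M) (ξ : Fin n → ℝ) :
    (∑ i, ξ i ^ 2) ^ 2 ≤ (∑ i, ∑ j, g x i j * ξ i * ξ j) * ∑ i, ∑ j, up g i j x * ξ i * ξ j := by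
  have := (hg.loc' x).sq_le (pt x) ξ
  simpa only [rep_pt, up_pt] using this

/-! ### the Hessian -/

theorem Met.up_g_mul (hg : Met g) (x : M) (i : Fin n) (a : Fin n → ℝ) :
    ∑ k, up g i k x * ∑ l, g x k l * a l = a i := by
  have := (hg.loc' x).up_g_mul (pt x) i a
  simpa only [rep_pt, up_pt] using this

theorem Met.g_up_mul (hg : Met g) (x : M) (i : Fin n) (a : Fin n → ℝ) :
    ∑ k, g x i k * ∑ l, up g k l x * a l = a i := by
  have := (hg.loc' x).g_up_mul (pt x) i a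
  simpa only [rep_pt, up_pt] using this

theorem Met.bv_eq (hg : Met g) (j : Fin n) (x : M) :
    bv g j x = -∑ k, ∑ l, up g k l x * chr g j k l x := by
  have := (hg.loc' x).bv_eq j (pt x)
  simp only [up_pt] at this
  exact this

theorem Met.lap_eq_tr (hg : Met g) (hu : CAt 2 u x) : lap g u x = tr g (hess g u) x := by
  have := (hg.loc' x).lap_eq_tr hu
  unfold Stmt.tr at this
  simp only [up_pt] at this
  exact this

theorem Met.hess_sy (hg : Met g) (hu : CAt 2 u x) (i j : Fin n) :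
    hess g u x i j = hess g u x j i := (hg.loc' x).hess_sy hu i j

theorem Met.sm_hess (hg : Met g) (hu : Smooth u) : SmT (hess g u) := fun e he i j => by
  rw [rep_hess hg he hu.two]; exact (hg.rep he).sm_hess (hu e he) i j

theorem Met.pd_ip (hg : Met g) (hu : CAt 2 u x) (hv : CAt 2 v x) (k : Fin n) :
    pd k (ip g u v) x = ∑ i, hess g u x k i * gr g v i x + ∑ i, hess g v x k i * gr g u i x := by
  have := (hg.loc' x).pd_ip hu hv k
  simp only [gr_pt, hess_pt] at this
  exact (P366Z.pd_congr (ev_ip g hu hv) k).trans this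

end L0

variable {n : ℕ} {M : Type} [Mf n M] {U : M → ℝ} {x : M} {g g' : Fld n M}

theorem dens_cf (h0 : 0 < U x) : dens (cf U g) x = U x ^ (n * bb n) * dens g x := by
  have := P366Z.dens_cf (g := rep (ch x) g) (U := loc (ch x) U) (x := pt x) (by rwa [loc_pt])
  have h := dens_loc (ch_mem x) (cf U g) (pt x)
  have h' := dens_loc (ch_mem x) g (pt x)
  rw [symm_pt] at h h'
  rw [h, h', rep_cf, this, loc_pt, mul_div_assoc]

theorem dens_of_eq (e : g x = g' x) : dens g x = dens g' x := by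
  unfold dens mat; rw [e]

end Vale.Agent.P366M
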