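import Vale.Agent.P366M.Sk
import Vale.Agent.P366M.Calc
import Vale.Agent.P366M.End1
import Vale.Agent.P366Z.LinbA

/-!
# P366M: smoothness of the solutions of semilinear equations
-/

set_option maxSynthPendingDepth 3

open Metric Filter Topology Set
open scoped ContDiff
open Vale.Agent.P366 Vale.Agent.P366.Stmt Vale.Agent.P366Z
open Vale.Agent.P366Z.LinbH
open Vale.Agent.P272.K.R (HC Bil hc_id hc_const linear_reg allCCE)

noncomputable section

namespace Vale.Agent.P366M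

/-- the bootstrap on an open set -/
theorem boot_loc {n : ℕ} {G : Field n} (hG : P366Z.Met G) {s : Set (E n)} (hs : IsOpen s)
    {u : E n → ℝ} (hu : HC (1 / 2) s 2 u) (Ψ : E n × ℝ × (E n →L[ℝ] ℝ) → ℝ) (hΨ : ContDiff ℝ ∞ Ψ)
    (h : ∀ x ∈ s, ∑ i, ∑ j, Stmt.up G i j x * fderiv ℝ (fderiv ℝ u) x (ee i) (ee j) =
      Ψ (x, u x, fderiv ℝ u x)) : ∀ x ∈ s, ContDiffAt ℝ ∞ u x := by
  have key : ∀ k, HC (1 / 2) s (k + 2) u := fun k => by
    induction k with
    | zero => exact hu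
    | succ k ih =>
      have hj : HC (1 / 2) s (k + 1) fun x => (x, u x, fderiv ℝ u x) :=
        (hc_id hb hs).prodMk ha hb hs ((ih.of_succ ha hb hs).prodMk ha hb hs ih.2)
      refine linear_reg ha hb (allCCE (E n) ha (by norm_num)) hs (k + 1)
        (A := fun x => ∑ i, ∑ j, Stmt.up G i j x • ent i j) (c := fun _ => 0)
        (g := fun x => -Ψ (x, u x, fderiv ℝ u x)) ?_ (hc_const _ hs)
        (HC.comp_smooth ha hb hs isOpen_univ
          (fun y _ => hΨ.neg.contDiffAt.of_le (by exact_mod_cast le_top)) hj fun _ _ => mem_univ _)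
        (fun x _ l hl => ?_) hu fun x hx => ?_
      · refine HC.of_contDiff ha hb hs fun x _ => ContDiffAt.sum fun i _ =>
          ContDiffAt.sum fun j _ => ContDiffAt.fun_smul ?_ contDiffAt_const
        exact (ContDiff.contDiffAt (hG.sm_up i j)).of_le (by exact_mod_cast le_top)
      · have h1 : (fun i => l (ee i)) ≠ 0 := by
          intro h0
          refine hl (ContinuousLinearMap.ext fun v => ?_)
          have h2 := P366Z.fderiv_eq_sum (f := l) (x := 0) l.differentiableAt v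
          simp only [P366Z.pd_eq l.differentiableAt, l.fderiv] at h2
          rw [h2]
          exact Finset.sum_eq_zero fun i _ => mul_eq_zero_of_right _ (congrFun h0 i)
        refine (hG.up_pos x h1).trans_eq ?_
        simp only [sum_apply, smul_apply, ent_apply,
          ContinuousLinearMap.smulRight_apply, smul_eq_mul, mul_assoc]
      · simp only [sum_apply, smul_apply, ent_apply, smul_eq_mul, h x hx]
        ring
  intro y hy
  exact contDiffAt_infty.2 fun k =>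
    ((HC.mono ha hb hs (Nat.le_add_right k 2) (key k)).contDiffOn ha hs).contDiffAt
      (hs.mem_nhds hy)

/-- the local statement on Euclidean space -/
theorem reg_hc {n : ℕ} {G : Field n} (hG : P366Z.Met G) {s : Set (E n)} (hs : IsOpen s)
    {U w : E n → ℝ} {Φ : E n × ℝ → ℝ} (hU : Stmt.Smooth U) (h0 : ∀ x, 0 < U x)
    (hΦ : ContDiff ℝ ∞ Φ) (hw : ∀ x ∈ s, ContDiffAt ℝ 2 w x) (hH : HC (1 / 2) s 2 w)
    (heq : ∀ x ∈ s, P366Z.wl G U w x = Φ (x, w x)) : ∀ x ∈ s, ContDiffAt ℝ ∞ w x := by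
  refine boot_loc hG hs hH (fun q => (Φ (q.1, q.2.1) - 2 * U q.1 *
      ∑ i, ∑ j, Stmt.up G i j q.1 * Stmt.pd i U q.1 * q.2.2 (ee j)) / U q.1 ^ 2 -
        ∑ j, P366Z.bv G j q.1 * q.2.2 (ee j)) ?_ fun x hx => ?_
  · have h1 : ContDiff ℝ ∞ fun q : E n × ℝ × (E n →L[ℝ] ℝ) => U q.1 :=
      ContDiff.comp hU contDiff_fst
    have h2 : ∀ j, ContDiff ℝ ∞ fun q : E n × ℝ × (E n →L[ℝ] ℝ) => q.2.2 (ee j) := fun j =>
      (contDiff_snd.comp contDiff_snd).clm_apply contDiff_const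
    refine ContDiff.sub (ContDiff.div (ContDiff.sub
      (hΦ.comp (contDiff_fst.prodMk (contDiff_fst.comp contDiff_snd)))
      ((contDiff_const.mul h1).mul (ContDiff.sum fun i _ => ContDiff.sum fun j _ =>
        ((ContDiff.comp (hG.sm_up i j) contDiff_fst).mul
          (ContDiff.comp (hU.pd i) contDiff_fst)).mul (h2 j)))) (h1.pow 2)
      fun q => pow_ne_zero 2 (h0 _).ne') (ContDiff.sum fun j _ =>
        (ContDiff.comp (hG.sm_bv j) contDiff_fst).mul (h2 j))
  · have h1 := heq x hx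
    rw [hG.wl_eq (hU.diff x) (hw x hx), P366Z.ip] at h1
    simp only [P366Z.pd_eq (P366Z.diff2 (hw x hx))] at h1
    have h2 := (h0 x).ne'
    rw [lap_eq' hG (hw x hx), ← h1]
    congr 1
    field_simp
    ring

theorem reg_loc {n : ℕ} {G : Field n} (hG : P366Z.Met G) {s : Set (E n)} (hs : IsOpen s)
    {U w : E n → ℝ} {Φ : E n × ℝ → ℝ} {K : ℝ} (hU : Stmt.Smooth U) (h0 : ∀ x, 0 < U x)
    (hΦ : ContDiff ℝ ∞ Φ) (hw : ∀ x ∈ s, ContDiffAt ℝ 2 w x) (hH : P366Z.H2 K w s)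
    (heq : ∀ x ∈ s, P366Z.wl G U w x = Φ (x, w x)) : ∀ x ∈ s, ContDiffAt ℝ ∞ w x := by
  refine reg_hc hG hs hU h0 hΦ hw ⟨fun x hx => (hw x hx).differentiableAt (by norm_num), fun x hx =>
    ((hw x hx).fderiv_right (m := 1) (by norm_num)).differentiableAt (by norm_num), fun x hx => ?_⟩
    heq
  obtain ⟨r, r0, hr⟩ := Metric.isOpen_iff.1 hs x hx
  exact ⟨r, r0, hr, |K|, abs_nonneg _, fun y hy y' hy' => (hH.2 y (hr hy) y' (hr hy')).trans
    (mul_le_mul_of_nonneg_right (le_abs_self K) (by positivity))⟩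

/-- the statement on every manifold -/
theorem Met.reg {n : ℕ} {M : Type} [Mf0 n M] {g : Fld n M} (hg : Met g) {U w : M → ℝ}
    {Φ : M × ℝ → ℝ} (hU : Smooth U) (h0 : ∀ x, 0 < U x)
    (hΦ : ∀ e ∈ At M, ContDiff ℝ ∞ fun p : E n × ℝ => Φ (e.symm p.1, p.2)) (hw : CD 2 w)
    (hH : ∀ x : M, ∃ K r, 0 < r ∧ P366Z.H2 K (loc (ch x) w) (ball (pt x) r))
    (heq : ∀ x, wl g U w x = Φ (x, w x)) : Smooth w := cd_of_cAt le_rfl fun x => by
  obtain ⟨K, r, r0, hK⟩ := hH x
  have he := ch_mem x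
  exact reg_loc (hg.rep he) isOpen_ball (hU.lc he) (fun y => h0 _) (hΦ _ he)
    (fun y _ => (hw _ he).contDiffAt) hK
    (fun y _ => (wl_rep hg he (hU.diff _) hw.contDiffAt).trans (heq _)) _ (mem_ball_self r0)

theorem reg : REG := fun _ M _ _ _ _ _ hg hU h0 hΦ hw hH heq => hg.reg hU h0 hΦ hw (fun x =>
  let ⟨K, hK⟩ := hH (‖px x‖ + 1)
  ⟨K, 1, one_pos, hK x (lt_add_one ‖px x‖)⟩) heq

end Vale.Agent.P366M
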