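import Vale.Agent.P366M.Cd

/-!
# P366M: uniform geometry of the preferred charts
-/

open MeasureTheory Metric Filter Topology Set
open scoped ContDiff ENNReal
open Vale.Agent.P366 Vale.Agent.P366.Stmt Vale.Agent.P366Z

noncomputable section

namespace Vale.Agent.P366M

variable {n : ℕ} {M : Type} [Mfs n M] {x : M}

/-- uniform constants for the finitely many preferred charts -/
theorem unif {P : Ch n M → ℝ → Prop} (hm : ∀ e a b, a ≤ b → P e a → P e b)
    (h : ∀ x : M, ∃ C, P (ch x) C) : ∃ C, ∀ x : M, P (ch x) C := by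
  classical
  have h' : ∀ e : Ch n M, ∃ C, e ∈ range (fun x : M => ch x) → P e C := fun e => by
    by_cases he : e ∈ range (fun x : M => ch x)
    · obtain ⟨x, rfl⟩ := he
      obtain ⟨C, hC⟩ := h x
      exact ⟨C, fun _ => hC⟩
    · exact ⟨0, fun h => absurd h he⟩
  choose C hC using h'
  obtain ⟨B, hB⟩ := ((Mfs.fin (M := M)).image C).bddAbove
  exact ⟨B, fun x => hm _ _ _ (hB ⟨_, ⟨x, rfl⟩, rfl⟩) (hC _ ⟨x, rfl⟩)⟩

theorem far_ch (h : R0 M ≤ ‖px x‖) : pt x = px x ∧ ∃ j : Nd M, ye j (px x) = x ∧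
    ∀ z ∈ ball (px x) 5, (ch x).symm z = ye j z := by
  obtain ⟨j, hj⟩ := Mfs.ye_px x (by linarith)
  have := Mfs.far j (px x) h
  rw [hj] at this
  exact ⟨this.1, j, hj, this.2⟩

theorem pt_le (M : Type) [Mfs n M] : ∃ C, 0 ≤ C ∧ ∀ x : M, ‖pt x‖ ≤ C + ‖px x‖ := by
  obtain ⟨C, hC⟩ := Mfs.core (M := M)
  refine ⟨|C|, abs_nonneg C, fun x => ?_⟩
  rcases le_total ‖px x‖ (R0 M) with h | h
  · linarith [hC x h, le_abs_self C, norm_nonneg (px x)]
  · rw [(far_ch h).1]; linarith [abs_nonneg C]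

theorem norm_ge_of_ball {a y : E n} {r : ℝ} (h : y ∈ ball a r) : ‖a‖ - r < ‖y‖ := by
  have := norm_sub_norm_le a y
  rw [mem_ball, dist_comm, dist_eq_norm] at h
  linarith

theorem norm_le_of_ball {a y : E n} {r : ℝ} (h : y ∈ ball a r) : ‖y‖ < ‖a‖ + r := by
  have := norm_sub_norm_le y a
  rw [mem_ball, dist_eq_norm] at h
  linarith

theorem ye_inj {j j' : Nd M} {y z : E n} (hy : R0 M - 6 ≤ ‖y‖) (hz : R0 M - 6 ≤ ‖z‖)
    (h : dist (ye j y) (ye j' z) < 1) : j = j' := by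
  by_contra hj
  exact absurd (Mfs.sep j j' y z hj hy hz) (not_le.2 h)

/-- the comparison of the distance with the coordinates of the preferred charts -/
structure Geo (M : Type) [Mfs n M] (L : ℝ) : Prop where
  four : 4 ≤ L
  hi : ∀ x : M, ∀ y ∈ ball (pt x) 4, ∀ z ∈ ball (pt x) 4,
    dist ((ch x).symm y) ((ch x).symm z) ≤ L * ‖y - z‖
  lo : ∀ x : M, ∀ y ∈ ball (pt x) 4, ∀ z ∈ ball (pt x) 4,
    ‖y - z‖ ≤ L * dist ((ch x).symm y) ((ch x).symm z)
  nb : ∀ (x : M) (y : E n) (r : ℝ), ‖y - pt x‖ + r ≤ 4 → ∀ p, dist p ((ch x).symm y) < r / L →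
    ∃ z ∈ ball y r, (ch x).symm z = p

theorem lip_cpt (x : M) (R : ℝ) : ∃ L, 0 ≤ L ∧ ∀ y ∈ closedBall (0 : E n) R,
    ∀ z ∈ closedBall (0 : E n) R, dist ((ch x).symm y) ((ch x).symm z) ≤ L * ‖y - z‖ ∧
      ‖y - z‖ ≤ L * dist ((ch x).symm y) ((ch x).symm z) := by
  have hK := isCompact_closedBall (0 : E n) R
  obtain ⟨K₁, h₁⟩ := ((Mfs.lip x).locallyLipschitzOn (s := closedBall 0 R)
    ).exists_lipschitzOnWith_of_compact hK
  have hl : LocallyLipschitzOn ((ch x).symm '' closedBall 0 R) (ch x) := by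
    rintro _ ⟨y, -, rfl⟩
    obtain ⟨K, t, ht, h⟩ := Mfs.lip' x _ (symm_mem (ch_mem x) y)
    exact ⟨K, t, mem_nhdsWithin_of_mem_nhds ht, h⟩
  obtain ⟨K₂, h₂⟩ := hl.exists_lipschitzOnWith_of_compact (hK.image (cont_symm (ch_mem x)))
  refine ⟨K₁ + K₂, by positivity, fun y hy z hz => ⟨?_, ?_⟩⟩
  · have := h₁.dist_le_mul y hy z hz
    rw [dist_eq_norm] at this
    nlinarith [norm_nonneg (y - z), K₂.2]
  · have := h₂.dist_le_mul _ ⟨y, hy, rfl⟩ _ ⟨z, hz, rfl⟩
    rw [right_inv (ch_mem x), right_inv (ch_mem x), dist_eq_norm] at this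
    nlinarith [dist_nonneg (x := (ch x).symm y) (y := (ch x).symm z), K₁.2]

theorem exists_geo (M : Type) [Mfs n M] : ∃ L, Geo M L := by
  obtain ⟨C, hC0, hC⟩ := pt_le M
  set R := C + R0 M + 4 with hR
  obtain ⟨L, hL⟩ := unif (M := M) (P := fun e L => 4 ≤ L ∧ (∀ y ∈ closedBall (0 : E n) (R + 1),
      ∀ z ∈ closedBall (0 : E n) (R + 1), dist (e.symm y) (e.symm z) ≤ L * ‖y - z‖ ∧
        ‖y - z‖ ≤ L * dist (e.symm y) (e.symm z)) ∧ ∀ y ∈ closedBall (0 : E n) R, ∀ p,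
          dist p (e.symm y) < 4 / L → ∃ z ∈ ball (0 : E n) (R + 1), e.symm z = p)
    (fun e a b hab ⟨h1, h2, h3⟩ => ⟨h1.trans hab, fun y hy z hz =>
      ⟨(h2 y hy z hz).1.trans (by gcongr), (h2 y hy z hz).2.trans (by gcongr)⟩,
      fun y hy p hp => h3 y hy p (hp.trans_le (by gcongr))⟩) fun x => by
    obtain ⟨L, hL0, hL⟩ := lip_cpt x (R + 1)
    obtain ⟨δ, hδ, hs⟩ := ((isCompact_closedBall (0 : E n) R).image (cont_symm (ch_mem x))
      ).exists_thickening_subset_open ((openEmb_symm (ch_mem x)).isOpenMap _ isOpen_ball)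
      (image_mono (closedBall_subset_ball (show R < R + 1 by linarith)))
    refine ⟨L + 4 + 4 / δ, by linarith [show 0 < 4 / δ by positivity], fun y hy z hz =>
      ⟨(hL y hy z hz).1.trans ?_, (hL y hy z hz).2.trans ?_⟩, fun y hy p hp => ?_⟩
    · gcongr; linarith [show 0 < 4 / δ by positivity]
    · gcongr; linarith [show 0 < 4 / δ by positivity]
    · refine hs (mem_thickening_iff.2 ⟨_, ⟨y, hy, rfl⟩, hp.trans_le ?_⟩)
      rw [div_le_iff₀ (by positivity)]
      have : δ * (4 / δ) = 4 := by field_simp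
      nlinarith
  have h4 : 4 ≤ L := (hL (Classical.arbitrary M)).1
  have near : ∀ x : M, ‖px x‖ ≤ R0 M → ∀ y, ‖y - pt x‖ ≤ 4 → y ∈ closedBall (0 : E n) R :=
    fun x hx y hy => by
      rw [mem_closedBall_zero_iff]
      linarith [norm_sub_norm_le y (pt x), hC x]
  have sub : closedBall (0 : E n) R ⊆ closedBall 0 (R + 1) := closedBall_subset_closedBall (by linarith)
  have two : ∀ x : M, ∀ y ∈ ball (pt x) 4, ∀ z ∈ ball (pt x) 4,
      dist ((ch x).symm y) ((ch x).symm z) ≤ L * ‖y - z‖ ∧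
        ‖y - z‖ ≤ L * dist ((ch x).symm y) ((ch x).symm z) := fun x y hy z hz => by
    rcases le_total ‖px x‖ (R0 M) with h | h
    · exact (hL x).2.1 y (sub (near x h y (mem_ball_iff_norm.1 hy).le)) z
        (sub (near x h z (mem_ball_iff_norm.1 hz).le))
    · obtain ⟨hp, j, -, hj⟩ := far_ch h
      rw [hp] at hy hz
      rw [hj y (ball_subset_ball (by norm_num) hy), hj z (ball_subset_ball (by norm_num) hz),
        Mfs.dist_far j y z (by linarith [norm_ge_of_ball hy]) (by linarith [norm_ge_of_ball hz])]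
      constructor <;> nlinarith [norm_nonneg (y - z)]
  refine ⟨L, h4, fun x y hy z hz => (two x y hy z hz).1, fun x y hy z hz => (two x y hy z hz).2,
    fun x y r hr p hp => ?_⟩
  have hr0 : 0 < r := by
    by_contra h0
    have : r / L ≤ 0 := div_nonpos_of_nonpos_of_nonneg (not_lt.1 h0) (by linarith)
    linarith [dist_nonneg (x := p) (y := (ch x).symm y)]
  have hy0 := norm_nonneg (y - pt x)
  have hp' : L * dist p ((ch x).symm y) < r := by
    rwa [lt_div_iff₀ (by linarith), mul_comm] at hp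
  rcases le_total ‖px x‖ (R0 M) with h | h
  · have hy := near x h y (by linarith)
    obtain ⟨z, hz, rfl⟩ := (hL x).2.2 y hy p (hp.trans_le (by gcongr; linarith))
    exact ⟨z, mem_ball_iff_norm.2
      (((hL x).2.1 z (ball_subset_closedBall hz) y (sub hy)).2.trans_lt hp'), rfl⟩
  · obtain ⟨he, j, -, hj⟩ := far_ch h
    rw [he] at hr hy0
    have hy : y ∈ ball (px x) 4 := mem_ball_iff_norm.2 (by linarith)
    have hy1 := norm_ge_of_ball hy
    rw [hj y (ball_subset_ball (by norm_num) hy)] at hp'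
    have hd := Mfs.px_le p (ye j y)
    rw [Mfs.px_ye j y (by linarith)] at hd
    have hd0 := dist_nonneg (x := p) (y := ye j y)
    have h1 : dist p (ye j y) < 1 := by nlinarith
    have h2 : R0 M - 6 ≤ ‖px p‖ := by
      linarith [norm_sub_norm_le y (px p), norm_sub_rev y (px p)]
    obtain ⟨j', hj'⟩ := Mfs.ye_px p h2
    obtain rfl : j' = j := ye_inj (z := y) h2 (by linarith) (by rwa [hj'])
    have h3 : ‖px p - y‖ < r := by nlinarith
    refine ⟨px p, mem_ball_iff_norm.2 h3, (hj _ (mem_ball_iff_norm.2 ?_)).trans hj'⟩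
    linarith [norm_sub_le_norm_sub_add_norm_sub (px p) y (px x)]

namespace Geo

variable {L : ℝ} (G : Geo M L)
include G

theorem pos : 0 < L := by linarith [G.four]

theorem dist_le {y : E n} (hy : y ∈ ball (pt x) 4) : dist ((ch x).symm y) x ≤ L * ‖y - pt x‖ := by
  simpa using G.hi x y hy (pt x) (mem_ball_self (by norm_num))

theorem px_le {y : E n} (hy : y ∈ ball (pt x) 4) : ‖px ((ch x).symm y) - px x‖ ≤ 4 * L := by
  have h := mem_ball_iff_norm.1 hy
  have := (Mfs.px_le _ _).trans (G.dist_le hy)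
  nlinarith [G.pos]

theorem nb0 {r : ℝ} (hr : r ≤ 4) {p : M} (hp : dist p x < r / L) :
    ∃ z ∈ ball (pt x) r, (ch x).symm z = p :=
  G.nb x (pt x) r (by simpa using hr) p (by simpa using hp)

end Geo

/-! ### uniform bounds for data in the charts -/

/-- bounded by `A` and `α`-Hölder with the constant `A` on the set `s` -/
def HoB {V : Type} [NormedAddCommGroup V] (α A : ℝ) (f : E n → V) (s : Set (E n)) : Prop :=
  (∀ y ∈ s, ‖f y‖ ≤ A) ∧ ∀ y ∈ s, ∀ z ∈ s, ‖f y - f z‖ ≤ A * ‖y - z‖ ^ α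

section V

variable {V : Type} [NormedAddCommGroup V] {α A B : ℝ} {f : E n → V} {s t : Set (E n)}

theorem HoB.mono (h : HoB α A f s) (hA : A ≤ B) : HoB α B f s :=
  ⟨fun y hy => (h.1 y hy).trans hA, fun y hy z hz => (h.2 y hy z hz).trans (by gcongr)⟩

theorem HoB.sub (h : HoB α A f s) (ht : t ⊆ s) : HoB α A f t :=
  ⟨fun y hy => h.1 y (ht hy), fun y hy z hz => h.2 y (ht hy) z (ht hz)⟩

theorem HoB.congr {g : E n → V} (h : HoB α A f s) (e : ∀ y ∈ s, g y = f y) : HoB α A g s :=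
  ⟨fun y hy => e y hy ▸ h.1 y hy, fun y hy z hz => by rw [e y hy, e z hz]; exact h.2 y hy z hz⟩

theorem hoB_of_const {c : V} (e : ∀ y ∈ s, f y = c) : HoB α ‖c‖ f s :=
  ⟨fun y hy => (e y hy).symm ▸ le_rfl, fun y hy z hz => by
    rw [e y hy, e z hz, sub_self, norm_zero]; positivity⟩

variable [NormedSpace ℝ V]

theorem hoB_cpt (hs : IsCompact s) (hf : ∀ y ∈ s, ContDiffAt ℝ 1 f y) : ∃ A, HoB 1 A f s := by
  obtain ⟨A, hA⟩ := hs.exists_bound_of_continuousOn fun y hy =>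
    (hf y hy).continuousAt.continuousWithinAt
  have hl : LocallyLipschitzOn s f := fun y hy => by
    obtain ⟨K, t, ht, h⟩ := (hf y hy).exists_lipschitzOnWith
    exact ⟨K, t, mem_nhdsWithin_of_mem_nhds ht, h⟩
  obtain ⟨K, hK⟩ := hl.exists_lipschitzOnWith_of_compact hs
  refine ⟨max A K, fun y hy => (hA y hy).trans (le_max_left _ _), fun y hy z hz => ?_⟩
  have := hK.dist_le_mul y hy z hz
  rw [dist_eq_norm, dist_eq_norm] at this
  rw [Real.rpow_one]
  exact this.trans (by gcongr; exact le_max_right _ _)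

/-- data which are `C¹` in every preferred chart and uniformly Lipschitz far out are uniformly
Lipschitz -/
theorem unif_ch (Ψ : Ch n M → E n → V) (h : ∀ x : M, ContDiff ℝ 1 (Ψ (ch x))) {R A : ℝ}
    (hR : ∀ x : M, R ≤ ‖px x‖ → HoB 1 A (Ψ (ch x)) (ball (pt x) 4)) :
    ∃ C, ∀ x : M, HoB 1 C (Ψ (ch x)) (ball (pt x) 4) := by
  obtain ⟨C, -, hC⟩ := pt_le M
  obtain ⟨B, hB⟩ := unif (M := M) (P := fun e B => HoB 1 B (Ψ e) (closedBall 0 (C + R + 4)))
    (fun e a b hab h => h.mono hab) fun x =>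
      hoB_cpt (isCompact_closedBall _ _) fun y _ => (h x).contDiffAt
  refine ⟨max A B, fun x => ?_⟩
  rcases le_total R ‖px x‖ with h | h
  · exact (hR x h).mono (le_max_left _ _)
  · refine ((hB x).mono (le_max_right _ _)).sub fun y hy => mem_closedBall_zero_iff.2 ?_
    linarith [norm_le_of_ball hy, hC x]

end V

/-- the overlap of two charts -/
def Ov (x p : M) : Set (E n) :=
  {y ∈ ball (pt x) 4 | ∃ z ∈ ball (pt p) 4, (ch p).symm z = (ch x).symm y}

theorem Ov.src {p : M} {y : E n} (h : y ∈ Ov x p) : (ch x).symm y ∈ (ch p).source := by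
  obtain ⟨-, z, -, hz⟩ := h
  exact hz ▸ symm_mem (ch_mem p) z

theorem tm_eq {p : M} {e : Ch n M} {y z : E n} (h : (ch p).symm z = e.symm y) :
    tm e (ch p) y = z := by
  unfold tm; rw [← h, right_inv (ch_mem p)]

theorem mem_ov {y : E n} (hy : y ∈ ball (pt x) 4) : y ∈ Ov x ((ch x).symm y) :=
  ⟨hy, _, mem_ball_self (by norm_num), symm_pt _⟩

theorem tm_far {p : M} {y : E n} (hx : R0 M ≤ ‖px x‖) (hp : R0 M ≤ ‖px p‖) (h : y ∈ Ov x p) :
    tm (ch x) (ch p) =ᶠ[𝓝 y] fun z => z := by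
  obtain ⟨hy, z, hz, e⟩ := h
  obtain ⟨h1, j, -, hj⟩ := far_ch hx
  obtain ⟨h2, k, -, hk⟩ := far_ch hp
  rw [h1] at hy
  rw [h2] at hz
  have hy5 : y ∈ ball (px x) 5 := ball_subset_ball (by norm_num) hy
  have hz5 : z ∈ ball (px p) 5 := ball_subset_ball (by norm_num) hz
  have a1 : R0 M - 6 ≤ ‖y‖ := by linarith [norm_ge_of_ball hy]
  have a2 : R0 M - 6 ≤ ‖z‖ := by linarith [norm_ge_of_ball hz]
  rw [hj y hy5, hk z hz5] at e
  obtain rfl : k = j := ye_inj a2 a1 (by simp [e])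
  obtain rfl : z = y := by rw [← Mfs.px_ye k z a2, e, Mfs.px_ye k y a1]
  filter_upwards [isOpen_ball.mem_nhds hy5, isOpen_ball.mem_nhds hz5] with w h3 h4
  exact tm_eq ((hk w h4).trans (hj w h3).symm)

section V

variable {V : Type} [NormedAddCommGroup V] [NormedSpace ℝ V]

/-- expressions in the derivatives of a change of coordinates -/
structure Nat1 (Ψ : (E n → E n) → E n → V) : Prop where
  sm : ∀ τ y, ContDiffAt ℝ ∞ τ y → IsUnit (jac τ y).det → ContDiffAt ℝ 1 (Ψ τ) y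
  id : ∃ c, ∀ τ y, (τ =ᶠ[𝓝 y] fun z => z) → Ψ τ y = c

/-- they are uniformly Lipschitz on the overlaps -/
theorem unif_tm (M : Type) [Mfs n M] {Ψ : (E n → E n) → E n → V} (hΨ : Nat1 Ψ) :
    ∃ C, 0 ≤ C ∧ ∀ x p : M, HoB 1 C (Ψ (tm (ch x) (ch p))) (Ov x p) := by
  obtain ⟨L, G⟩ := exists_geo M
  obtain ⟨C, -, hC⟩ := pt_le M
  obtain ⟨c, hc⟩ := hΨ.id
  set R := C + R0 M + 16 * L + 4 with hR
  obtain ⟨B, hB⟩ := unif (M := M) (P := fun e B => ∀ p : M, e ∈ At M → HoB 1 B (Ψ (tm e (ch p)))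
      (closedBall 0 R ∩ e.symm ⁻¹' ((ch p).symm '' closedBall 0 R)))
    (fun e a b hab h p he => (h p he).mono hab) fun x => by
    obtain ⟨B, hB⟩ := unif (M := M) (P := fun e B => HoB 1 B (Ψ (tm (ch x) e))
        (closedBall 0 R ∩ (ch x).symm ⁻¹' (e.symm '' closedBall 0 R)))
      (fun e a b hab h => h.mono hab) fun p => hoB_cpt ((isCompact_closedBall _ _).inter_right
        (((isCompact_closedBall _ _).image (cont_symm (ch_mem p))).isClosed.preimage
          (cont_symm (ch_mem x)))) fun y hy => by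
        obtain ⟨-, z, -, hz⟩ := hy
        have : (ch x).symm y ∈ (ch p).source := hz ▸ symm_mem (ch_mem p) z
        exact hΨ.sm _ _ (tm_cd (ch_mem x) (ch_mem p) this) (jac_unit (ch_mem x) (ch_mem p) this)
    exact ⟨B, fun p _ => hB p⟩
  refine ⟨max ‖c‖ B, le_max_of_le_left (norm_nonneg _), fun x p => ?_⟩
  have hd : ∀ y ∈ Ov x p, ‖px x - px p‖ ≤ 8 * L := fun y ⟨hy, z, hz, e⟩ => by
    have a1 := G.px_le hy
    have a2 := G.px_le hz
    rw [e] at a2
    linarith [norm_sub_le_norm_sub_add_norm_sub (px x) (px ((ch x).symm y)) (px p),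
      norm_sub_rev (px x) (px ((ch x).symm y))]
  rcases le_total (R0 M + 8 * L) ‖px x‖ with h | h
  · refine (hoB_of_const fun y hy => hc _ _ (tm_far (by linarith [G.pos]) ?_ hy)).mono
      (le_max_left _ _)
    linarith [hd y hy, norm_sub_norm_le (px x) (px p)]
  · refine ((hB x p (ch_mem x)).mono (le_max_right _ _)).sub fun y hy => ?_
    have a1 := hd y hy
    obtain ⟨hy, z, hz, e⟩ := hy
    refine ⟨mem_closedBall_zero_iff.2 ?_, z, mem_closedBall_zero_iff.2 ?_, e⟩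
    · linarith [norm_le_of_ball hy, hC x, G.pos]
    · linarith [norm_le_of_ball hz, hC p, norm_sub_norm_le (px p) (px x), norm_sub_rev (px x) (px p)]

theorem le_rpow_of_le {d δ α : ℝ} (hδ : 0 < δ) (hδ1 : δ ≤ 1) (hd : δ ≤ d) (h0 : 0 ≤ α)
    (h1 : α ≤ 1) : δ ≤ d ^ α := by
  calc δ = δ ^ (1 : ℝ) := (Real.rpow_one δ).symm
    _ ≤ δ ^ α := Real.rpow_le_rpow_of_exponent_ge hδ hδ1 h1
    _ ≤ d ^ α := Real.rpow_le_rpow hδ.le hd h0

theorem self_le_rpow {d α : ℝ} (hd : 0 ≤ d) (hd1 : d ≤ 1) (h0 : 0 ≤ α) (h1 : α ≤ 1) :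
    d ≤ d ^ α := by
  rcases hd.eq_or_lt with rfl | h
  · positivity
  · exact le_rpow_of_le h hd1 le_rfl h0 h1

theorem mul_rpow_le {c d α : ℝ} (hc : 1 ≤ c) (hd : 0 ≤ d) (h1 : α ≤ 1) :
    (c * d) ^ α ≤ c * d ^ α := by
  rw [Real.mul_rpow (by linarith) hd]
  gcongr
  calc c ^ α ≤ c ^ (1 : ℝ) := Real.rpow_le_rpow_of_exponent_le hc h1
    _ = c := Real.rpow_one c

/-- **enlargement**: Hölder bounds of a tensor in small balls of the preferred charts give Hölder
bounds in the balls of radius three -/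
theorem enlarge (M : Type) [Mfs n M] {W : Type} [NormedAddCommGroup W] [NormedSpace ℝ W]
    {Ψ : (E n → E n) → E n → W →L[ℝ] V} (hΨ : Nat1 Ψ) {r : ℝ} (hr : 0 < r) :
    ∃ C, 0 ≤ C ∧ ∀ (α A : ℝ) (F : Ch n M → E n → V) (F' : Ch n M → E n → W), 0 ≤ α → α ≤ 1 →
      (∀ x p : M, ∀ y ∈ Ov x p,
        F (ch x) y = Ψ (tm (ch x) (ch p)) y (F' (ch p) (tm (ch x) (ch p) y))) →
      (∀ p : M, HoB α A (F' (ch p)) (ball (pt p) r)) →
      ∀ x : M, HoB α (C * A) (F (ch x)) (ball (pt x) 4) := by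
  obtain ⟨L, G⟩ := exists_geo M
  obtain ⟨C, hC0, hC⟩ := unif_tm M hΨ
  have hL := G.four
  set ρ := min r 1 with hρ
  have hρ0 : 0 < ρ := lt_min hr one_pos
  have hρ1 : ρ ≤ 1 := min_le_right _ _
  set δ := ρ / L ^ 2 with hδ
  have hδ0 : 0 < δ := by positivity
  have hδ1 : δ ≤ 1 := by rw [hδ, div_le_one (by positivity)]; nlinarith
  refine ⟨C * (1 + L ^ 2 + 2 / δ), by positivity, fun α A F F' h0 h1 hF hA x => ?_⟩
  have hA0 : 0 ≤ A := (norm_nonneg _).trans ((hA x).1 _ (mem_ball_self hr))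
  have hb : ∀ y ∈ ball (pt x) 4, ‖F (ch x) y‖ ≤ C * A := fun y hy => by
    rw [hF x _ y (mem_ov hy), tm_pt]
    exact ((Ψ _ y).le_opNorm _).trans (mul_le_mul ((hC x _).1 y (mem_ov hy))
      ((hA _).1 _ (mem_ball_self hr)) (norm_nonneg _) hC0)
  have hCA : 0 ≤ C * A := by positivity
  have h2δ : 0 < 2 / δ := by positivity
  refine ⟨fun y hy => (hb y hy).trans (by nlinarith [sq_nonneg L]), fun y hy z hz => ?_⟩
  have hn := Real.rpow_nonneg (norm_nonneg (y - z)) α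
  rcases le_or_gt δ ‖y - z‖ with h | h
  · have a1 := le_rpow_of_le hδ0 hδ1 h h0 h1
    have a2 : 2 ≤ 2 / δ * ‖y - z‖ ^ α := by
      rw [div_mul_eq_mul_div, le_div_iff₀ hδ0]; linarith
    calc ‖F (ch x) y - F (ch x) z‖ ≤ C * A * 2 := by
          linarith [norm_sub_le (F (ch x) y) (F (ch x) z), hb y hy, hb z hz]
      _ ≤ C * A * ((1 + L ^ 2 + 2 / δ) * ‖y - z‖ ^ α) := by
          gcongr; nlinarith [sq_nonneg L]
      _ = _ := by ring
  · set p := (ch x).symm y with hp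
    have a1 := G.hi x z hz y hy
    rw [norm_sub_rev] at a1
    obtain ⟨w, hw, e⟩ := G.nb0 (x := p) (r := ρ) (p := (ch x).symm z) (by linarith)
      (a1.trans_lt (by
        rw [lt_div_iff₀ G.pos]
        rw [hδ, lt_div_iff₀ (by positivity)] at h
        nlinarith))
    have hw4 : w ∈ ball (pt p) 4 := ball_subset_ball (by linarith) hw
    have hwr : w ∈ ball (pt p) r := ball_subset_ball (min_le_left _ _) hw
    have hz' : z ∈ Ov x p := ⟨hz, w, hw4, e⟩
    have a2 := G.lo p (pt p) (mem_ball_self (by norm_num)) w hw4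
    rw [symm_pt, e, dist_comm] at a2
    have a3 : ‖pt p - w‖ ^ α ≤ L ^ 2 * ‖y - z‖ ^ α :=
      (Real.rpow_le_rpow (norm_nonneg _) (a2.trans (by nlinarith)) h0).trans
        (mul_rpow_le (by nlinarith) (norm_nonneg _) h1)
    have a4 := self_le_rpow (norm_nonneg (y - z)) (h.le.trans hδ1) h0 h1
    rw [hF x p y (mem_ov hy), hF x p z hz', tm_eq e, show tm (ch x) (ch p) y = pt p from rfl]
    set P := Ψ (tm (ch x) (ch p))
    have a5 := (hC x p).2 y (mem_ov hy) z hz'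
    rw [Real.rpow_one] at a5
    calc ‖P y (F' (ch p) (pt p)) - P z (F' (ch p) w)‖
        = ‖(P y - P z) (F' (ch p) (pt p)) + P z (F' (ch p) (pt p) - F' (ch p) w)‖ := by
          simp
      _ ≤ C * ‖y - z‖ * A + C * (A * ‖pt p - w‖ ^ α) := (norm_add_le _ _).trans (add_le_add
          (((P y - P z).le_opNorm _).trans (mul_le_mul a5 ((hA p).1 _ (mem_ball_self hr))
            (norm_nonneg _) (by positivity)))
          (((P z).le_opNorm _).trans (mul_le_mul ((hC x p).1 z hz')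
            ((hA p).2 _ (mem_ball_self hr) w hwr) (norm_nonneg _) hC0)))
      _ ≤ C * ‖y - z‖ ^ α * A + C * (A * (L ^ 2 * ‖y - z‖ ^ α)) := by gcongr
      _ = C * A * ((1 + L ^ 2) * ‖y - z‖ ^ α) := by ring
      _ ≤ C * A * ((1 + L ^ 2 + 2 / δ) * ‖y - z‖ ^ α) :=
          mul_le_mul_of_nonneg_left (mul_le_mul_of_nonneg_right (by linarith) hn) hCA
      _ = _ := by ring

end V

/-! ### Hölder functions -/

section V

variable {V : Type} [NormedAddCommGroup V] {α A : ℝ} {f : M → V}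

/-- bounded by `A` and `α`-Hölder with the constant `A` for the distance of `M` -/
def HM (α A : ℝ) (f : M → V) : Prop :=
  (∀ x, ‖f x‖ ≤ A) ∧ ∀ x y, ‖f x - f y‖ ≤ A * dist x y ^ α

theorem HM.nonneg (h : HM α A f) : 0 ≤ A := (norm_nonneg _).trans (h.1 (Classical.arbitrary M))

theorem HM.loc {L : ℝ} (G : Geo M L) (h1 : α ≤ 1) (h0 : 0 ≤ α) (h : HM α A f) (x : M) :
    HoB α (L * A) (loc (ch x) f) (ball (pt x) 4) := by
  have hA := h.nonneg
  have hL := G.four
  refine ⟨fun y _ => (h.1 _).trans (by nlinarith), fun y hy z hz => (h.2 _ _).trans ?_⟩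
  calc A * dist ((ch x).symm y) ((ch x).symm z) ^ α ≤ A * (L * ‖y - z‖ ^ α) := by
        gcongr
        exact (Real.rpow_le_rpow dist_nonneg (G.hi x y hy z hz) h0).trans
          (mul_rpow_le (by linarith) (norm_nonneg _) h1)
    _ = _ := by ring

theorem hm_of_loc {L r : ℝ} (G : Geo M L) (h1 : α ≤ 1) (h0 : 0 ≤ α) (hr : 0 < r) (hr1 : r ≤ 2)
    (h : ∀ x : M, HoB α A (loc (ch x) f) (ball (pt x) r)) : HM α (2 * L / r * A) f := by
  have hL := G.four
  have hb : ∀ x, ‖f x‖ ≤ A := fun x => by simpa using (h x).1 _ (mem_ball_self hr)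
  have hA : 0 ≤ A := (norm_nonneg _).trans (hb (Classical.arbitrary M))
  have hc : L ≤ 2 * L / r := by rw [le_div_iff₀ hr]; nlinarith
  refine ⟨fun x => (hb x).trans (by nlinarith), fun x y => ?_⟩
  have hn := Real.rpow_nonneg (dist_nonneg (x := x) (y := y)) α
  rcases le_or_gt (r / L) (dist x y) with hd | hd
  · have a1 := le_rpow_of_le (by positivity) (by rw [div_le_one G.pos]; linarith) hd h0 h1
    have a2 : 2 ≤ 2 * L / r * dist x y ^ α := by
      rw [div_le_iff₀ G.pos] at a1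
      rw [div_mul_eq_mul_div, le_div_iff₀ hr]; nlinarith
    nlinarith [norm_sub_le (f x) (f y), hb x, hb y]
  · obtain ⟨z, hz, rfl⟩ := G.nb0 (by linarith) hd
    have a1 := (h y).2 z hz _ (mem_ball_self hr)
    have a2 := G.lo y z (ball_subset_ball (by linarith) hz) _ (mem_ball_self (by norm_num))
    rw [loc_pt] at a1
    rw [symm_pt] at a2
    have a3 := (Real.rpow_le_rpow (norm_nonneg _) a2 h0).trans
      (mul_rpow_le (by linarith) dist_nonneg h1)
    calc _ ≤ A * (L * dist ((ch y).symm z) y ^ α) := a1.trans (by gcongr)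
      _ ≤ A * (2 * L / r * dist ((ch y).symm z) y ^ α) := by gcongr
      _ = _ := by ring

theorem bl_iff : BL A f ↔ HM 1 A f := by simp only [BL, HM, Real.rpow_one]

end V

end Vale.Agent.P366M
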