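import Vale.Agent.P366M.End2
import Vale.Agent.P366M.Ug

/-!
# P366M: Lipschitz functions and the cut-off function
-/

open MeasureTheory Metric Filter Topology Set
open scoped ContDiff NNReal
open Vale.Agent.P366 Vale.Agent.P366.Stmt Vale.Agent.P366Z

noncomputable section

namespace Vale.Agent.P366M

variable {n : ℕ} {M : Type} [Mfs n M] {j : Nd M} {x : M} {y z : E n} {e : Ch n M}
  {g T : Fld n M} {f h u v U : M → ℝ} {ρ : ℝ}

/-! ### the derivative in the charts of the neighbours -/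

theorem nat1_fderiv : Nat1 fun (τ : E n → E n) y => fderiv ℝ τ y where
  sm _ _ h _ := h.fderiv_right (by norm_cast)
  id := ⟨ContinuousLinearMap.id ℝ _, fun _ _ h => by rw [h.fderiv_eq]; exact fderiv_fun_id⟩

section V

variable {V : Type} [NormedAddCommGroup V] [NormedSpace ℝ V] {F : M → V}

/-- the derivative in the chart of a neighbour is comparable with `fd` -/
theorem fd_ball (M : Type) [Mfs n M] : ∃ C, 1 ≤ C ∧ ∀ (V : Type) [NormedAddCommGroup V]
    [NormedSpace ℝ V] (F : M → V) (x : M), ∀ y ∈ ball (pt x) 4, DAt F ((ch x).symm y) →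
      ‖fderiv ℝ (loc (ch x) F) y‖ ≤ C * ‖fd F ((ch x).symm y)‖ ∧
        ‖fd F ((ch x).symm y)‖ ≤ C * ‖fderiv ℝ (loc (ch x) F) y‖ := by
  obtain ⟨C, -, hC⟩ := unif_tm M (nat1_fderiv (n := n))
  refine ⟨max C 1, le_max_right _ _, fun V _ _ F x y hy hF => ⟨?_, ?_⟩⟩
  · have h1 := mem_ch ((ch x).symm y)
    rw [(loc_tm F (ch_mem x) h1).fderiv_eq,
      fderiv_fun_comp y (show DifferentiableAt ℝ (loc (ch ((ch x).symm y)) F)
        (tm (ch x) (ch ((ch x).symm y)) y) from hF) (tm_diff (ch_mem x) (ch_mem _) h1), mul_comm]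
    exact (ContinuousLinearMap.opNorm_comp_le _ _).trans (mul_le_mul_of_nonneg_left
      (((hC x _).1 y (mem_ov hy)).trans (le_max_left _ _)) (norm_nonneg _))
  · set p := (ch x).symm y with hp
    have h1 : (ch p).symm (pt p) ∈ (ch x).source := by
      rw [symm_pt]; exact symm_mem (ch_mem x) y
    have h2 : tm (ch p) (ch x) (pt p) = y := tm_ch (ch_mem x) y
    have h3 : DifferentiableAt ℝ (loc (ch x) F) (tm (ch p) (ch x) (pt p)) := by
      rw [h2]; exact hF.lc (ch_mem x)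
    unfold fd
    rw [(loc_tm F (ch_mem p) h1).fderiv_eq,
      fderiv_fun_comp (pt p) h3 (tm_diff (ch_mem p) (ch_mem x) h1), h2, mul_comm]
    exact (ContinuousLinearMap.opNorm_comp_le _ _).trans (mul_le_mul_of_nonneg_left
      (((hC p x).1 _ ⟨mem_ball_self (by norm_num), y, hy, by rw [symm_pt]⟩).trans
        (le_max_left _ _)) (norm_nonneg _))

/-- the mean value inequality in small balls -/
theorem mvt_ball (M : Type) [Mfs n M] : ∃ C, 1 ≤ C ∧ ∀ (V : Type) [NormedAddCommGroup V]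
    [NormedSpace ℝ V] (F : M → V) (K r : ℝ) (x : M), r ≤ 1 →
      (∀ z ∈ ball x r, DAt F z ∧ ‖fd F z‖ ≤ K) → ∀ p ∈ ball x (r / C), ∀ q ∈ ball x (r / C),
        ‖F p - F q‖ ≤ C * K * dist p q := by
  obtain ⟨L, G⟩ := exists_geo M
  obtain ⟨C, hC1, hC⟩ := fd_ball M
  have hL := G.four
  refine ⟨C * L ^ 2, by nlinarith, fun V _ _ F K r x hr hF p hp q hq => ?_⟩
  have hr0 : 0 < r := by
    have := (dist_nonneg.trans_lt (mem_ball.1 hp))
    exact (div_pos_iff_of_pos_right (by positivity)).1 this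
  have h1 : r / (C * L ^ 2) ≤ r / L / L := by
    rw [div_div]
    exact div_le_div_of_nonneg_left hr0.le (by positivity) (by nlinarith)
  have h2 : r / L ≤ 4 := by rw [div_le_iff₀ G.pos]; linarith
  obtain ⟨a, ha, rfl⟩ := G.nb0 h2 ((mem_ball.1 hp).trans_le h1)
  obtain ⟨b, hb, rfl⟩ := G.nb0 h2 ((mem_ball.1 hq).trans_le h1)
  have h3 : ∀ w ∈ ball (pt x) (r / L), (ch x).symm w ∈ ball x r := fun w hw => by
    have := G.dist_le (ball_subset_ball h2 hw)
    have h4 := mem_ball_iff_norm.1 hw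
    rw [lt_div_iff₀ G.pos] at h4
    rw [mem_ball]; linarith
  have hK : 0 ≤ K := (norm_nonneg _).trans (hF x (mem_ball_self hr0)).2
  have h5 := (convex_ball (pt x) (r / L)).norm_image_sub_le_of_norm_fderiv_le
    (f := loc (ch x) F) (C := C * K) (fun w hw => (hF _ (h3 w hw)).1.lc (ch_mem x))
    (fun w hw => (hC V F x w (ball_subset_ball h2 hw) (hF _ (h3 w hw)).1).1.trans
      (mul_le_mul_of_nonneg_left (hF _ (h3 w hw)).2 (by linarith))) hb ha
  have h6 := G.lo x a (ball_subset_ball h2 ha) b (ball_subset_ball h2 hb)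
  refine h5.trans ?_
  calc C * K * ‖a - b‖ ≤ C * K * (L ^ 2 * dist ((ch x).symm a) ((ch x).symm b)) := by
        gcongr
        exact h6.trans (mul_le_mul_of_nonneg_right (by nlinarith) dist_nonneg)
    _ = _ := by ring

/-- bounded functions with bounded derivatives are Lipschitz -/
theorem lip_const_fd (M : Type) [Mfs n M] : ∃ C, 1 ≤ C ∧ ∀ (V : Type) [NormedAddCommGroup V]
    [NormedSpace ℝ V] (F : M → V) (A K : ℝ), (∀ x, DAt F x ∧ ‖F x‖ ≤ A ∧ ‖fd F x‖ ≤ K) →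
      ∀ p q, ‖F p - F q‖ ≤ C * (A + K) * dist p q := by
  obtain ⟨C, hC1, hC⟩ := mvt_ball M
  refine ⟨2 * C, by linarith, fun V _ _ F A K hF p q => ?_⟩
  have hA : 0 ≤ A := (norm_nonneg _).trans (hF p).2.1
  have hK : 0 ≤ K := (norm_nonneg _).trans (hF p).2.2
  have hd := dist_nonneg (x := p) (y := q)
  rcases lt_or_ge (dist p q) (1 / C) with h | h
  · refine (hC V F K 1 q le_rfl (fun z _ => ⟨(hF z).1, (hF z).2.2⟩) p h q
      (mem_ball_self (by positivity))).trans ?_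
    gcongr <;> nlinarith
  · rw [div_le_iff₀ (by linarith)] at h
    have := norm_sub_le (F p) (F q)
    nlinarith [(hF p).2.1, (hF q).2.1, mul_nonneg hK hd]

theorem bl_of_fd (M : Type) [Mfs n M] : ∃ C, 1 ≤ C ∧ ∀ (V : Type) [NormedAddCommGroup V]
    [NormedSpace ℝ V] (F : M → V) (A : ℝ), (∀ x, DAt F x ∧ ‖F x‖ ≤ A ∧ ‖fd F x‖ ≤ A) →
      BL (C * A) F := by
  obtain ⟨C, hC1, hC⟩ := lip_const_fd M
  refine ⟨2 * C, by linarith, fun V _ _ F A hF => ⟨fun x => ?_, fun p q =>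
    (hC V F A A hF p q).trans (le_of_eq (by ring))⟩⟩
  nlinarith [(hF x).2.1, norm_nonneg (F x)]

omit [NormedSpace ℝ V] in
theorem Geo.lip_loc {L K : ℝ} (G : Geo M L) (hF : ∀ p q, ‖F p - F q‖ ≤ K * dist p q)
    (hK : 0 ≤ K) (x : M) : LipschitzOnWith (K * L).toNNReal (loc (ch x) F) (ball (pt x) 4) :=
  LipschitzOnWith.of_dist_le' fun y hy z hz => by
    rw [dist_eq_norm, dist_eq_norm, mul_assoc]
    exact (hF _ _).trans (mul_le_mul_of_nonneg_left (G.hi x y hy z hz) hK)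

/-- the derivative of a Lipschitz function -/
theorem Geo.fd_le {L K : ℝ} (G : Geo M L) (hF : ∀ p q, ‖F p - F q‖ ≤ K * dist p q)
    (hK : 0 ≤ K) (x : M) : ‖fd F x‖ ≤ K * L := by
  have := norm_fderiv_le_of_lipschitzOn ℝ (ball_mem_nhds (pt x) (by norm_num)) (G.lip_loc hF hK x)
  rwa [Real.coe_toNNReal _ (mul_nonneg hK G.pos.le)] at this

omit [NormedSpace ℝ V] in
theorem llip_of_ll (hF : LocallyLipschitz F) : LLip F := llip_of fun x => by
  obtain ⟨K, t, ht, h⟩ := (hF.comp (Mfs.lip x)) (pt x)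
  exact ⟨_, ch_mem x, mem_ch x, K, t, ht, h⟩

omit [NormedSpace ℝ V] in
theorem LLip.ll (hF : LLip F) : LocallyLipschitz F := fun x => by
  obtain ⟨K, t, ht, h⟩ := hF _ (ch_mem x) (pt x)
  obtain ⟨K', t', ht', h'⟩ := Mfs.lip' x x (mem_ch x)
  refine ⟨K * K', t' ∩ ((ch x).source ∩ ch x ⁻¹' t), inter_mem ht' (inter_mem
    (chart_source_mem_nhds _ x) ((ch x).continuousAt (mem_ch x) ht)), ?_⟩
  intro p hp q hq
  have := (h.comp (h'.mono inter_subset_left) fun p (hp : p ∈ t' ∩ ((ch x).source ∩ ch x ⁻¹' t)) =>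
    hp.2.2) hp hq
  simpa only [Function.comp, loc, (ch x).left_inv hp.2.1, (ch x).left_inv hq.2.1] using this

end V

theorem Geo.pd_le {L K : ℝ} (G : Geo M L) (hu : ∀ p q, |u p - u q| ≤ K * dist p q)
    (hK : 0 ≤ K) (x : M) (i : Fin n) : |pd i u x| ≤ K * L := by
  have := norm_lineDeriv_le_of_lipschitzOn ℝ (v := EuclideanSpace.single i (1 : ℝ))
    (ball_mem_nhds (pt x) (by norm_num)) (G.lip_loc (F := u) hu hK x)
  rw [Real.coe_toNNReal _ (mul_nonneg hK G.pos.le)] at this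
  simp only [PiLp.norm_single, norm_one, mul_one, Real.norm_eq_abs] at this
  exact this

theorem fd_px_bd (M : Type) [Mfs n M] : ∃ C, 0 < C ∧ ∀ x : M, ‖fd px x‖ ≤ C := by
  obtain ⟨L, G⟩ := exists_geo M
  exact ⟨1 * L, by linarith [G.pos], G.fd_le (fun p q => by rw [one_mul]; exact px_le p q)
    zero_le_one⟩

/-! ### Lipschitz functions -/

theorem Lip.cont (hu : Lip u) : Continuous u := hu.choose_spec.continuous

theorem Lip.llip (hu : Lip u) : LLip u := llip_of_ll hu.choose_spec.locallyLipschitz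

theorem lip_const (c : ℝ) : Lip fun _ : M => c := ⟨0, LipschitzWith.const c⟩

theorem lip_px {F : E n → ℝ} (hF : P366Z.Lip F) : Lip fun x : M => F (px x) :=
  ⟨_, hF.choose_spec.comp lipW_px⟩

theorem lip_norm : Lip fun x : M => ‖px x‖ := lip_px P366Z.lip_norm

theorem lip_dist (p : M) : Lip fun x : M => dist x p := ⟨1, LipschitzWith.dist_left p⟩

theorem Lip.add (hu : Lip u) (hv : Lip v) : Lip fun x => u x + v x :=
  ⟨_, hu.choose_spec.add hv.choose_spec⟩

theorem Lip.sub (hu : Lip u) (hv : Lip v) : Lip fun x => u x - v x :=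
  ⟨_, hu.choose_spec.sub hv.choose_spec⟩

theorem Lip.neg (hu : Lip u) : Lip fun x => -u x := ⟨_, hu.choose_spec.neg⟩

theorem Lip.max (hu : Lip u) (hv : Lip v) : Lip fun x => max (u x) (v x) :=
  ⟨_, hu.choose_spec.max hv.choose_spec⟩

theorem Lip.min (hu : Lip u) (hv : Lip v) : Lip fun x => min (u x) (v x) :=
  ⟨_, hu.choose_spec.min hv.choose_spec⟩

theorem Lip.comp (hu : Lip u) {F : ℝ → ℝ} {K : ℝ≥0} (hF : LipschitzWith K F) :
    Lip fun x => F (u x) := ⟨_, hF.comp hu.choose_spec⟩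

theorem lip_of_le {K : ℝ} (e : ∀ x y, |u x - u y| ≤ K * dist x y) : Lip u :=
  ⟨K.toNNReal, LipschitzWith.of_dist_le' fun x y => by rw [Real.dist_eq]; exact e x y⟩

theorem Lip.le (hu : Lip u) : ∃ K, 0 < K ∧ ∀ x y, |u x - u y| ≤ K * dist x y := by
  obtain ⟨K, hK⟩ := hu
  refine ⟨K + 1, by positivity, fun x y => ?_⟩
  have := hK.dist_le_mul x y
  rw [Real.dist_eq] at this
  nlinarith [dist_nonneg (x := x) (y := y)]

theorem Lip.const_mul (hu : Lip u) (c : ℝ) : Lip fun x => c * u x := by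
  obtain ⟨K, -, hK⟩ := hu.le
  refine lip_of_le (K := |c| * K) fun x y => ?_
  rw [← mul_sub, abs_mul, mul_assoc]
  exact mul_le_mul_of_nonneg_left (hK x y) (abs_nonneg _)

theorem Lip.div_const (hu : Lip u) (c : ℝ) : Lip fun x => u x / c := by
  simpa only [div_eq_inv_mul] using hu.const_mul c⁻¹

theorem Lip.mul (hu : Lip u) (hv : Lip v) {A B : ℝ} (hA : ∀ x, |u x| ≤ A) (hB : ∀ x, |v x| ≤ B) :
    Lip fun x => u x * v x := by
  obtain ⟨K, -, hK⟩ := hu.le
  obtain ⟨L, -, hL⟩ := hv.le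
  refine lip_of_le (K := A * L + K * B) fun x y => ?_
  have e : u x * v x - u y * v y = u x * (v x - v y) + (u x - u y) * v y := by ring
  rw [e]
  refine (abs_add_le _ _).trans ?_
  rw [abs_mul, abs_mul]
  have h1 := mul_le_mul (hA x) (hL x y) (abs_nonneg _) ((abs_nonneg _).trans (hA x))
  have h2 := mul_le_mul (hK x y) (hB y) (abs_nonneg _) ((abs_nonneg _).trans (hK x y))
  linarith

/-- a `C¹` function of a bounded Lipschitz function -/
theorem Lip.comp_c1 (hu : Lip u) {A : ℝ} (hA : ∀ x, |u x| ≤ A) {F : ℝ → ℝ}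
    (hF : ContDiff ℝ 1 F) : Lip fun x => F (u x) := by
  obtain ⟨L, hL⟩ := (isCompact_Icc (a := -A) (b := A)).exists_bound_of_continuousOn
    (hF.continuous_deriv le_rfl).continuousOn
  obtain ⟨K, -, hK⟩ := hu.le
  refine lip_of_le (K := L * K) fun x y => ?_
  have h1 := (convex_Icc (-A) A).norm_image_sub_le_of_norm_deriv_le
    (fun z _ => hF.differentiable (by norm_num) z) hL (abs_le.1 (hA y)) (abs_le.1 (hA x))
  rw [mul_assoc]
  exact h1.trans (mul_le_mul_of_nonneg_left (hK x y)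
    ((norm_nonneg _).trans (hL _ (abs_le.1 (hA x)))))

/-- on a manifold the function must be bounded -/
theorem lip_of_fderiv (hu : ∀ x, DAt u x) {A K : ℝ} (hA : ∀ x, |u x| ≤ A)
    (hK : ∀ x, ‖fd u x‖ ≤ K) : Lip u :=
  let ⟨_, _, h⟩ := lip_const_fd M
  lip_of_le (h ℝ u A K fun x => ⟨hu x, hA x, hK x⟩)

theorem supp_of_out {V : Type*} [Zero V] {F : M → V} {R : ℝ} (e : ∀ y, R ≤ ‖px y‖ → F y = 0) :
    HasCompactSupport F :=
  HasCompactSupport.intro (isCompact_px M R) fun y hy => e y (not_le.1 fun k => hy k).le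

theorem out_of_supp {V : Type*} [Zero V] {F : M → V} (hc : HasCompactSupport F) :
    ∃ R, 0 < R ∧ ∀ y, R ≤ ‖px y‖ → F y = 0 := by
  obtain ⟨R, hR0, hR⟩ := bdd_px hc
  refine ⟨R + 1, by positivity, fun y hy => ?_⟩
  by_contra h0
  linarith [hR y (subset_tsupport _ h0)]

theorem ev_of_out {α : Type} {F : M → α} {R : ℝ} {c : α} (e : ∀ y, R ≤ ‖px y‖ → F y = c)
    (hx : R < ‖px x‖) : F =ᶠ[𝓝 x] fun _ => c := (ev_lt_px hx).mono fun z hz => e z hz.le

/-- a locally Lipschitz function which is constant far out is Lipschitz -/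
theorem LLip.lip (hu : LLip u) {R c : ℝ} (e : ∀ y, R < ‖px y‖ → u y = c) : Lip u := by
  obtain ⟨K, hK⟩ := hu.ll.locallyLipschitzOn.exists_lipschitzOnWith_of_compact
    (isCompact_px M (R + 1))
  obtain ⟨A, hA0, hA⟩ := bdd_of_out (hu.cont.sub continuous_const (g := fun _ => c)) (R := R)
    (C := 0) fun y hy => by simp [e y hy]
  have k : ∀ x y : M, R + 1 < ‖px y‖ → |u x - u y| ≤ (K + A) * dist x y := fun x y hy => by
    rw [e y (by linarith)]
    by_cases hx : R < ‖px x‖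
    · rw [e x hx, sub_self, abs_zero]; positivity
    · have h1 := norm_sub_norm_le (px y) (px x)
      have h2 : |u x - c| ≤ A := hA x
      have h3 := px_le y x
      rw [dist_comm] at h3
      nlinarith [K.2, dist_nonneg (x := x) (y := y)]
  refine lip_of_le (K := K + A) fun x y => ?_
  by_cases hy : R + 1 < ‖px y‖
  · exact k x y hy
  by_cases hx : R + 1 < ‖px x‖
  · rw [abs_sub_comm, dist_comm]; exact k y x hx
  have := hK.dist_le_mul x (not_lt.1 hx) y (not_lt.1 hy)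
  rw [Real.dist_eq] at this
  nlinarith [dist_nonneg (x := x) (y := y)]

theorem LLip.lip_of_supp (hu : LLip u) (hc : HasCompactSupport u) : Lip u :=
  let ⟨_, _, e⟩ := out_of_supp hc
  hu.lip fun y hy => e y hy.le

theorem lip_of_supp (hu : CD 1 u) (hc : HasCompactSupport u) : Lip u := hu.llip.lip_of_supp hc

theorem lip_of_const (hu : Smooth u) {R c : ℝ} (e : ∀ y, R < ‖px y‖ → u y = c) : Lip u :=
  hu.llip.lip e

theorem Lip.fd_bd (hu : Lip u) : ∃ K, 0 < K ∧ ∀ x, ‖fd u x‖ ≤ K := by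
  obtain ⟨K, hK, h⟩ := hu.le
  obtain ⟨L, G⟩ := exists_geo M
  exact ⟨K * L, mul_pos hK G.pos, G.fd_le h hK.le⟩

theorem Lip.pd_bd (hu : Lip u) : ∃ K, 0 < K ∧ ∀ x i, |pd i u x| ≤ K := by
  obtain ⟨K, hK, h⟩ := hu.le
  obtain ⟨L, G⟩ := exists_geo M
  exact ⟨K * L, mul_pos hK G.pos, G.pd_le h hK.le⟩

theorem Lip.gn_bd (hu : Lip u) (hg : Met g) (hf : Flat g ρ) : ∃ K, 0 < K ∧ ∀ x, gn g u x ≤ K := by
  obtain ⟨K, hK, h1⟩ := hu.pd_bd
  obtain ⟨Λ, hΛ⟩ := hg.ell hf
  refine ⟨√(Λ * (n * K ^ 2)) + 1, by positivity, fun x => ?_⟩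
  refine le_trans (Real.sqrt_le_sqrt ((hΛ.up_hi x _).trans ?_)) (le_add_of_nonneg_right zero_le_one)
  refine mul_le_mul_of_nonneg_left ?_ (zero_le_one.trans hΛ.one)
  refine (Finset.sum_le_sum fun i _ => sq_le_sq' (abs_le.1 (h1 x i)).1 (abs_le.1 (h1 x i)).2).trans ?_
  simp

theorem pd_zero_of_out {R c : ℝ} (e : ∀ y, R ≤ ‖px y‖ → u y = c) (hx : R < ‖px x‖) (i : Fin n) :
    pd i u x = 0 := pd_zero_of_ev (ev_of_out e hx) i

theorem Lip.ae_diff (hu : Lip u) : ∀ᵐ x, DAt u x := hu.llip.ae_diff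

theorem Lip.ae_pd_eq (hu : Lip u) (hv : Lip v) :
    ∀ᵐ x, u x = v x → ∀ i, pd i u x = pd i v x := hu.llip.ae_pd_eq hv.llip

theorem Lip.ae_pd_zero (hu : Lip u) (c : ℝ) : ∀ᵐ x, u x = c → ∀ i, pd i u x = 0 :=
  hu.llip.ae_pd_zero c

theorem Lip.ae_pd_max (hu : Lip u) (hv : Lip v) : ∀ᵐ x, ∀ i,
    pd i (fun y => Max.max (u y) (v y)) x = if v x ≤ u x then pd i u x else pd i v x :=
  hu.llip.ae_pd_max hv.llip

theorem Lip.ae_pd_min (hu : Lip u) (hv : Lip v) : ∀ᵐ x, ∀ i,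
    pd i (fun y => Min.min (u y) (v y)) x = if v x ≤ u x then pd i v x else pd i u x :=
  hu.llip.ae_pd_min hv.llip

theorem Lip.ae_gn_max (hu : Lip u) (hv : Lip v) (g : Fld n M) : ∀ᵐ x,
    gn g (fun y => Max.max (u y) (v y)) x = if v x ≤ u x then gn g u x else gn g v x :=
  hu.llip.ae_gn_max hv.llip g

theorem Lip.ae_gn_min (hu : Lip u) (hv : Lip v) (g : Fld n M) : ∀ᵐ x,
    gn g (fun y => Min.min (u y) (v y)) x = if v x ≤ u x then gn g v x else gn g u x :=
  hu.llip.ae_gn_min hv.llip g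

theorem Lip.ae_gn_zero (hu : Lip u) (g : Fld n M) (c : ℝ) : ∀ᵐ x, u x = c → gn g u x = 0 :=
  hu.llip.ae_gn_zero g c

/-! ### integrability -/

/-- a continuous function times a bounded measurable function with bounded support -/
theorem integrable_of_bd (hf : Continuous f) (hh : AEMeasurable h) {K R : ℝ}
    (hK : ∀ x, |h x| ≤ K) (e : ∀ x, R < ‖px x‖ → h x = 0) : Integrable fun x => f x * h x :=
  integrable_cpt (isCompact_px M R) hf hh (Eventually.of_forall fun x _ => hK x) fun x hx => by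
    rw [e x (not_le.1 fun k => hx k), mul_zero]

theorem LLip.integrable_gn_out (hu : LLip u) (hg : Met g) {R c : ℝ}
    (e : ∀ y, R ≤ ‖px y‖ → u y = c) (hf : Continuous f) : Integrable fun x => f x * gn g u x :=
  hu.integrable_gn hg (isCompact_px M R) hf fun x hx => by
    rw [gn_zero (pd_zero_of_out e (not_le.1 fun k => hx k)), mul_zero]

theorem LLip.integrable_ip_out (hu : LLip u) (hv : LLip v) (hg : Met g) {R c : ℝ}
    (e : ∀ y, R ≤ ‖px y‖ → u y = c) (hf : Continuous f) : Integrable fun x => f x * ip g u v x :=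
  hu.integrable_ip hv hg (isCompact_px M R) hf fun x hx => by
    rw [ip_congr (ev_of_out e (not_le.1 fun k => hx k)) EventuallyEq.rfl, ip_const_left, mul_zero]

theorem LLip.integrable_dot_out (hu : LLip u) {X : Fin n → M → ℝ} (hX : CV 0 X) {R c : ℝ}
    (e : ∀ y, R ≤ ‖px y‖ → u y = c) (hf : Continuous f) :
    Integrable fun x => f x * ∑ i, pd i u x * X i x :=
  hu.integrable_dot hX (isCompact_px M R) hf fun x hx => by
    simp [pd_zero_of_out e (not_le.1 fun k => hx k)]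

theorem Lip.integrable_gn (hu : Lip u) (hg : Met g) (_ : Flat g ρ) {R c : ℝ}
    (e : ∀ y, R ≤ ‖px y‖ → u y = c) (hf : Continuous f) : Integrable fun x => f x * gn g u x :=
  hu.llip.integrable_gn_out hg e hf

theorem integrable_of_out (hf : Continuous f) {R : ℝ} (e : ∀ y, R ≤ ‖px y‖ → f y = 0) :
    Integrable f := hf.integrable_of_hasCompactSupport (supp_of_out e)

theorem isOpen_bl (r : ℝ) : IsOpen (bl M r) := isOpen_lt cont_npx continuous_const

theorem meas_bl (r : ℝ) : MeasurableSet (bl M r) := (isOpen_bl r).measurableSet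

theorem meas_le_px (r : ℝ) : MeasurableSet {x : M | r ≤ ‖px x‖} :=
  (isClosed_le continuous_const cont_npx).measurableSet

theorem meas_px_le (r : ℝ) : MeasurableSet {x : M | ‖px x‖ ≤ r} :=
  (isClosed_le cont_npx continuous_const).measurableSet

theorem volume_px_le (r : ℝ) : volume {x : M | ‖px x‖ ≤ r} < ⊤ := (isCompact_px M r).measure_lt_top

theorem volume_bl (r : ℝ) : volume (bl M r) < ⊤ :=
  (measure_mono fun x (hx : ‖px x‖ < r) => show ‖px x‖ ≤ r from hx.le).trans_lt (volume_px_le r)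

/-! ### the cut-off function -/

theorem sm_cut (r : ℝ) : Smooth (cut r : M → ℝ) := smooth_px (P366Z.sm_cut r)

theorem cut_nonneg (r : ℝ) (x : M) : 0 ≤ cut r x := P366Z.cut_nonneg r _

theorem cut_le_one (r : ℝ) (x : M) : cut r x ≤ 1 := P366Z.cut_le_one r _

theorem cut_one {r : ℝ} (hx : ‖px x‖ ≤ r) : cut r x = 1 := P366Z.cut_one hx

theorem cut_zero {r : ℝ} (hr : 0 < r) (hx : 2 * r ≤ ‖px x‖) : cut r x = 0 := P366Z.cut_zero hr hx

theorem supp_cut {r : ℝ} (hr : 0 < r) : HasCompactSupport (cut r : M → ℝ) :=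
  supp_of_out fun _ hy => cut_zero hr hy

theorem lip_cut {r : ℝ} (hr : 0 < r) : Lip (cut r : M → ℝ) := lip_px (P366Z.lip_cut hr)

theorem fderiv_cut (M : Type) [Mfs n M] : ∃ C, 0 < C ∧ ∀ r, 0 < r → ∀ x : M,
    ‖fd (cut r) x‖ ≤ C / r := by
  obtain ⟨C, hC, h⟩ := P366Z.fderiv_cut n
  obtain ⟨C', hC', h'⟩ := fd_px_bd M
  refine ⟨C * C', by positivity, fun r hr x => ?_⟩
  have := fd_comp (φ := P366Z.cut r) (f := px) (x := x) ((P366Z.sm_cut r).diff _)
    (sm_px.differentiable (by simp) x)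
  rw [show (cut r : M → ℝ) = fun x => P366Z.cut r (px x) from rfl, this, mul_div_right_comm]
  exact (ContinuousLinearMap.opNorm_comp_le _ _).trans
    (mul_le_mul (h r hr _) (h' x) (norm_nonneg _) (by positivity))

theorem cut_ev_in {r : ℝ} (hx : ‖px x‖ < r) : cut r =ᶠ[𝓝 x] fun _ => (1 : ℝ) :=
  (ev_px_lt hx).mono fun _ hz => cut_one hz.le

theorem cut_ev_out {r : ℝ} (hr : 0 < r) (hx : 2 * r < ‖px x‖) : cut r =ᶠ[𝓝 x] fun _ => (0 : ℝ) :=
  ev_of_out (fun _ hy => cut_zero hr hy) hx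

theorem pd_cut_in {r : ℝ} (hx : ‖px x‖ < r) (i : Fin n) : pd i (cut r) x = 0 :=
  pd_zero_of_ev (cut_ev_in hx) i

theorem pd_cut_out {r : ℝ} (hr : 0 < r) (hx : 2 * r < ‖px x‖) (i : Fin n) :
    pd i (cut r) x = 0 := pd_zero_of_ev (cut_ev_out hr hx) i

theorem cut_tendsto (x : M) : Tendsto (fun r => cut r x) atTop (𝓝 1) := P366Z.cut_tendsto _

theorem cut_ye {r : ℝ} (h : R0 M - 6 ≤ ‖y‖) : cut r (ye j y) = P366Z.cut r y := by
  unfold cut; rw [px_ye h]

/-- the gradient of the cut-off function -/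
theorem gn_cut (hg : Met g) (hf : Flat g ρ) : ∃ C, 0 < C ∧ ∀ r, 0 < r → ∀ x : M,
    gn g (cut r) x ≤ C / r := by
  obtain ⟨C, hC, h⟩ := fderiv_cut M
  obtain ⟨Λ, hΛ⟩ := hg.ell hf
  have := hΛ.one
  refine ⟨Λ * C, by positivity, fun r hr x => (hΛ.gn_le ((sm_cut r).diff x)).trans ?_⟩
  rw [mul_div_assoc]
  exact mul_le_mul_of_nonneg_left (h r hr x) (by linarith)

end Vale.Agent.P366M
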