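import Vale.Agent.P366M.Max2
import Vale.Agent.P366M.End3
import Mathlib.Topology.UniformSpace.Dini

/-!
# P366M: a solution between a subsolution and a supersolution
-/

open Metric Filter Topology Set
open scoped ContDiff
open Vale.Agent.P366 Vale.Agent.P366.Stmt Vale.Agent.P366Z

noncomputable section

namespace Vale.Agent.P366M

/-- **SUBS**: a solution of a linear equation with a source between a subsolution and a
supersolution -/
def SUBS : Prop := ∀ (n : ℕ) (M : Type) [Mfs n M] (g : Fld n M) (ρ : ℝ) (U V k u₁ u₂ : M → ℝ),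
  0 < n → Met g → Flat g ρ → Wt g U → Smooth V → (∃ A, BL A V) → Smooth k → (∃ A, BL A k) →
  CD 2 u₁ → CD 2 u₂ → (∃ A, ∀ x, |u₁ x| ≤ A) → (∃ A, BL A u₂) → (∀ x, u₁ x ≤ u₂ x) →
  (∀ x, U x ^ 2 * (V x * u₁ x + k x) ≤ wl g U u₁ x) →
  (∀ x, wl g U u₂ x ≤ U x ^ 2 * (V x * u₂ x + k x)) →
  ∃ u, Smooth u ∧ (∃ A, BL A u) ∧ (∀ x, u₁ x ≤ u x ∧ u x ≤ u₂ x) ∧
    ∀ x, wl g U u x = U x ^ 2 * (V x * u x + k x)

/-- **SUB**: the same without a source -/
def SUB : Prop := ∀ (n : ℕ) (M : Type) [Mfs n M] (g : Fld n M) (ρ : ℝ) (U V u₁ u₂ : M → ℝ), 3 ≤ n →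
  Met g → Flat g ρ → Wt g U → Smooth V → (∃ A, BL A V) → Smooth u₁ → Smooth u₂ → (∃ A, BL A u₁) →
  (∃ A, BL A u₂) → (∀ x, u₁ x ≤ u₂ x) → (∀ x, U x ^ 2 * (V x * u₁ x) ≤ wl g U u₁ x) →
  (∀ x, wl g U u₂ x ≤ U x ^ 2 * (V x * u₂ x)) →
  ∃ u, Smooth u ∧ (∀ x, u₁ x ≤ u x ∧ u x ≤ u₂ x) ∧ ∀ x, wl g U u x = U x ^ 2 * (V x * u x)

/-- **RESS**: the resolvent in the form which is needed for `SUBS` -/
def RESS : Prop := ∀ (n : ℕ) (M : Type) [Mfs n M] (g : Fld n M) (ρ : ℝ) (U : M → ℝ), 0 < n → Met g →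
  Flat g ρ → Wt g U → ∃ l₀ : ℝ, ∀ l ≥ l₀, ∀ (A : ℝ) (f : M → ℝ), BL A f →
    ∃ w : M → ℝ, CD 2 w ∧ (∃ B, ∀ x, |w x| ≤ B) ∧ (∀ Φ : M × ℝ → ℝ,
      (∀ e ∈ At M, ContDiff ℝ ∞ fun p : E n × ℝ => Φ (e.symm p.1, p.2)) →
        (∀ x, wl g U w x = Φ (x, w x)) → Smooth w) ∧
      ∀ x, l * U x ^ 2 * w x - wl g U w x = U x ^ 2 * f x

variable {n : ℕ} {M : Type} [Mfs n M] {g : Fld n M} {ρ : ℝ} {U : M → ℝ}

section BL

variable {V : Type} [NormedAddCommGroup V] {K K' : ℝ} {F G : M → V}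

theorem BL.nonneg (h : BL K F) : 0 ≤ K := (norm_nonneg _).trans (h.1 (Classical.arbitrary M))

theorem BL.mono (h : BL K F) (e : K ≤ K') : BL K' F := ⟨fun x => (h.1 x).trans e,
  fun x y => (h.2 x y).trans (mul_le_mul_of_nonneg_right e dist_nonneg)⟩

theorem bl_const (c : V) : BL ‖c‖ fun _ : M => c := ⟨fun _ => le_rfl, fun x y => by
  rw [sub_self, norm_zero]; positivity⟩

theorem BL.add (h : BL K F) (k : BL K' G) : BL (K + K') fun x => F x + G x :=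
  ⟨fun x => (norm_add_le _ _).trans (add_le_add (h.1 x) (k.1 x)), fun x y => by
    rw [add_sub_add_comm, add_mul]
    exact (norm_add_le _ _).trans (add_le_add (h.2 x y) (k.2 x y))⟩

theorem BL.neg (h : BL K F) : BL K fun x => -F x :=
  ⟨fun x => by rw [norm_neg]; exact h.1 x, fun x y => by
    rw [neg_sub_neg, norm_sub_rev]; exact h.2 x y⟩

theorem BL.sub (h : BL K F) (k : BL K' G) : BL (K + K') fun x => F x - G x := by
  simpa only [sub_eq_add_neg] using h.add k.neg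

theorem BL.cont (h : BL K F) : Continuous F :=
  (LipschitzWith.of_dist_le_mul (K := ⟨K, h.nonneg⟩) fun x y => by
    rw [dist_eq_norm]; exact h.2 x y).continuous

variable [NormedSpace ℝ V]

theorem BL.smul {f : M → ℝ} (h : BL K f) (k : BL K' G) : BL (2 * K * K') fun x => f x • G x := by
  have k0 := h.nonneg
  have k1 := k.nonneg
  refine ⟨fun x => ?_, fun x y => ?_⟩
  · rw [norm_smul]
    nlinarith [mul_le_mul (h.1 x) (k.1 x) (norm_nonneg _) k0, mul_nonneg k0 k1]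
  · have e : f x • G x - f y • G y = (f x - f y) • G x + f y • (G x - G y) := by module
    have a := mul_le_mul (h.2 x y) (k.1 x) (norm_nonneg _) (by positivity)
    have b := mul_le_mul (h.1 y) (k.2 x y) (norm_nonneg _) k0
    rw [e]
    refine (norm_add_le _ _).trans ?_
    rw [norm_smul, norm_smul]
    linarith

theorem BL.mul {f h : M → ℝ} (a : BL K f) (b : BL K' h) : BL (2 * K * K') fun x => f x * h x :=
  a.smul b

theorem BL.fd_bd (h : BL K F) : ∃ C, ∀ x, ‖fd F x‖ ≤ C :=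
  let ⟨_, G⟩ := exists_geo M
  ⟨_, G.fd_le h.2 h.nonneg⟩

theorem BL.lip {f : M → ℝ} (h : BL K f) : Lip f := lip_of_le h.2

theorem exists_bl (h : ∀ x, DAt F x) {A B : ℝ} (a : ∀ x, ‖F x‖ ≤ A) (b : ∀ x, ‖fd F x‖ ≤ B) :
    ∃ K, BL K F :=
  let ⟨_, _, hC⟩ := bl_of_fd M
  ⟨_, hC V F (max A B) fun x =>
    ⟨h x, (a x).trans (le_max_left _ _), (b x).trans (le_max_right _ _)⟩⟩

theorem bl_of_const {f : M → ℝ} (hf : Smooth f) {R c : ℝ} (e : ∀ y, R < ‖px y‖ → f y = c) :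
    ∃ K, BL K f :=
  let ⟨_, _, h⟩ := bdd_of_const hf e
  exists_bl hf.diff (fun x => (h x).1) fun x => (h x).2

end BL

/-- the comparison principle for bounded functions -/
theorem Wt.cmp (hU : Wt g U) (hg : Met g) (hf : Flat g ρ) {l A A' : ℝ} (hl : 0 < l)
    {v w : M → ℝ} (hv : CD 2 v) (hw : CD 2 w) (bv : ∀ x, |v x| ≤ A) (bw : ∀ x, |w x| ≤ A')
    (h : ∀ x, l * U x ^ 2 * v x - wl g U v x ≤ l * U x ^ 2 * w x - wl g U w x) (x : M) :
    v x ≤ w x :=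
  sub_nonneg.1 (wmb n M g ρ l U (fun y => w y - v y) hg hf hU hl (hw.sub hv)
    ⟨A' + A, fun y => (abs_sub _ _).trans (add_le_add (bw y) (bv y))⟩ (fun y => by
      rw [hg.wl_sub (hU.sm.diff y) hw.contDiffAt hv.contDiffAt]
      linarith [h y]) x)

/-- the resolvent is continuous for the bounded, locally uniform convergence -/
theorem Wt.loc_bd (hU : Wt g U) (hg : Met g) (hf : Flat g ρ) {l e : ℝ} (hl : 0 < l)
    (he : 0 < e) (B : ℝ) (x : M) : ∃ R, ∀ w f : M → ℝ, CD 2 w →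
      (∀ y, w y ≤ B ∧ f y ≤ B ∧ (‖px y‖ ≤ R → f y ≤ e) ∧
        l * U y ^ 2 * w y - wl g U w y ≤ l * U y ^ 2 * f y) → w x ≤ 2 * e := by
  obtain ⟨A, A0, hA⟩ := hU.quad hg hf (half_pos hl)
  have h0 := hU.pos
  obtain ⟨δ, hδ⟩ : ∃ δ, δ = e / (‖px x‖ ^ 2 + A + 1) := ⟨_, rfl⟩
  have δ0 : 0 < δ := by rw [hδ]; positivity
  have h5 : δ * (‖px x‖ ^ 2 + A + 1) = e := by rw [hδ]; exact div_mul_cancel₀ _ (by positivity)
  have hq : Smooth fun y : M => ‖px y‖ ^ 2 + A := CD.add contDiff_normSq cd_const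
  have far : ∀ y : M, 2 * |B| / δ + 1 ≤ ‖px y‖ → 2 * |B| ≤ δ * (‖px y‖ ^ 2 + A) := fun y hy => by
    have k2 : 0 ≤ 2 * |B| / δ := by positivity
    exact (div_le_iff₀' δ0).1 (by nlinarith)
  refine ⟨2 * |B| / δ + 1, fun w f hw h => ?_⟩
  by_contra hx
  have hv : CD 2 fun y => δ * (‖px y‖ ^ 2 + A) + (-1) * w y :=
    (cd_const.mul hq.two).add (cd_const.mul hw)
  obtain ⟨y, hy⟩ := hv.continuous.exists_forall_le' x (ev_cocompact.2
    ⟨2 * |B| / δ + 1, fun y hy => by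
      linarith [far y hy, (h y).1, le_abs_self B, abs_nonneg B]⟩)
  have k1 := hg.wl_nonneg hU.sm (hv.contDiffAt (x := y)) (Eventually.of_forall hy)
  rw [hg.wl_lin (hU.sm.diff y) (hq.c2 y) hw.contDiffAt] at k1
  have k0 : 0 < l * U y ^ 2 := mul_pos hl (pow_pos (h0 y) 2)
  have k2 : f y ≤ δ * (‖px y‖ ^ 2 + A) / 2 + e := by
    rcases le_total ‖px y‖ (2 * |B| / δ + 1) with k | k
    · exact ((h y).2.2.1 k).trans (le_add_of_nonneg_left (by positivity))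
    · linarith [far y k, (h y).2.1, le_abs_self B]
  have k3 : 0 ≤ l * U y ^ 2 * (δ * (‖px y‖ ^ 2 + A) + (-1) * w y + e) := by
    linarith [(h y).2.2.2, mul_le_mul_of_nonneg_left (hA y) δ0.le,
      mul_le_mul_of_nonneg_left k2 k0.le]
  linarith [nonneg_of_mul_nonneg_right k3 k0, hy x]

theorem RESS.subs (hR : RESS) : SUBS := by
  intro n M _ g ρ U V k u₁ u₂ hn hg hf hU hV ⟨A, bV⟩ sk ⟨Ak, bk⟩ s1 s2 ⟨A₁, b1⟩ ⟨A₂, b2⟩ le e1 e2
  obtain ⟨c, c0, C, hC⟩ := hU.bd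
  have U0 := hU.pos
  have U1 : ∀ x, U x ^ 2 ≤ C ^ 2 := fun x => pow_le_pow_left₀ (U0 x).le (hC x).2.1 2
  obtain ⟨l₀, h0⟩ := hR n M g ρ U hn hg hf hU
  obtain ⟨l, l1, l2, l3⟩ : ∃ l, l₀ ≤ l ∧ A ≤ l ∧ 1 ≤ l :=
    ⟨max l₀ (max A 1), by simp, by simp, by simp⟩
  have l0 := one_pos.trans_le l3
  have h1 := h0 l l1
  obtain ⟨D, hD⟩ := hU.grad hn hg hf
  obtain ⟨C', C1, hC'⟩ := bl_of_fd M
  have W0 : ∀ x, 0 ≤ l - V x ∧ l - V x ≤ 2 * l := fun x => by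
    have := abs_le.1 ((Real.norm_eq_abs _).ge.trans ((bV.1 x).trans l2))
    constructor <;> linarith [this.1, this.2]
  have W1 : ∀ x, 0 ≤ U x ^ 2 * (l - V x) := fun x => mul_nonneg (sq_nonneg _) (W0 x).1
  have bW := (bl_const (M := M) l).sub bV
  obtain ⟨B, B1, B2⟩ : ∃ B, A₁ ≤ B ∧ A₂ ≤ B := ⟨_, le_max_left _ _, le_max_right _ _⟩
  obtain ⟨N, M1, M2⟩ : ∃ N, B ≤ N ∧ D * (B / 1 + 1 * (3 * (l * C ^ 2 * B) + C ^ 2 * Ak)) ≤ N :=
    ⟨_, le_max_left _ _, le_max_right _ _⟩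
  have bt : ∀ {t : ℝ} x, u₁ x ≤ t ∧ t ≤ u₂ x → |t| ≤ B := fun x k => abs_le.2
    ⟨by linarith [(abs_le.1 (b1 x)).1, k.1], by linarith [(abs_le.1 (b2.1 x)).2, k.2]⟩
  let S := {h : M → ℝ // BL (C' * N) h ∧ ∀ x, u₁ x ≤ h x ∧ h x ≤ u₂ x}
  have ab : ∀ (h : S) x, |h.1 x| ≤ B := fun h x => bt x (h.2.2 x)
  have step : ∀ h : S, ∃ w : S, CD 2 w.1 ∧ (∀ Φ : M × ℝ → ℝ,
      (∀ e ∈ At M, ContDiff ℝ ∞ fun p : E n × ℝ => Φ (e.symm p.1, p.2)) →
        (∀ x, wl g U w.1 x = Φ (x, w.1 x)) → Smooth w.1) ∧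
      ∀ x, l * U x ^ 2 * w.1 x - wl g U w.1 x = U x ^ 2 * (l - V x) * h.1 x - U x ^ 2 * k x := by
    rintro ⟨h, b, a⟩
    obtain ⟨w, w1, ⟨B', w2⟩, w3, w4⟩ := h1 _ _ ((bW.mul b).sub bk)
    have w5 : ∀ x, l * U x ^ 2 * w x - wl g U w x =
        U x ^ 2 * (l - V x) * h x - U x ^ 2 * k x := fun x => by
      rw [w4 x]; ring
    have a' : ∀ x, u₁ x ≤ w x ∧ w x ≤ u₂ x := fun x =>
      ⟨hU.cmp hg hf l0 s1 w1 b1 w2 (fun x => by
        rw [w5]
        linarith [e1 x, mul_le_mul_of_nonneg_left (a x).1 (W1 x)]) x,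
      hU.cmp hg hf l0 w1 s2 w2 b2.1 (fun x => by
        rw [w5]
        linarith [e2 x, mul_le_mul_of_nonneg_left (a x).2 (W1 x)]) x⟩
    refine ⟨⟨w, hC' ℝ w N fun x => ⟨w1.differentiable (by norm_num) x, (bt x (a' x)).trans M1,
      (hD 1 B _ x w one_pos le_rfl fun y _ => ⟨w1.contDiffAt, bt y (a' y), ?_⟩).trans M2⟩, a'⟩, w1,
      w3, w5⟩
    have p1 : |l * U y ^ 2 * w y| ≤ l * C ^ 2 * B := by
      rw [abs_mul, abs_of_nonneg (by positivity)]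
      exact mul_le_mul (mul_le_mul_of_nonneg_left (U1 y) l0.le) (bt y (a' y)) (abs_nonneg _)
        (by positivity)
    have p2 : |U y ^ 2 * (l - V y) * h y| ≤ C ^ 2 * (2 * l) * B := by
      rw [abs_mul, abs_of_nonneg (W1 y)]
      exact mul_le_mul (mul_le_mul (U1 y) (W0 y).2 (W0 y).1 (sq_nonneg _)) (bt y (a y))
        (abs_nonneg _) (by positivity)
    have p3 : |U y ^ 2 * k y| ≤ C ^ 2 * Ak := by
      rw [abs_mul, abs_of_nonneg (sq_nonneg _)]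
      exact mul_le_mul (U1 y) (bk.1 y) (abs_nonneg _) (sq_nonneg _)
    rw [abs_le] at p1 p2 p3 ⊢
    constructor <;> linarith [w5 y, p1.1, p1.2, p2.1, p2.2, p3.1, p3.2]
  choose T T1 T2 T4 using step
  have mono : ∀ h h' : S, (∀ x, h.1 x ≤ h'.1 x) → ∀ x, (T h).1 x ≤ (T h').1 x := fun h h' k =>
    hU.cmp hg hf l0 (T1 h) (T1 h') (ab _) (ab _) fun x => by
      rw [T4, T4]
      linarith [mul_le_mul_of_nonneg_left (k x) (W1 x)]
  let o : S := ⟨u₂, b2.mono (by nlinarith [b2.nonneg]), fun x => ⟨le x, le_rfl⟩⟩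
  let u : ℕ → S := fun k => T^[k] o
  have us : ∀ k, u (k + 1) = T (u k) := fun k => Function.iterate_succ_apply' T k o
  have an : ∀ x, Antitone fun k => (u k).1 x := fun x => antitone_nat_of_succ_le fun k => by
    induction k generalizing x with
    | zero => exact ((u 1).2.2 x).2
    | succ k ih =>
      rw [us (k + 1), us k]
      exact mono (T (u k)) (u k) (fun y => by rw [← us]; exact ih y) x
  have bd : ∀ x, BddBelow (range fun k => (u k).1 x) := fun x =>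
    ⟨u₁ x, by rintro _ ⟨k, rfl⟩; exact ((u k).2.2 x).1⟩
  have lim := fun x => tendsto_atTop_ciInf (an x) (bd x)
  let h : S := ⟨fun x => ⨅ k, (u k).1 x, ⟨fun x => le_of_tendsto' (lim x).norm fun k => (u k).2.1.1 x,
    fun x y => le_of_tendsto' ((lim x).sub (lim y)).norm fun k => (u k).2.1.2 x y⟩,
    fun x => ⟨ge_of_tendsto' (lim x) fun k => ((u k).2.2 x).1,
      le_of_tendsto' (lim x) fun k => ((u k).2.2 x).2⟩⟩
  have lo : ∀ k x, h.1 x ≤ (u k).1 x := fun k x => ciInf_le (bd x) k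
  have ct : ∀ w : S, Continuous w.1 := fun w => w.2.1.cont
  have df : ∀ (w w' : S) x, w.1 x - w'.1 x ≤ 2 * B := fun w w' x => by
    linarith [(abs_le.1 (ab w x)).2, (abs_le.1 (ab w' x)).1]
  have fx : (T h).1 = h.1 := funext fun x => le_antisymm
    (le_ciInf fun k => (mono h (u k) (lo k) x).trans (by rw [← us]; exact an x k.le_succ))
    (le_of_forall_pos_le_add fun e he => by
      obtain ⟨R, hR⟩ := hU.loc_bd hg hf l0 (half_pos he) (4 * B) x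
      obtain ⟨k, k2⟩ := (Metric.tendstoUniformlyOn_iff.1 (Antitone.tendstoUniformlyOn_of_forall_tendsto
        (isCompact_px M R) (fun k => (ct (u k)).continuousOn) (fun x _ => an x)
        (ct h).continuousOn fun x _ => lim x) (e / 4) (by positivity)).exists
      have := hR (fun y => (T (u k)).1 y - (T h).1 y) (fun y => 2 * ((u k).1 y - h.1 y))
        ((T1 _).sub (T1 _)) fun y => ⟨by linarith [df (T (u k)) (T h) y, df h h y],
          by linarith [df (u k) h y], fun hy => by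
            have := k2 y hy
            rw [Real.dist_eq, abs_lt] at this
            linarith [this.1], by
            rw [hg.wl_sub (hU.sm.diff y) (T1 _).contDiffAt (T1 _).contDiffAt]
            linarith [T4 (u k) y, T4 h y, mul_le_mul_of_nonneg_right (mul_le_mul_of_nonneg_left
              (W0 y).2 (sq_nonneg (U y))) (sub_nonneg.2 (lo k y))]⟩
      rw [← us] at this
      linarith [lo (k + 1) x])
  have eq : ∀ x, wl g U (T h).1 x = U x ^ 2 * (V x * (T h).1 x + k x) := fun x => by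
    have := T4 h x
    rw [fx] at this ⊢
    linarith
  exact ⟨(T h).1, T2 h (fun q => U q.1 ^ 2 * (V q.1 * q.2 + k q.1))
    (fun e he => ((ContDiff.comp (hU.sm e he) contDiff_fst).pow 2).mul
      (((ContDiff.comp (hV e he) contDiff_fst).mul contDiff_snd).add
        (ContDiff.comp (g := loc e k) (sk e he) contDiff_fst))) eq, ⟨_, (T h).2.1⟩, (T h).2.2, eq⟩

theorem subs_of (hR : RES) (hE : REG) : SUBS := RESS.subs fun n M _ g ρ U hn hg hf hU =>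
  let ⟨l₀, h0⟩ := hR n M g ρ U hn hg hf hU
  ⟨l₀, fun l hl A f hf =>
    let ⟨_, _, h1⟩ := h0 l hl
    let ⟨w, w1, w2, w3, w4⟩ := h1 A f hf
    ⟨w, w1, ⟨_, w2.1⟩, fun Φ hΦ e => hE n M g U w Φ hg hU.sm hU.pos hΦ w1 (fun R => ⟨_, w3 R⟩) e,
      w4⟩⟩

theorem SUBS.sub (h : SUBS) : SUB := by
  intro n M _ g ρ U V u₁ u₂ hn hg hf hU hV bV s1 s2 ⟨_, b1⟩ b2 le e1 e2
  obtain ⟨u, h1, -, h2, h3⟩ := h n M g ρ U V (fun _ => 0) u₁ u₂ (by omega) hg hf hU hV bV cd_const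
    ⟨_, bl_const 0⟩ s1.two s2.two ⟨_, b1.1⟩ b2 le (by simpa using e1) (by simpa using e2)
  exact ⟨u, h1, h2, by simpa using h3⟩

theorem sub_of (hR : RES) (hE : REG) : SUB := (subs_of hR hE).sub

end Vale.Agent.P366M
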