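import Vale.Agent.P366M.Defs
import Vale.Agent.P366Z.Calc

/-!
# P366M: charts, transition maps and the laws of transformation
-/

open MeasureTheory Metric Filter Topology Set Matrix
open scoped ContDiff
open Vale.Agent.P366 Vale.Agent.P366.Stmt Vale.Agent.P366Z

noncomputable section

namespace Vale.Agent.P366M

theorem one_le_oo : (1 : WithTop ℕ∞) ≤ ∞ := by exact_mod_cast le_top

theorem two_le_oo : (2 : WithTop ℕ∞) ≤ ∞ := by
  show ((2 : ℕ∞) : WithTop ℕ∞) ≤ ((⊤ : ℕ∞) : WithTop ℕ∞)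
  exact WithTop.coe_le_coe.mpr le_top

/-! ### the Jacobian matrix -/

section jac

variable {l m n : ℕ} {τ : E m → E n} {σ : E l → E m} {y : E m}

theorem diff_coord (hτ : DifferentiableAt ℝ τ y) (k : Fin n) :
    DifferentiableAt ℝ (fun z => τ z k) y :=
  ((P366Z.contDiff_coord (m := 1) k).differentiable (by simp) _).comp y hτ

theorem cd_coord {p : WithTop ℕ∞} (hτ : ContDiffAt ℝ p τ y) (k : Fin n) :
    ContDiffAt ℝ p (fun z => τ z k) y := (P366Z.contDiff_coord k).contDiffAt.comp y hτ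

theorem jac_eq (hτ : DifferentiableAt ℝ τ y) (k : Fin n) (i : Fin m) :
    jac τ y k i = fderiv ℝ τ y (EuclideanSpace.single i 1) k := by
  have h : HasFDerivAt (fun z => τ z k)
      ((EuclideanSpace.proj (𝕜 := ℝ) k).comp (fderiv ℝ τ y)) y :=
    (EuclideanSpace.proj (𝕜 := ℝ) k).hasFDerivAt.comp y hτ.hasFDerivAt
  unfold jac
  rw [P366Z.pd_of_hasFDerivAt h]
  rfl

/-- the chain rule -/
theorem pd_chain {f : E n → ℝ} (hf : DifferentiableAt ℝ f (τ y)) (hτ : DifferentiableAt ℝ τ y)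
    (i : Fin m) : Stmt.pd i (fun z => f (τ z)) y = ∑ k, jac τ y k i * Stmt.pd k f (τ y) := by
  have h : HasFDerivAt (fun z => f (τ z)) ((fderiv ℝ f (τ y)).comp (fderiv ℝ τ y)) y :=
    hf.hasFDerivAt.comp y hτ.hasFDerivAt
  rw [P366Z.pd_of_hasFDerivAt h, ContinuousLinearMap.comp_apply, P366Z.fderiv_eq_sum hf]
  simp only [jac_eq hτ]

theorem jac_comp {z : E l} (hτ : DifferentiableAt ℝ τ (σ z)) (hσ : DifferentiableAt ℝ σ z) :
    jac (fun w => τ (σ w)) z = jac τ (σ z) * jac σ z := by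
  ext k i
  rw [Matrix.mul_apply]
  unfold jac
  rw [pd_chain (f := fun z => τ z k) (diff_coord hτ k) hσ]
  exact Finset.sum_congr rfl fun j _ => mul_comm _ _

theorem jac_congr {τ' : E m → E n} (h : τ =ᶠ[𝓝 y] τ') : jac τ y = jac τ' y := by
  ext k i
  exact P366Z.pd_congr (h.mono fun z hz => by simp only [hz]) i

theorem jac_id (y : E n) : jac (fun z => z) y = 1 := by
  ext k i
  unfold jac
  rw [P366Z.pd_coord, Matrix.one_apply]
  simp only [eq_comm]

theorem cd_jac (hτ : ContDiffAt ℝ ∞ τ y) (k : Fin n) (i : Fin m) :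
    ContDiffAt ℝ ∞ (fun z => jac τ z k i) y :=
  P366Z.contDiffAt_pd (cd_coord hτ k) (by simp) i

end jac

variable {n : ℕ} {M : Type} [Mf0 n M] {e e' e'' : Ch n M} {x : M} {y : E n}

/-! ### charts -/

theorem mem_At (he : e ∈ atlas (E n) M) : e ∈ At M :=
  ⟨Mf0.tgt e he, fun x => ⟨Mf0.trans e he _ (chart_mem_atlas (E n) x),
    Mf0.trans _ (chart_mem_atlas (E n) x) e he⟩⟩

theorem ch_mem (x : M) : ch x ∈ At M := mem_At (chart_mem_atlas (E n) x)

theorem mem_ch (x : M) : x ∈ (ch x).source := mem_chart_source (E n) x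

theorem mem_tgt (he : e ∈ At M) (y : E n) : y ∈ e.target := by
  rw [he.1]; exact mem_univ y

theorem symm_mem (he : e ∈ At M) (y : E n) : e.symm y ∈ e.source := e.map_target (mem_tgt he y)

theorem right_inv (he : e ∈ At M) (y : E n) : e (e.symm y) = y := e.right_inv (mem_tgt he y)

@[simp] theorem symm_pt (x : M) : (ch x).symm (pt x) = x := (ch x).left_inv (mem_ch x)

@[simp] theorem loc_pt {α : Type} (u : M → α) (x : M) : loc (ch x) u (pt x) = u x := by
  unfold loc; rw [symm_pt]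

theorem loc_apply {α : Type} (u : M → α) (e : Ch n M) (y : E n) : loc e u y = u (e.symm y) := rfl

theorem cont_symm (he : e ∈ At M) : Continuous e.symm := by
  rw [← continuousOn_univ, ← he.1]; exact e.continuousOn_symm

theorem symm_inj (he : e ∈ At M) : Function.Injective e.symm := fun a b h => by
  rw [← right_inv he a, h, right_inv he b]

theorem range_symm (he : e ∈ At M) : range e.symm = e.source := by
  ext p
  exact ⟨fun ⟨y, h⟩ => h ▸ symm_mem he y, fun h => ⟨e p, e.left_inv h⟩⟩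

theorem openEmb_symm (he : e ∈ At M) : IsOpenEmbedding e.symm :=
  e.symm.isOpenEmbedding he.1

theorem map_symm (he : e ∈ At M) (y : E n) : map e.symm (𝓝 y) = 𝓝 (e.symm y) :=
  (openEmb_symm he).map_nhds_eq y

theorem tendsto_symm (he : e ∈ At M) (y : E n) : Tendsto e.symm (𝓝 y) (𝓝 (e.symm y)) :=
  (cont_symm he).tendsto y

theorem ev_iff (he : e ∈ At M) {p : M → Prop} :
    (∀ᶠ z in 𝓝 (e.symm y), p z) ↔ ∀ᶠ z in 𝓝 y, p (e.symm z) := by
  rw [← map_symm he, eventually_map]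

theorem tendsto_pt (x : M) : Tendsto (ch x).symm (𝓝 (pt x)) (𝓝 x) := by
  simpa using tendsto_symm (ch_mem x) (pt x)

theorem ev_pt {p : M → Prop} : (∀ᶠ z in 𝓝 x, p z) ↔ ∀ᶠ z in 𝓝 (pt x), p ((ch x).symm z) := by
  rw [← ev_iff (ch_mem x), symm_pt]

theorem loc_congr {α : Type} {u v : M → α} (h : u =ᶠ[𝓝 x] v) :
    loc (ch x) u =ᶠ[𝓝 (pt x)] loc (ch x) v := ev_pt.1 h

theorem loc_congr' {α : Type} {u v : M → α} (he : e ∈ At M) (h : u =ᶠ[𝓝 (e.symm y)] v) :
    loc e u =ᶠ[𝓝 y] loc e v := (ev_iff he).1 h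

theorem cont_loc {α : Type} [TopologicalSpace α] {u : M → α} (he : e ∈ At M) (hu : Continuous u) :
    Continuous (loc e u) := hu.comp (cont_symm he)

theorem contAt_iff {α : Type} [TopologicalSpace α] {u : M → α} (he : e ∈ At M) :
    ContinuousAt u (e.symm y) ↔ ContinuousAt (loc e u) y := by
  unfold ContinuousAt
  rw [← map_symm he, tendsto_map'_iff]
  rfl

theorem contAt_of_loc {α : Type} [TopologicalSpace α] {u : M → α}
    (h : ContinuousAt (loc (ch x) u) (pt x)) : ContinuousAt u x := by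
  have := (contAt_iff (ch_mem x)).2 h
  rwa [symm_pt] at this

theorem cont_of_loc {α : Type} [TopologicalSpace α] {u : M → α}
    (h : ∀ e ∈ At M, Continuous (loc e u)) : Continuous u :=
  continuous_iff_continuousAt.2 fun x => contAt_of_loc (h _ (ch_mem x)).continuousAt

theorem isLocalMax_loc {u : M → ℝ} (h : IsLocalMax u x) : IsLocalMax (loc (ch x) u) (pt x) := by
  unfold IsLocalMax IsMaxFilter
  rw [loc_pt]
  exact ev_pt.1 h

theorem isLocalMin_loc {u : M → ℝ} (h : IsLocalMin u x) : IsLocalMin (loc (ch x) u) (pt x) := by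
  unfold IsLocalMin IsMinFilter
  rw [loc_pt]
  exact ev_pt.1 h

instance : LocallyCompactSpace M := ChartedSpace.locallyCompactSpace (E n) M

/-! ### transition maps -/

theorem symm_tm (h : e.symm y ∈ e'.source) : e'.symm (tm e e' y) = e.symm y := e'.left_inv h

theorem ev_src (he : e ∈ At M) (h : e.symm y ∈ e'.source) :
    ∀ᶠ z in 𝓝 y, e.symm z ∈ e'.source := (ev_iff he).1 (e'.open_source.mem_nhds h)

theorem tm_cd (he : e ∈ At M) (he' : e' ∈ At M) (h : e.symm y ∈ e'.source) :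
    ContDiffAt ℝ ∞ (tm e e') y := by
  have h0 := mem_ch (e.symm y)
  have h1 := (he'.2 (e.symm y)).2 (tm e (ch (e.symm y)) y) (by rwa [symm_tm h0])
  refine (h1.comp y ((he.2 _).1 y h0)).congr_of_eventuallyEq ?_
  exact (ev_src he h0).mono fun z hz => congrArg e' (symm_tm hz).symm

theorem tm_diff (he : e ∈ At M) (he' : e' ∈ At M) (h : e.symm y ∈ e'.source) :
    DifferentiableAt ℝ (tm e e') y := (tm_cd he he' h).differentiableAt (by simp)

theorem tm_pt (e : Ch n M) (y : E n) : tm e (ch (e.symm y)) y = pt (e.symm y) := rfl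

theorem tm_self (he : e ∈ At M) : tm e e = fun z => z := funext fun z => right_inv he z

theorem loc_tm {α : Type} (u : M → α) (he : e ∈ At M) (h : e.symm y ∈ e'.source) :
    loc e u =ᶠ[𝓝 y] fun z => loc e' u (tm e e' z) :=
  (ev_src he h).mono fun z hz => by simp only [loc, symm_tm hz]

theorem tm_tm (he : e ∈ At M) (h : e.symm y ∈ e'.source) (e'' : Ch n M) :
    tm e e'' =ᶠ[𝓝 y] fun z => tm e' e'' (tm e e' z) := loc_tm (fun p => e'' p) he h

theorem jac_tm (he : e ∈ At M) (he' : e' ∈ At M) (he'' : e'' ∈ At M) (h : e.symm y ∈ e'.source)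
    (h' : e.symm y ∈ e''.source) :
    jac (tm e e'') y = jac (tm e' e'') (tm e e' y) * jac (tm e e') y := by
  rw [jac_congr (tm_tm he h e''), jac_comp _ (tm_diff he he' h)]
  exact tm_diff he' he'' (by rwa [symm_tm h])

theorem jac_inv (he : e ∈ At M) (he' : e' ∈ At M) (h : e.symm y ∈ e'.source) :
    jac (tm e' e) (tm e e' y) * jac (tm e e') y = 1 := by
  rw [← jac_tm he he' he h (symm_mem he y), tm_self he, jac_id]

theorem jac_unit (he : e ∈ At M) (he' : e' ∈ At M) (h : e.symm y ∈ e'.source) :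
    IsUnit (jac (tm e e') y).det :=
  Matrix.isUnit_det_of_left_inverse (jac_inv he he' h)

theorem jac_inv_eq (he : e ∈ At M) (he' : e' ∈ At M) (h : e.symm y ∈ e'.source) :
    (jac (tm e e') y)⁻¹ = jac (tm e' e) (tm e e' y) := Matrix.inv_eq_left_inv (jac_inv he he' h)

theorem J_unit (he : e ∈ At M) (y : E n) : IsUnit (J e y).det :=
  jac_unit he (ch_mem _) (mem_ch _)

theorem J_mul_inv (he : e ∈ At M) (y : E n) : J e y * (J e y)⁻¹ = 1 :=
  Matrix.mul_nonsing_inv _ (J_unit he y)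

theorem J_inv_mul (he : e ∈ At M) (y : E n) : (J e y)⁻¹ * J e y = 1 :=
  Matrix.nonsing_inv_mul _ (J_unit he y)

@[simp] theorem J_pt (x : M) : J (ch x) (pt x) = 1 := by
  unfold J
  rw [symm_pt, tm_self (ch_mem x), jac_id]

theorem J_tm (he : e ∈ At M) (he' : e' ∈ At M) (h : e.symm y ∈ e'.source) :
    J e y = J e' (tm e e' y) * jac (tm e e') y := by
  unfold J
  rw [symm_tm h]
  exact jac_tm he he' (ch_mem _) h (mem_ch _)

/-! ### tensors in charts -/

theorem sum2_eq (A B T : Matrix (Fin n) (Fin n) ℝ) (i j : Fin n) :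
    ∑ k, ∑ l, A k i * B l j * T k l = (Aᵀ * T * B) i j := by
  simp only [Matrix.mul_apply, Matrix.transpose_apply, Finset.sum_mul]
  rw [Finset.sum_comm]
  exact Finset.sum_congr rfl fun k _ => Finset.sum_congr rfl fun l _ => by ring

theorem sum2_eq' (A B T : Matrix (Fin n) (Fin n) ℝ) (i j : Fin n) :
    ∑ k, ∑ l, A i k * B j l * T k l = (A * T * Bᵀ) i j := sum2_eq Aᵀ Bᵀ T i j

theorem mat_rep (e : Ch n M) (T : Fld n M) (y : E n) :
    Stmt.mat (rep e T) y = (J e y)ᵀ * mat T (e.symm y) * J e y := by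
  ext i j; exact sum2_eq _ _ _ i j

theorem mat_repU (e : Ch n M) (T : Fld n M) (y : E n) :
    Stmt.mat (repU e T) y = (J e y)⁻¹ * mat T (e.symm y) * ((J e y)⁻¹)ᵀ := by
  ext i j; exact sum2_eq' _ _ _ i j

theorem repC_eq (e : Ch n M) (w : Fin n → M → ℝ) (y : E n) :
    (fun i => repC e w i y) = (J e y)ᵀ *ᵥ fun k => w k (e.symm y) := rfl

theorem repV_eq (e : Ch n M) (X : Fin n → M → ℝ) (y : E n) :
    (fun i => repV e X i y) = (J e y)⁻¹ *ᵥ fun k => X k (e.symm y) := rfl

@[simp] theorem rep_pt (T : Fld n M) (x : M) : rep (ch x) T (pt x) = T x := by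
  have := mat_rep (ch x) T (pt x)
  rwa [J_pt, symm_pt, Matrix.transpose_one, Matrix.one_mul, Matrix.mul_one] at this

@[simp] theorem repU_pt (T : Fld n M) (x : M) : repU (ch x) T (pt x) = T x := by
  have := mat_repU (ch x) T (pt x)
  rwa [J_pt, symm_pt, inv_one, Matrix.transpose_one, Matrix.one_mul, Matrix.mul_one] at this

@[simp] theorem repC_pt (w : Fin n → M → ℝ) (i : Fin n) (x : M) :
    repC (ch x) w i (pt x) = w i x := by
  have := congrFun (repC_eq (ch x) w (pt x)) i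
  rwa [J_pt, symm_pt, Matrix.transpose_one, Matrix.one_mulVec] at this

@[simp] theorem repV_pt (X : Fin n → M → ℝ) (i : Fin n) (x : M) :
    repV (ch x) X i (pt x) = X i x := by
  have := congrFun (repV_eq (ch x) X (pt x)) i
  rwa [J_pt, symm_pt, inv_one, Matrix.one_mulVec] at this

theorem rep_tm (T : Fld n M) (he : e ∈ At M) (he' : e' ∈ At M) (h : e.symm y ∈ e'.source)
    (i j : Fin n) : rep e T y i j =
      ∑ k, ∑ l, jac (tm e e') y k i * jac (tm e e') y l j * rep e' T (tm e e' y) k l := by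
  have h1 := sum2_eq (jac (tm e e') y) (jac (tm e e') y) (Stmt.mat (rep e' T) (tm e e' y)) i j
  refine (congrFun (congrFun (mat_rep e T y) i) j).trans (Eq.trans ?_ h1.symm)
  rw [mat_rep, J_tm he he' h, symm_tm h, Matrix.transpose_mul]
  simp only [Matrix.mul_assoc]

theorem repU_tm (T : Fld n M) (he : e ∈ At M) (he' : e' ∈ At M) (h : e.symm y ∈ e'.source)
    (i j : Fin n) : repU e T y i j =
      ∑ k, ∑ l, (jac (tm e e') y)⁻¹ i k * (jac (tm e e') y)⁻¹ j l * repU e' T (tm e e' y) k l := by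
  have h1 := sum2_eq' (jac (tm e e') y)⁻¹ (jac (tm e e') y)⁻¹
    (Stmt.mat (repU e' T) (tm e e' y)) i j
  refine (congrFun (congrFun (mat_repU e T y) i) j).trans (Eq.trans ?_ h1.symm)
  rw [mat_repU, J_tm he he' h, symm_tm h, Matrix.mul_inv_rev, Matrix.transpose_mul]
  simp only [Matrix.mul_assoc]

theorem repC_tm (w : Fin n → M → ℝ) (he : e ∈ At M) (he' : e' ∈ At M) (h : e.symm y ∈ e'.source)
    (i : Fin n) : repC e w i y = ∑ k, jac (tm e e') y k i * repC e' w k (tm e e' y) := by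
  have h1 : (fun i => repC e w i y) = (jac (tm e e') y)ᵀ *ᵥ fun k => repC e' w k (tm e e' y) := by
    rw [repC_eq, repC_eq, J_tm he he' h, symm_tm h, Matrix.transpose_mul, Matrix.mulVec_mulVec]
  exact congrFun h1 i

theorem repV_tm (X : Fin n → M → ℝ) (he : e ∈ At M) (he' : e' ∈ At M) (h : e.symm y ∈ e'.source)
    (i : Fin n) : repV e X i y = ∑ k, (jac (tm e e') y)⁻¹ i k * repV e' X k (tm e e' y) := by
  have h1 : (fun i => repV e X i y) = (jac (tm e e') y)⁻¹ *ᵥ fun k => repV e' X k (tm e e' y) := by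
    rw [repV_eq, repV_eq, J_tm he he' h, symm_tm h, Matrix.mul_inv_rev, Matrix.mulVec_mulVec]
  exact congrFun h1 i

theorem rep_congr {T T' : Fld n M} (he : e ∈ At M) (h : T =ᶠ[𝓝 (e.symm y)] T') :
    rep e T =ᶠ[𝓝 y] rep e T' :=
  ((ev_iff he).1 h).mono fun z hz => by unfold rep; simp only [hz]

theorem rep_congr_pt {T T' : Fld n M} (h : T =ᶠ[𝓝 x] T') :
    rep (ch x) T =ᶠ[𝓝 (pt x)] rep (ch x) T' := rep_congr (ch_mem x) (by rwa [symm_pt])

theorem repV_congr_pt {X Y : Fin n → M → ℝ} (h : ∀ i, X i =ᶠ[𝓝 x] Y i) (i : Fin n) :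
    repV (ch x) X i =ᶠ[𝓝 (pt x)] repV (ch x) Y i :=
  (ev_pt.1 (eventually_all.2 h)).mono fun z hz => by unfold repV; simp only [hz]

/-! ### differentiability does not depend on the chart -/

section V

variable {V : Type} [NormedAddCommGroup V] [NormedSpace ℝ V] {f : M → V} {m : WithTop ℕ∞}

theorem diff_tm (he : e ∈ At M) (he' : e' ∈ At M) (h : e.symm y ∈ e'.source)
    (hf : DifferentiableAt ℝ (loc e' f) (tm e e' y)) : DifferentiableAt ℝ (loc e f) y :=
  (hf.comp y (tm_diff he he' h)).congr_of_eventuallyEq (loc_tm f he h)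

theorem cda_tm (hm : m ≤ ∞) (he : e ∈ At M) (he' : e' ∈ At M) (h : e.symm y ∈ e'.source)
    (hf : ContDiffAt ℝ m (loc e' f) (tm e e' y)) : ContDiffAt ℝ m (loc e f) y :=
  (hf.comp y ((tm_cd he he' h).of_le hm)).congr_of_eventuallyEq (loc_tm f he h)

theorem DAt.lc (he : e ∈ At M) (hf : DAt f (e.symm y)) : DifferentiableAt ℝ (loc e f) y :=
  diff_tm he (ch_mem _) (mem_ch _) hf

theorem tm_ch (he : e ∈ At M) (y : E n) : tm (ch (e.symm y)) e (pt (e.symm y)) = y := by
  unfold tm; rw [symm_pt, right_inv he]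

theorem dAt_of_loc (he : e ∈ At M) (hf : DifferentiableAt ℝ (loc e f) y) : DAt f (e.symm y) :=
  diff_tm (ch_mem _) he (by rw [symm_pt]; exact symm_mem he y) (by rwa [tm_ch he])

theorem CAt.lc (hm : m ≤ ∞) (he : e ∈ At M) (hf : CAt m f (e.symm y)) :
    ContDiffAt ℝ m (loc e f) y := cda_tm hm he (ch_mem _) (mem_ch _) hf

theorem cAt_of_loc (hm : m ≤ ∞) (he : e ∈ At M) (hf : ContDiffAt ℝ m (loc e f) y) :
    CAt m f (e.symm y) :=
  cda_tm hm (ch_mem _) he (by rw [symm_pt]; exact symm_mem he y) (by rwa [tm_ch he])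

theorem CD.contDiffAt (hf : CD m f) {x : M} : CAt m f x := (hf _ (ch_mem x)).contDiffAt

theorem cd_of_cAt (hm : m ≤ ∞) (hf : ∀ x, CAt m f x) : CD m f := fun _ he =>
  contDiff_iff_contDiffAt.2 fun _ => (hf _).lc hm he

end V

theorem smT_of {T : Fld n M} (h : ∀ x, ∃ e ∈ At M, x ∈ e.source ∧
    ∀ i j, ContDiffAt ℝ ∞ (fun y => rep e T y i j) (e x)) : SmT T := fun e he i j =>
  contDiff_iff_contDiffAt.2 fun y => by
    obtain ⟨e', he', hx, h'⟩ := h (e.symm y)
    have h1 := tm_cd he he' hx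
    refine (ContDiffAt.sum (s := Finset.univ) fun k _ =>
      ContDiffAt.sum (s := Finset.univ) fun l _ => ((cd_jac h1 k i).mul
      (cd_jac h1 l j)).mul ((h' k l).comp y h1)).congr_of_eventuallyEq ?_
    exact (ev_src he hx).mono fun z hz => rep_tm T he he' hz i j

theorem cd_jac_inv (he : e ∈ At M) (he' : e' ∈ At M) (h : e.symm y ∈ e'.source) (i k : Fin n) :
    ContDiffAt ℝ ∞ (fun z => (jac (tm e e') z)⁻¹ i k) y :=
  P366Z.contDiffAt_inv_entry (fun a b => cd_jac (tm_cd he he' h) a b)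
    (jac_unit he he' h).ne_zero i k

theorem smU_of {T : Fld n M} (h : ∀ x, ∃ e ∈ At M, x ∈ e.source ∧
    ∀ i j, ContDiffAt ℝ ∞ (fun y => repU e T y i j) (e x)) : SmU T := fun e he i j =>
  contDiff_iff_contDiffAt.2 fun y => by
    obtain ⟨e', he', hx, h'⟩ := h (e.symm y)
    have h1 := tm_cd he he' hx
    refine (ContDiffAt.sum (s := Finset.univ) fun k _ =>
      ContDiffAt.sum (s := Finset.univ) fun l _ => ((cd_jac_inv he he' hx i k).mul
      (cd_jac_inv he he' hx j l)).mul ((h' k l).comp y h1)).congr_of_eventuallyEq ?_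
    exact (ev_src he hx).mono fun z hz => repU_tm T he he' hz i j

theorem cv_of {m : WithTop ℕ∞} (hm : m ≤ ∞) {X : Fin n → M → ℝ}
    (h : ∀ x, ∃ e ∈ At M, x ∈ e.source ∧ ∀ i, ContDiffAt ℝ m (repV e X i) (e x)) : CV m X :=
  fun e he i => contDiff_iff_contDiffAt.2 fun y => by
    obtain ⟨e', he', hx, h'⟩ := h (e.symm y)
    have h1 := (tm_cd he he' hx).of_le hm
    refine (ContDiffAt.sum (s := Finset.univ) fun k _ => ((cd_jac_inv he he' hx i k).of_le hm).mul
      ((h' k).comp y h1)).congr_of_eventuallyEq ?_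
    exact (ev_src he hx).mono fun z hz => repV_tm X he he' hz i

theorem cc_of {m : WithTop ℕ∞} (hm : m ≤ ∞) {w : Fin n → M → ℝ}
    (h : ∀ x, ∃ e ∈ At M, x ∈ e.source ∧ ∀ i, ContDiffAt ℝ m (repC e w i) (e x)) : CC m w :=
  fun e he i => contDiff_iff_contDiffAt.2 fun y => by
    obtain ⟨e', he', hx, h'⟩ := h (e.symm y)
    have h1 := tm_cd he he' hx
    refine (ContDiffAt.sum (s := Finset.univ) fun k _ => ((cd_jac h1 k i).of_le hm).mul
      ((h' k).comp y (h1.of_le hm))).congr_of_eventuallyEq ?_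
    exact (ev_src he hx).mono fun z hz => repC_tm w he he' hz i

theorem DV.lc {X : Fin n → M → ℝ} (he : e ∈ At M) (hX : DV X (e.symm y)) (i : Fin n) :
    DifferentiableAt ℝ (repV e X i) y := by
  have hx := mem_ch (e.symm y)
  have he' := ch_mem (e.symm y)
  refine (DifferentiableAt.fun_sum (u := Finset.univ) fun k _ => ((cd_jac_inv he he' hx i k).differentiableAt
    (by simp)).fun_mul ((hX k).comp y (tm_diff he he' hx))).congr_of_eventuallyEq ?_
  exact (ev_src he hx).mono fun z hz => repV_tm X he he' hz i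

theorem CV.dv {m : WithTop ℕ∞} {X : Fin n → M → ℝ} (hX : CV m X) (hm : m ≠ 0) (x : M) : DV X x :=
  fun i => (hX _ (ch_mem x) i).differentiable hm _

end Vale.Agent.P366M
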