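import Vale.Agent.P366M.Defs

/-!
# P366M: the statements of the tools of `P366Z.Sk` on manifolds
-/

open MeasureTheory Metric Filter Topology Set
open scoped ContDiff
open Vale.Agent.P366 Vale.Agent.P366.Stmt Vale.Agent.P366Z

noncomputable section

namespace Vale.Agent.P366M

instance {n : ℕ} {M : Type} [Mfe n M] : Nonempty (Nd M) := ⟨Mfe.o⟩

/-- **RES**: the resolvent of the weighted Laplacian -/
def RES : Prop := ∀ (n : ℕ) (M : Type) [Mfs n M] (g : Fld n M) (ρ : ℝ) (U : M → ℝ), 0 < n → Met g →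
  Flat g ρ → Wt g U → ∃ l₀ : ℝ, ∀ l ≥ l₀, ∃ (K : ℝ) (K₂ : ℝ → ℝ), ∀ (A : ℝ) (f : M → ℝ), BL A f →
    ∃ w : M → ℝ, CD 2 w ∧ BL (K * A) w ∧ (∀ R, H2 (K₂ R * A) w (bl M R)) ∧
      ∀ x, l * U x ^ 2 * w x - wl g U w x = U x ^ 2 * f x

/-- **REG**: smoothness of the solutions of semilinear equations -/
def REG : Prop := ∀ (n : ℕ) (M : Type) [Mfs n M] (g : Fld n M) (U w : M → ℝ) (Φ : M × ℝ → ℝ),
  Met g → Smooth U → (∀ x, 0 < U x) →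
  (∀ e ∈ At M, ContDiff ℝ ∞ fun p : E n × ℝ => Φ (e.symm p.1, p.2)) → CD 2 w →
  (∀ R, ∃ K, H2 K w (bl M R)) → (∀ x, wl g U w x = Φ (x, w x)) → Smooth w

/-- **PTM**: the maximum principle at a point -/
def PTM : Prop := ∀ (n : ℕ) (M : Type) [Mf0 n M] (g : Fld n M) (U u : M → ℝ) (x : M), Met g →
  Smooth U → CAt 2 u x → IsLocalMax u x → (∀ i, pd i u x = 0) ∧ wl g U u x ≤ 0

/-- **WMP**: the weak minimum principle on bounded sets, on exterior sets and on the whole space -/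
def WMP : Prop := ∀ (n : ℕ) (M : Type) [Mfs n M] [ConnectedSpace M] [Nonempty (Nd M)]
  (g : Fld n M) (U u c : M → ℝ) (O : Set M), 0 < n → Met g →
  Smooth U → (∀ x, 0 < U x) → IsOpen O → ContinuousOn u (closure O) →
  (∀ x ∈ O, CAt 2 u x ∧ 0 ≤ c x ∧ wl g U u x ≤ c x * u x) →
  (∀ x ∈ frontier O, 0 ≤ u x) → (∀ e > 0, ∃ R, ∀ x ∈ O, R ≤ ‖px x‖ → -e ≤ u x) → ∀ x ∈ O, 0 ≤ u x

/-- **WMB**: the minimum principle for bounded functions -/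
def WMB : Prop := ∀ (n : ℕ) (M : Type) [Mfs n M] (g : Fld n M) (ρ l : ℝ) (U u : M → ℝ), Met g →
  Flat g ρ → Wt g U → 0 < l → CD 2 u → (∃ A, ∀ x, |u x| ≤ A) →
  (∀ x, wl g U u x ≤ l * U x ^ 2 * u x) → ∀ x, 0 ≤ u x

/-- **CHAIN**: the quantitative strong minimum principle -/
def CHAIN : Prop := ∀ (n : ℕ) (M : Type) [Mf0 n M] (g : Fld n M) (U : M → ℝ) (c r : ℝ)
  (O K : Set M) (x₀ : M), Met g → Smooth U → (∀ x, 0 < U x) → 0 ≤ c → IsOpen O → IsPreconnected O →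
  IsCompact K → K ⊆ O → 0 < r → ball x₀ r ⊆ O → ∃ c' > (0 : ℝ), ∀ u : M → ℝ,
    (∀ x ∈ O, CAt 2 u x ∧ 0 ≤ u x ∧ wl g U u x ≤ c * u x) → (∀ x ∈ ball x₀ r, 1 ≤ u x) →
    ∀ x ∈ K, c' ≤ u x

/-- **GRAD**: the gradient estimate -/
def GRAD : Prop := ∀ (n : ℕ) (M : Type) [Mfs n M] (g : Fld n M) (ρ : ℝ) (U : M → ℝ), 3 ≤ n →
  Met g → Flat g ρ → Wt g U → ∃ C : ℝ, ∀ (r A S : ℝ) (x : M) (u : M → ℝ), 0 < r → r ≤ 1 →
    (∀ y ∈ ball x r, CAt 2 u y ∧ |u y| ≤ A ∧ |wl g U u y| ≤ S) → ‖fd u x‖ ≤ C * (A / r + r * S)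

/-- **BOCH**: the inequality of Bochner -/
def BOCH : Prop := ∀ (n : ℕ) (M : Type) [Mf0 n M] (g : Fld n M), Met g →
  (∀ K : Set M, IsCompact K → ∃ C : ℝ, ∀ u, Smooth u → ∀ x ∈ K,
    normSq g (hess g u) x + ip g u (lap g u) x - C * ip g u u x ≤ lap g (ip g u u) x / 2) ∧
  ∀ u v, Smooth u → ∀ x, lap g u x ^ 2 ≤ n * normSq g (hess g u) x ∧
    ip g v (ip g u u) x = 2 * ∑ i, ∑ j, hess g u x i j * gr g v i x * gr g u j x ∧
    (∑ i, ∑ j, hess g u x i j * gr g u i x * gr g u j x) ^ 2 ≤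
      normSq g (hess g u) x * ip g u u x ^ 2

end Vale.Agent.P366M
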