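import Vale.Agent.P366M.End4
import Vale.Agent.P366M.Sk
import Vale.Agent.P366Z.Asy
import Vale.Agent.P366Z.Newt
import Vale.Agent.P366Z.Mv
import Vale.Agent.P366Z.MvH
import Vale.Agent.P366Z.E4

/-!
# P366M: the tools of `P366Z.Sk` which live on the ends
-/

open MeasureTheory Metric Filter Topology Set
open scoped ContDiff
open Vale.Agent.P366 Vale.Agent.P366.Stmt Vale.Agent.P366Z

noncomputable section

namespace Vale.Agent.P366M

/-! ### statements for one end of a manifold with several ends -/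

/-- **NEWT** in the end `j` -/
def NEWTE : Prop := ∀ n : ℕ, 3 ≤ n → ∃ C : ℝ, ∀ (M : Type) [Mfs n M] (j : Nd M) (v : M → ℝ)
  (a R A S : ℝ), R0 M + 1 ≤ R → (∀ y, R0 M < ‖y‖ → CAt ∞ v (ye j y)) →
  (∀ y, R ≤ ‖y‖ → |v (ye j y) - a| ≤ A ∧ |lap (eu n) v (ye j y)| ≤ S * ‖y‖ ^ (-(n + 2) : ℝ)) →
  Tendsto (fj j v) (cocompact (E n)) (𝓝 a) → ∃ β, AsyE j v a β ∧ ∀ y, 4 * R ≤ ‖y‖ →
    |v (ye j y) - a - β * ‖y‖ ^ (2 - n : ℝ)| ≤ C * (A + S) * (R / ‖y‖) ^ (n - 1 : ℝ)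

/-- **HARN** in the end `j` -/
def HARNE : Prop := ∀ n : ℕ, 3 ≤ n → ∃ C : ℝ, ∀ (M : Type) [Mfs n M] (j : Nd M) (v : M → ℝ)
  (a β R S : ℝ), R0 M + 1 ≤ R → 0 ≤ a → (∀ y, R0 M < ‖y‖ → CAt ∞ v (ye j y)) →
  (∀ y, R ≤ ‖y‖ → 0 ≤ v (ye j y) ∧ lap (eu n) v (ye j y) ≤ 0 ∧
    |lap (eu n) v (ye j y)| ≤ S * ‖y‖ ^ (-(n + 2) : ℝ)) → AsyE j v a β →
  ∀ y, 4 * R ≤ ‖y‖ → v (ye j y) ≤ C * (a + |β| * ‖y‖ ^ (2 - n : ℝ) + S)

/-- **FLUX** with several ends -/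
def FLUXE : Prop := ∀ (n : ℕ) (M : Type) [Mfs n M] (g : Fld n M) (X : Fin n → M → ℝ)
  (c : Nd M → ℝ), 3 ≤ n → Met g → CV ∞ X → (∀ j, ∃ C R : ℝ, ∀ y : E n, R ≤ ‖y‖ → ∀ i,
    |dens g (ye j y) * X i (ye j y) - c j * y i * ‖y‖ ^ (-n : ℝ)| ≤ C * ‖y‖ ^ (-n : ℝ)) →
  Tendsto (fun r => ∫ x, cut r x * dv g X x * dens g x) atTop (𝓝 ((∑' j, c j) * omega n))

/-! ### the statements of `P366Z.Sk` -/

/-- **MV**: the mean value inequality -/
def MV : Prop := ∀ (n : ℕ) (M : Type) [Mfs n M] (j : Nd M) (u : M → ℝ) (y : E n) (r : ℝ), 3 ≤ n →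
  0 < r → R0 M + 1 + r ≤ ‖y‖ → CD 2 u → (∀ z ∈ ball y r, lap (eu n) u (ye j z) ≤ 0) →
  ∫ z in ball y r, u (ye j z) ≤ (volume (ball y r)).toReal * u (ye j y)

/-- **NEWT**: the expansion at infinity -/
def NEWT : Prop := ∀ n : ℕ, 3 ≤ n → ∃ C : ℝ, ∀ (M : Type) [Mfe n M] (v : M → ℝ) (a R A S : ℝ),
  R0 M + 1 ≤ R → Smooth v →
  (∀ x, R ≤ ‖px x‖ → |v x - a| ≤ A ∧ |lap (eu n) v x| ≤ S * ‖px x‖ ^ (-(n + 2) : ℝ)) →
  Tendsto v (cocompact M) (𝓝 a) → ∃ β, Asy v a β ∧ ∀ x, 4 * R ≤ ‖px x‖ →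
    |v x - a - β * ‖px x‖ ^ (2 - n : ℝ)| ≤ C * (A + S) * (R / ‖px x‖) ^ (n - 1 : ℝ)

/-- **ASY**: the calculus of the expansions -/
def ASY : Prop := ∀ (n : ℕ) (M : Type) [Mfs n M] [Nonempty (Nd M)] (u v : M → ℝ) (a a' β β' : ℝ),
  3 ≤ n → Smooth u → Smooth v →
  Asy u a β → (Tendsto u (cocompact M) (𝓝 a) ∧ ∃ C, ∀ x, ‖fd u x‖ ≤ C) ∧
    (Asy u a' β' → a = a' ∧ β = β') ∧
    (∀ s t : ℝ, Asy v a' β' →
      Asy (fun x => s * u x + t * v x) (s * a + t * a') (s * β + t * β')) ∧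
    ((∃ R, ∀ x, R ≤ ‖px x‖ → v x = u x) → Asy v a β) ∧
    ((∃ R, ∀ x, R ≤ ‖px x‖ → a ≤ u x) → 0 ≤ β)

/-- **HARN**: the coarse upper bound -/
def HARN : Prop := ∀ n : ℕ, 3 ≤ n → ∃ C : ℝ, ∀ (M : Type) [Mfs n M] (v : M → ℝ) (a β R S : ℝ),
  R0 M + 1 ≤ R → 0 ≤ a → Smooth v → (∀ x, R ≤ ‖px x‖ → 0 ≤ v x ∧ lap (eu n) v x ≤ 0 ∧
    |lap (eu n) v x| ≤ S * ‖px x‖ ^ (-(n + 2) : ℝ)) → Asy v a β →
  ∀ x, 4 * R ≤ ‖px x‖ → v x ≤ C * (a + |β| * ‖px x‖ ^ (2 - n : ℝ) + S)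

/-- **FLUX**: the flux at infinity -/
def FLUX : Prop := ∀ (n : ℕ) (M : Type) [Mfe n M] (g : Fld n M) (X : Fin n → M → ℝ) (c : ℝ),
  3 ≤ n → Met g → CV ∞ X → (∃ C R : ℝ, ∀ x : M, R ≤ ‖px x‖ → ∀ i,
    |dens g x * X i x - c * px x i * ‖px x‖ ^ (-n : ℝ)| ≤ C * ‖px x‖ ^ (-n : ℝ)) →
  Tendsto (fun r => ∫ x, cut r x * dv g X x * dens g x) atTop (𝓝 (c * omega n))

/-- **E4**: decay of the potential near a fat set -/
def E4 : Prop := ∀ (n : ℕ) (C₀ c δ₂ : ℝ), 3 ≤ n → 0 < c → 0 < δ₂ → ∃ δ > (0 : ℝ),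
  ∀ (M : Type) [Mfs n M] (j : Nd M) (U h : M → ℝ) (y₀ : E n) (a R : ℝ), 0 < a → 0 < R →
    R0 M + 1 + R ≤ ‖y₀‖ → Smooth U → Smooth h →
    (∀ y ∈ ball y₀ R, a ≤ U (ye j y) ∧ U (ye j y) ≤ C₀ * a ∧ lap (eu n) U (ye j y) ≤ 0 ∧
      0 ≤ wl (eu n) U h (ye j y) ∧ 0 ≤ h (ye j y) ∧ h (ye j y) ≤ 1) →
    Fat {y | h (ye j y) ≤ δ₂ / 2} c y₀ (δ * R) R → ∀ y ∈ ball y₀ (δ * R), h (ye j y) < δ₂

/-! ### proofs -/

theorem newtE : NEWTE := by
  intro n hn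
  obtain ⟨C, hC⟩ := P366Z.newt n hn
  refine ⟨C, fun M _ j v a R A S hR hv h ht => ?_⟩
  have h8 := R0_ge M
  obtain ⟨β, h1, h2⟩ := hC (xfj j 0 v) a R A S (by linarith) (cd_xfj le_rfl hv) (fun y hy => by
    rw [xfj_eq (by linarith), ← lap_xfj (by linarith)]; exact h y hy) (tendsto_xfj.2 ht)
  exact ⟨β, asyE_xfj.2 h1, fun y hy => by
    rw [← xfj_eq (c := 0) (f := v) (by linarith)]; exact h2 y hy⟩

theorem harnE : HARNE := by
  intro n hn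
  obtain ⟨C, hC⟩ := P366Z.harn_of P366Z.mv P366Z.flux n hn
  refine ⟨C, fun M _ j v a β R S hR ha hv h hA y hy => ?_⟩
  have h8 := R0_ge M
  rw [← xfj_eq (c := 0) (f := v) (by linarith)]
  exact hC (xfj j 0 v) a β R S (by linarith) ha (cd_xfj le_rfl hv) (fun y hy => by
    rw [xfj_eq (by linarith), ← lap_xfj (by linarith)]; exact h y hy) (asyE_xfj.1 hA) y hy

theorem newt : NEWT := by
  intro n hn
  obtain ⟨C, hC⟩ := newtE n hn
  refine ⟨C, fun M _ v a R A S hR hv h ht => ?_⟩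
  have h8 := R0_ge M
  obtain ⟨β, h1, h2⟩ := hC M Mfe.o v a R A S hR (fun _ _ => CD.contDiffAt hv) (fun y hy => by
    have := h (ye Mfe.o y) (by rwa [px_ye (by linarith)])
    rwa [px_ye (by linarith)] at this) (tendsto_fe.1 ht)
  refine ⟨β, asy_iff.2 h1, fun x hx => ?_⟩
  have := h2 (px x) hx
  rwa [show ye Mfe.o (px x) = x from yp_px (by linarith)] at this

theorem harn : HARN := by
  intro n hn
  obtain ⟨C, hC⟩ := harnE n hn
  refine ⟨C, fun M _ v a β R S hR ha hv h hA x hx => ?_⟩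
  have h8 := R0_ge M
  obtain ⟨j, hj⟩ := far_ex (x := x) (by linarith)
  have := hC M j v a β R S hR ha (fun _ _ => CD.contDiffAt hv) (fun y hy => by
    have := h (ye j y) (by rwa [px_ye (by linarith)])
    rwa [px_ye (by linarith)] at this) (hA.asyE j) (px x) hx
  rwa [hj] at this

theorem ball_far {n : ℕ} {y z : E n} {r R : ℝ} (h : R + r ≤ ‖y‖) (hz : z ∈ ball y r) :
    R < ‖z‖ := by linarith [norm_ge_of_ball hz]

theorem mv : MV := by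
  intro n M _ j u y r hn hr hy hu h
  have := P366Z.mv n (xfj j 0 u) y r hn hr (hu.xfj two_le_oo j 0) fun z hz => by
    rw [← lap_xfj (by linarith [ball_far hy hz])]; exact h z hz
  rwa [xfj_eq (by linarith), setIntegral_congr_fun measurableSet_ball
    fun z hz => xfj_eq (by linarith [ball_far hy hz])] at this

theorem e4 : E4 := by
  intro n C₀ c δ₂ hn hc hδ
  obtain ⟨δ, δ0, H⟩ := P366Z.e4_of P366Z.mv n C₀ c δ₂ hn hc hδ
  refine ⟨min δ 1, by positivity, fun M _ j U h y₀ a R ha hR hy hU hh h1 h2 y hy' => ?_⟩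
  have h3 : min δ 1 * R ≤ δ * R := by gcongr; exact min_le_left _ _
  have h4 : min δ 1 * R ≤ R := mul_le_of_le_one_left hR.le (min_le_right _ _)
  rw [← xfj_eq (c := 0) (f := h) (by linarith [ball_far hy (ball_subset_ball h4 hy')])]
  refine H (xfj j 0 U) (xfj j 0 h) y₀ a R ha hR (hU.xfj j 0) (hh.xfj j 0) (fun z hz => ?_)
    (fun t t1 t2 => ?_) y (ball_subset_ball h3 hy')
  · have := ball_far hy hz
    rw [xfj_eq (by linarith), xfj_eq (by linarith), ← lap_xfj (by linarith),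
      ← wl_xfj (by linarith)]
    exact h1 z hz
  · refine (h2 t (h3.trans t1) t2).trans (measure_mono fun z hz => ⟨hz.1, ?_⟩)
    have := ball_far hy (ball_subset_ball t2 hz.1)
    show xfj j 0 h z ≤ _
    rw [xfj_eq (by linarith)]
    exact hz.2

section asy

variable {n : ℕ} {M : Type} [Mfs n M] {j : Nd M} {u v : M → ℝ} {a a' β β' : ℝ}

theorem AsyE.tendsto (h : AsyE j u a β) (hn : 3 ≤ n) :
    Tendsto (fj j u) (cocompact (E n)) (𝓝 a) := AsyF.lim1 hn h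

theorem AsyE.unique (h : AsyE j u a β) (hn : 3 ≤ n) (h' : AsyE j u a' β') : a = a' ∧ β = β' := by
  have := nontriv (n := n) (by omega)
  obtain rfl := tendsto_nhds_unique (AsyF.lim1 hn h) (AsyF.lim1 hn h')
  exact ⟨rfl, tendsto_nhds_unique (AsyF.lim2 h) (AsyF.lim2 h')⟩

theorem AsyE.nonneg (h : AsyE j u a β) (hn : 3 ≤ n) {R : ℝ} (e : ∀ y, R ≤ ‖y‖ → a ≤ u (ye j y)) :
    0 ≤ β := by
  have := nontriv (n := n) (by omega)
  exact ge_of_tendsto (AsyF.lim2 h) ((AsyF.far R).mono fun x hx =>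
    mul_nonneg (sub_nonneg.2 (e x hx)) (by positivity))

theorem AsyE.congr (h : AsyE j u a β) {R : ℝ} (e : ∀ y, R ≤ ‖y‖ → v (ye j y) = u (ye j y)) :
    AsyE j v a β := asy_congr e h

theorem AsyE.lin (h : AsyE j u a β) (h' : AsyE j v a' β') (hu : Smooth u) (hv : Smooth v)
    (s t : ℝ) : AsyE j (fun x => s * u x + t * v x) (s * a + t * a') (s * β + t * β') :=
  asy_congr (R := R0 M + 1 / 2) (fun y hy => by rw [xfj_eq hy, xfj_eq hy]; rfl)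
    (AsyF.lin (hu.xfj j 0) (hv.xfj j 0) (asyE_xfj.1 h) (asyE_xfj.1 h') s t)

/-- the derivative is bounded if there is an expansion in each end -/
theorem fd_bdd_of_asyE (hn : 3 ≤ n) (hu : Smooth u) (h : ∀ j : Nd M, ∃ a β, AsyE j u a β) :
    ∃ C, ∀ x, ‖fd u x‖ ≤ C := by
  choose a β h using h
  choose C hC using fun j => AsyF.bdd hn (hu.xfj j 0) (asyE_xfj.1 (h j))
  obtain ⟨C', hC'⟩ := (finite_range C).bddAbove
  obtain ⟨K, -, hK⟩ := fd_bdd_of_out hu.one (R := R0 M + 1) (C := C') fun x hx => by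
    obtain ⟨j, y, rfl, hy⟩ := far_rep (x := x) (by linarith)
    rw [hy] at hx
    rw [fd_xfj (c := 0) (by linarith)]
    exact (hC j y).trans (hC' (mem_range_self j))
  exact ⟨K, hK⟩

theorem Asy.tendsto (h : Asy u a β) (hn : 3 ≤ n) : Tendsto u (cocompact M) (𝓝 a) :=
  tendsto_cocompact_iff.2 fun j => (h.asyE j).tendsto hn

theorem Asy.fd_bdd (h : Asy u a β) (hn : 3 ≤ n) (hu : Smooth u) : ∃ C, ∀ x, ‖fd u x‖ ≤ C :=
  fd_bdd_of_asyE hn hu fun j => ⟨a, β, h.asyE j⟩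

theorem Asy.lin (h : Asy u a β) (h' : Asy v a' β') (hu : Smooth u) (hv : Smooth v) (s t : ℝ) :
    Asy (fun x => s * u x + t * v x) (s * a + t * a') (s * β + t * β') :=
  asy_of_asyE fun j => (h.asyE j).lin (h'.asyE j) hu hv s t

theorem Asy.congr (h : Asy u a β) {R : ℝ} (e : ∀ x, R ≤ ‖px x‖ → v x = u x) : Asy v a β :=
  asy_of_asyE fun j => (h.asyE j).congr (R := max R (R0 M)) fun y hy =>
    e _ (by rw [px_ye' (le_of_max_le_right hy)]; exact le_of_max_le_left hy)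

theorem Asy.unique [Nonempty (Nd M)] (h : Asy u a β) (hn : 3 ≤ n) (h' : Asy u a' β') :
    a = a' ∧ β = β' :=
  (h.asyE (Classical.arbitrary _)).unique hn (h'.asyE _)

theorem Asy.nonneg [Nonempty (Nd M)] (h : Asy u a β) (hn : 3 ≤ n) {R : ℝ}
    (e : ∀ x, R ≤ ‖px x‖ → a ≤ u x) : 0 ≤ β :=
  (h.asyE (Classical.arbitrary _)).nonneg hn (R := max R (R0 M)) fun y hy =>
    e _ (by rw [px_ye' (le_of_max_le_right hy)]; exact le_of_max_le_left hy)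

theorem asy_const (c : ℝ) : Asy (fun _ : M => c) c 0 :=
  ⟨0, 0, fun x _ => ⟨by simp, fun i => by simp [pd_const]⟩⟩

end asy

theorem asy : ASY := fun _ _ _ _ _ _ _ _ _ _ hn hu hv h =>
  ⟨⟨h.tendsto hn, h.fd_bdd hn hu⟩, h.unique hn, fun s t h' => h.lin h' hu hv s t,
    fun ⟨_, e⟩ => h.congr e, fun ⟨_, e⟩ => h.nonneg hn e⟩

theorem fluxE : FLUXE := by
  intro n M _ g X c hn hg hX h
  have h8 := R0_ge M
  have hY : CV ∞ fun i x => dens g x * X i x := CV.smul hg.sm_dens hX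
  set Y : Nd M → Fin n → E n → ℝ := fun j i => xfj j 0 fun x => dens g x * X i x with hYd
  have sY : ∀ j i, Stmt.Smooth (Y j i) := fun j i =>
    cd_xt le_rfl (fun y hy => hY.fj_at hy i) contDiff_const
  have h1 : ∀ j, Tendsto (fun r => ∫ y, P366Z.cut r y * ∑ i, Stmt.pd i (Y j i) y) atTop
      (𝓝 (c j * omega n)) := fun j => by
    obtain ⟨C, R, h⟩ := h j
    refine P366Z.flux n (Y j) (c j) hn (sY j) ⟨C, max R (R0 M + 1), fun y hy i => ?_⟩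
    simp only [hYd]
    rw [xfj_eq (by linarith [le_of_max_le_right hy])]
    exact h y (le_of_max_le_left hy) i
  have := Fintype.ofFinite (Nd M)
  rw [tsum_fintype, Finset.sum_mul]
  refine (tendsto_finsetSum _ fun j _ => h1 j).congr' ?_
  filter_upwards [eventually_ge_atTop (R0 M + 1)] with r hr
  have r0 : 0 < r := by linarith
  have hm : MeasurableSet {y : E n | r ≤ ‖y‖} := meas_far r
  have hB : ∀ y ∈ {y : E n | r ≤ ‖y‖}, R0 M ≤ ‖y‖ := fun y hy => by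
    have : r ≤ ‖y‖ := hy
    linarith
  have i1 : Integrable fun x => (∑ i, pd i (cut r) x * X i x) * dens g x := by
    simpa only [mul_comm] using (sm_cut r).llip.integrable_dot_out (hX.of_le (by simp))
      (fun y hy => cut_zero r0 hy) hg.sm_dens.cont
  rw [hg.ibp_dv (sm_cut r).llip (supp_cut r0) (hX.of_le one_le_oo),
    ← setIntegral_eq_integral_of_forall_compl_eq_zero (s := px ⁻¹' {y : E n | r ≤ ‖y‖})
      fun x hx => by simp [pd_cut_in (not_le.1 fun k => hx k)],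
    integral_px hm hB i1.integrableOn, tsum_fintype, ← Finset.sum_neg_distrib]
  refine Finset.sum_congr rfl fun j _ => ?_
  have h2 := met_eu.ibp_dv (P366Z.lip_cut r0) (P366Z.supp_cut r0)
    fun i => ContDiff.of_le (sY j i) one_le_oo
  simp only [P366Z.dv_eu, P366Z.dens_eu, mul_one] at h2
  rw [h2, ← setIntegral_eq_integral_of_forall_compl_eq_zero (s := {y : E n | r ≤ ‖y‖})
    fun y hy => by simp [P366Z.pd_cut_in (not_le.1 fun k => hy k)]]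
  congr 1
  refine setIntegral_congr_fun hm fun y hy => ?_
  have hy' : r ≤ ‖y‖ := hy
  simp only [hYd, xfj_eq (j := j) (show R0 M + 1 / 2 ≤ ‖y‖ by linarith), Finset.sum_mul]
  refine Finset.sum_congr rfl fun i _ => ?_
  rw [show (cut r : M → ℝ) = fun x => P366Z.cut r (px x) from rfl,
    pd_px (by rw [px_ye' (hB y hy)]; exact hB y hy), px_ye' (hB y hy)]
  ring

theorem tsum_one {n : ℕ} {M : Type} [Mfe n M] (c : Nd M → ℝ) : ∑' j, c j = c Mfe.o :=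
  tsum_eq_single _ fun j hj => absurd (Mfe.one j) hj

theorem flux : FLUX := by
  intro n M _ g X c hn hg hX ⟨C, R, h⟩
  have := fluxE n M g X (fun _ => c) hn hg hX fun j => ⟨C, max R (R0 M), fun y hy i => by
    have := h (ye j y) (by rw [px_ye' (le_of_max_le_right hy)]; exact le_of_max_le_left hy) i
    rwa [px_ye' (le_of_max_le_right hy)] at this⟩
  rwa [tsum_one] at this

end Vale.Agent.P366M
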