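import Vale.Agent.P366M.End3

/-!
# P366M: integrals over the ends, extensions from an end to the whole space
-/

open MeasureTheory Metric Filter Topology Set
open scoped ContDiff ENNReal
open Vale.Agent.P366 Vale.Agent.P366.Stmt Vale.Agent.P366Z

noncomputable section

namespace Vale.Agent.P366M

theorem restrict_emb {α β : Type} [MeasurableSpace α] [MeasurableSpace β] {φ : α → β}
    (hφ : MeasurableEmbedding φ) (μ : Measure β) {s : Set α} (hs : MeasurableSet s) :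
    μ.restrict (φ '' s) = ((μ.comap φ).restrict s).map φ := by
  have h1 := hφ.restrict_map (μ.comap φ) (φ '' s)
  rw [preimage_image_eq _ hφ.injective, hφ.map_comap,
    Measure.restrict_restrict (hφ.measurableSet_image.2 hs),
    inter_eq_self_of_subset_left (image_subset_range _ _)] at h1
  exact h1

variable {n : ℕ} {M : Type} [Mfs n M] {j : Nd M} {x : M} {y z : E n} {e : Ch n M}
  {g T : Fld n M} {u v U : M → ℝ} {ρ : ℝ} {B : Set (E n)}

/-! ### the measure of the ends -/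

/-- the exterior region -/
def Xr (M : Type) [Mfs n M] : Set (E n) := {y | R0 M ≤ ‖y‖}

theorem closed_Xr : IsClosed (Xr M) := isClosed_le continuous_const continuous_norm

/-- the parametrisation of an end -/
def yr (j : Nd M) : Xr M → M := fun y => ye j y

theorem isometry_yr (j : Nd M) : Isometry (yr j) := Isometry.of_dist_eq fun a b => by
  have ha : R0 M ≤ ‖a.1‖ := a.2
  have hb : R0 M ≤ ‖b.1‖ := b.2
  unfold yr
  rw [dist_ye (by linarith) (by linarith), Subtype.dist_eq, dist_eq_norm]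

theorem closedEmb_yr (j : Nd M) : IsClosedEmbedding (yr j) :=
  have := (closed_Xr (M := M)).completeSpace_coe
  (isometry_yr j).isClosedEmbedding

theorem measEmb_yr (j : Nd M) : MeasurableEmbedding (yr j) := (closedEmb_yr j).measurableEmbedding

theorem measEmb_val : MeasurableEmbedding (Subtype.val : Xr M → E n) :=
  MeasurableEmbedding.subtype_coe closed_Xr.measurableSet

theorem image_yr (j : Nd M) (s : Set (Xr M)) : yr j '' s = ye j '' (Subtype.val '' s) := by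
  rw [image_image]; rfl

theorem image_val (hB : ∀ y ∈ B, R0 M ≤ ‖y‖) :
    Subtype.val '' ((Subtype.val : Xr M → E n) ⁻¹' B) = B :=
  image_preimage_eq_of_subset fun y hy => ⟨⟨y, hB y hy⟩, rfl⟩

theorem contOn_ye (j : Nd M) : ContinuousOn (ye j) (Xr M) :=
  continuousOn_iff_continuous_domRestrict.2 (isometry_yr j).continuous

theorem closed_ye (hc : IsClosed B) (hB : ∀ y ∈ B, R0 M ≤ ‖y‖) : IsClosed (ye j '' B) := by
  rw [← image_val hB, ← image_yr]
  exact (closedEmb_yr j).isClosedMap _ (hc.preimage continuous_subtype_val)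

theorem meas_ye (hm : MeasurableSet B) (hB : ∀ y ∈ B, R0 M ≤ ‖y‖) : MeasurableSet (ye j '' B) := by
  rw [← image_val hB, ← image_yr]
  exact (measEmb_yr j).measurableSet_image.2 (measEmb_val.measurable hm)

theorem open_ye (ho : IsOpen B) (hB : ∀ y ∈ B, R0 M ≤ ‖y‖) : IsOpen (ye j '' B) := by
  rw [isOpen_iff_mem_nhds]
  rintro _ ⟨y, hy, rfl⟩
  exact (ev_ye (hB y hy)).2 (Eventually.mono (ho.mem_nhds hy) fun z hz => ⟨z, hz, rfl⟩)

theorem comap_yr (j : Nd M) :
    (volume : Measure M).comap (yr j) = (volume : Measure (E n)).comap Subtype.val := by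
  obtain ⟨c, hc, hU⟩ := TopologicalSpace.countable_cover_nhds
    (f := fun y : Xr M => Subtype.val ⁻¹' ball y.1 5) fun y =>
      continuous_subtype_val.continuousAt.preimage_mem_nhds (ball_mem_nhds _ (by norm_num))
  refine Measure.ext_of_biUnion_eq_univ hc hU fun y _ => ?_
  ext s hs
  have h1 : MeasurableSet (s ∩ Subtype.val ⁻¹' ball y.1 5) :=
    hs.inter (measEmb_val.measurable measurableSet_ball)
  have h2 := measEmb_val.measurableSet_image.2 h1
  rw [Measure.restrict_apply hs, Measure.restrict_apply hs, (measEmb_yr j).comap_apply,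
    measEmb_val.comap_apply, image_yr]
  have h3 : ye j '' (Subtype.val '' (s ∩ Subtype.val ⁻¹' ball y.1 5)) =
      (ch (ye j y)).symm '' (Subtype.val '' (s ∩ Subtype.val ⁻¹' ball y.1 5)) :=
    image_congr (by rintro _ ⟨a, ha, rfl⟩; exact (symm_ye y.2 ha.2).symm)
  rw [h3, volume_eq, vol_image bg_met (ch_mem _) h2, ← setLIntegral_one]
  refine setLIntegral_congr_fun h2 ?_
  rintro _ ⟨a, ha, rfl⟩
  have h4 : P366Z.dens (rep (ch (ye j y)) bg) a = 1 := by
    rw [P366Z.dens_of_eq (g' := P366Z.eu n), P366Z.dens_eu]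
    rw [rep_ye_ball y.2 ha.2 a.2, bg_far (by rw [px_ye' a.2]; exact a.2)]
    rfl
  simp only [h4, ENNReal.ofReal_one]

theorem restrict_ye (j : Nd M) (hm : MeasurableSet B) (hB : ∀ y ∈ B, R0 M ≤ ‖y‖) :
    (volume : Measure M).restrict (ye j '' B) = (((volume : Measure (E n)).comap
      Subtype.val).restrict ((Subtype.val : Xr M → E n) ⁻¹' B)).map (yr j) := by
  rw [← comap_yr j, ← restrict_emb (measEmb_yr j) _ (measEmb_val.measurable hm), image_yr,
    image_val hB]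

theorem restrict_val (M : Type) [Mfs n M] {B : Set (E n)} (hm : MeasurableSet B)
    (hB : ∀ y ∈ B, R0 M ≤ ‖y‖) : (volume : Measure (E n)).restrict B =
      (((volume : Measure (E n)).comap Subtype.val).restrict
        ((Subtype.val : Xr M → E n) ⁻¹' B)).map Subtype.val := by
  rw [← restrict_emb measEmb_val _ (measEmb_val.measurable hm), image_val hB]

theorem lintegral_ye (j : Nd M) (hm : MeasurableSet B) (hB : ∀ y ∈ B, R0 M ≤ ‖y‖)
    (f : M → ℝ≥0∞) : ∫⁻ x in ye j '' B, f x = ∫⁻ y in B, f (ye j y) := by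
  rw [restrict_ye j hm hB, restrict_val M hm hB, (measEmb_yr j).lintegral_map,
    measEmb_val.lintegral_map]
  rfl

theorem volume_ye (j : Nd M) (hm : MeasurableSet B) (hB : ∀ y ∈ B, R0 M ≤ ‖y‖) :
    volume (ye j '' B) = volume B := by
  simpa using lintegral_ye j hm hB fun _ => 1

theorem ae_ye (j : Nd M) (hm : MeasurableSet B) (hB : ∀ y ∈ B, R0 M ≤ ‖y‖) {p : M → Prop} :
    (∀ᵐ x ∂volume.restrict (ye j '' B), p x) ↔ ∀ᵐ y ∂volume.restrict B, p (ye j y) := by
  rw [restrict_ye j hm hB, restrict_val M hm hB, (measEmb_yr j).ae_map_iff,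
    measEmb_val.ae_map_iff]
  rfl

theorem mem_ye (hB : ∀ y ∈ B, R0 M ≤ ‖y‖) (hx : x ∈ ye j '' B) : px x ∈ B := by
  obtain ⟨y, hy, rfl⟩ := hx
  rwa [px_ye' (hB y hy)]

theorem preimage_px (hB : ∀ y ∈ B, R0 M ≤ ‖y‖) : px ⁻¹' B = ⋃ j : Nd M, ye j '' B := by
  ext x
  refine ⟨fun hx => ?_, fun hx => ?_⟩
  · obtain ⟨j, hj⟩ := far_ex (x := x) (by linarith [hB _ hx])
    exact mem_iUnion.2 ⟨j, _, hx, hj⟩
  · obtain ⟨j, hj⟩ := mem_iUnion.1 hx
    exact mem_ye hB hj

theorem disjoint_ye (hB : ∀ y ∈ B, R0 M ≤ ‖y‖) :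
    Pairwise (Function.onFun Disjoint fun j : Nd M => ye j '' B) := fun j k hjk => by
  refine disjoint_left.2 ?_
  rintro _ ⟨y, hy, rfl⟩ ⟨z, hz, e⟩
  exact hjk (ye_inj (y := y) (z := z) (by linarith [hB y hy]) (by linarith [hB z hz])
    (by simp [e]))

theorem lintegral_px (hm : MeasurableSet B) (hB : ∀ y ∈ B, R0 M ≤ ‖y‖) (f : M → ℝ≥0∞) :
    ∫⁻ x in px ⁻¹' B, f x = ∑' j : Nd M, ∫⁻ y in B, f (ye j y) := by
  rw [preimage_px hB, lintegral_iUnion (fun j => meas_ye hm hB) (disjoint_ye hB)]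
  simp only [lintegral_ye _ hm hB]

section V

variable {V : Type} [NormedAddCommGroup V] [NormedSpace ℝ V]

theorem integral_ye (j : Nd M) (hm : MeasurableSet B) (hB : ∀ y ∈ B, R0 M ≤ ‖y‖) (f : M → V) :
    ∫ x in ye j '' B, f x = ∫ y in B, f (ye j y) := by
  rw [restrict_ye j hm hB, restrict_val M hm hB, (measEmb_yr j).integral_map,
    measEmb_val.integral_map]
  rfl

omit [NormedSpace ℝ V] in
theorem integrableOn_ye (j : Nd M) (hm : MeasurableSet B) (hB : ∀ y ∈ B, R0 M ≤ ‖y‖) (f : M → V) :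
    IntegrableOn f (ye j '' B) ↔ IntegrableOn (fun y => f (ye j y)) B := by
  unfold IntegrableOn
  rw [restrict_ye j hm hB, restrict_val M hm hB, (measEmb_yr j).integrable_map_iff,
    measEmb_val.integrable_map_iff]
  rfl

omit [NormedSpace ℝ V] in
theorem integrableOn_px (hm : MeasurableSet B) (hB : ∀ y ∈ B, R0 M ≤ ‖y‖) (f : M → V) :
    IntegrableOn f (px ⁻¹' B) ↔ ∀ j : Nd M, IntegrableOn (fun y => f (ye j y)) B := by
  rw [preimage_px hB, integrableOn_finite_iUnion]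
  simp only [integrableOn_ye _ hm hB]

theorem integral_px (hm : MeasurableSet B) (hB : ∀ y ∈ B, R0 M ≤ ‖y‖) {f : M → V}
    (hf : IntegrableOn f (px ⁻¹' B)) :
    ∫ x in px ⁻¹' B, f x = ∑' j : Nd M, ∫ y in B, f (ye j y) := by
  rw [preimage_px hB] at hf ⊢
  rw [integral_iUnion (fun j => meas_ye hm hB) (disjoint_ye hB) hf]
  simp only [integral_ye _ hm hB]

/-- a function which lives on one end -/
theorem integral_end (j : Nd M) {R : ℝ} (hR : R0 M ≤ R) {f : M → V} {F : E n → V}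
    (hf : ∀ x ∉ ye j '' {y | R ≤ ‖y‖}, f x = 0) (hF : ∀ y, ‖y‖ < R → F y = 0)
    (e : ∀ y, R ≤ ‖y‖ → f (ye j y) = F y) : ∫ x, f x = ∫ y, F y := by
  have hm : MeasurableSet {y : E n | R ≤ ‖y‖} :=
    (isClosed_le continuous_const continuous_norm).measurableSet
  rw [← setIntegral_eq_integral_of_forall_compl_eq_zero hf,
    ← setIntegral_eq_integral_of_forall_compl_eq_zero (s := {y : E n | R ≤ ‖y‖})
      fun y hy => hF y (not_le.1 fun k => hy k), integral_ye j hm fun y hy => hR.trans hy]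
  exact setIntegral_congr_fun hm e

end V

section one

variable {M : Type} [Mfe n M] {V : Type} [NormedAddCommGroup V] [NormedSpace ℝ V]

theorem preimage_px_one (hB : ∀ y ∈ B, R0 M ≤ ‖y‖) : px ⁻¹' B = (yp : E n → M) '' B := by
  rw [preimage_px hB]
  refine Subset.antisymm (iUnion_subset fun j => ?_) (subset_iUnion (fun j => ye j '' B) Mfe.o)
  rw [Mfe.one j]; rfl

theorem lintegral_fe (hm : MeasurableSet B) (hB : ∀ y ∈ B, R0 M ≤ ‖y‖) (f : M → ℝ≥0∞) :
    ∫⁻ x in px ⁻¹' B, f x = ∫⁻ y in B, fe f y := by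
  rw [preimage_px_one hB]; exact lintegral_ye _ hm hB f

theorem volume_px (hm : MeasurableSet B) (hB : ∀ y ∈ B, R0 M ≤ ‖y‖) :
    volume ((px : M → E n) ⁻¹' B) = volume B := by
  rw [preimage_px_one hB]; exact volume_ye _ hm hB

theorem integral_fe (hm : MeasurableSet B) (hB : ∀ y ∈ B, R0 M ≤ ‖y‖) (f : M → V) :
    ∫ x in px ⁻¹' B, f x = ∫ y in B, fe f y := by
  rw [preimage_px_one hB]; exact integral_ye _ hm hB f

omit [NormedSpace ℝ V] in
theorem integrableOn_fe (hm : MeasurableSet B) (hB : ∀ y ∈ B, R0 M ≤ ‖y‖) (f : M → V) :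
    IntegrableOn f (px ⁻¹' B) ↔ IntegrableOn (fe f) B := by
  rw [preimage_px_one hB]; exact integrableOn_ye _ hm hB f

theorem ae_fe (hm : MeasurableSet B) (hB : ∀ y ∈ B, R0 M ≤ ‖y‖) {p : M → Prop} :
    (∀ᵐ x ∂volume.restrict (px ⁻¹' B), p x) ↔ ∀ᵐ y ∂volume.restrict B, p (yp y) := by
  rw [preimage_px_one hB]; exact ae_ye _ hm hB

theorem meas_far (R : ℝ) : MeasurableSet {y : E n | R ≤ ‖y‖} :=
  (isClosed_le continuous_const continuous_norm).measurableSet

theorem lintegral_far {R : ℝ} (hR : R0 M ≤ R) (f : M → ℝ≥0∞) :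
    ∫⁻ x in {x | R ≤ ‖px x‖}, f x = ∫⁻ y in {y | R ≤ ‖y‖}, fe f y :=
  lintegral_fe (meas_far R) (fun _ hy => hR.trans hy) f

theorem integral_far {R : ℝ} (hR : R0 M ≤ R) (f : M → V) :
    ∫ x in {x | R ≤ ‖px x‖}, f x = ∫ y in {y | R ≤ ‖y‖}, fe f y :=
  integral_fe (meas_far R) (fun _ hy => hR.trans hy) f

omit [NormedSpace ℝ V] in
theorem integrableOn_far {R : ℝ} (hR : R0 M ≤ R) (f : M → V) :
    IntegrableOn f {x | R ≤ ‖px x‖} ↔ IntegrableOn (fe f) {y | R ≤ ‖y‖} :=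
  integrableOn_fe (meas_far R) (fun _ hy => hR.trans hy) f

/-- functions which vanish inside the radius `R` -/
theorem integral_out {R : ℝ} (hR : R0 M ≤ R) {f : M → V} {F : E n → V}
    (hf : ∀ x, ‖px x‖ < R → f x = 0) (hF : ∀ y, ‖y‖ < R → F y = 0)
    (e : ∀ y, R ≤ ‖y‖ → f (yp y) = F y) : ∫ x, f x = ∫ y, F y :=
  integral_end Mfe.o hR (fun x hx => hf x (not_le.1 fun k => hx
    ⟨px x, k, yp_px (by linarith)⟩)) hF e

theorem lintegral_out {R : ℝ} (hR : R0 M ≤ R) {f : M → ℝ≥0∞} {F : E n → ℝ≥0∞}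
    (hf : ∀ x, ‖px x‖ < R → f x = 0) (hF : ∀ y, ‖y‖ < R → F y = 0)
    (e : ∀ y, R ≤ ‖y‖ → f (yp y) = F y) : ∫⁻ x, f x = ∫⁻ y, F y := by
  rw [← setLIntegral_eq_of_support_subset (s := {x | R ≤ ‖px x‖})
      fun x hx => not_lt.1 fun k => hx (hf x k),
    ← setLIntegral_eq_of_support_subset (s := {y | R ≤ ‖y‖})
      fun y hy => not_lt.1 fun k => hy (hF y k), lintegral_far hR]
  exact setLIntegral_congr_fun (meas_far R) e

omit [NormedSpace ℝ V] in
theorem integrable_out {R : ℝ} (hR : R0 M ≤ R) {f : M → V} {F : E n → V}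
    (hf : ∀ x, ‖px x‖ < R → f x = 0) (hF : ∀ y, ‖y‖ < R → F y = 0)
    (e : ∀ y, R ≤ ‖y‖ → f (yp y) = F y) : Integrable f ↔ Integrable F := by
  rw [← integrableOn_iff_integrable_of_support_subset (s := {x | R ≤ ‖px x‖})
      fun x hx => not_lt.1 fun k => hx (hf x k),
    ← integrableOn_iff_integrable_of_support_subset (s := {y | R ≤ ‖y‖})
      fun y hy => not_lt.1 fun k => hy (hF y k), integrableOn_far hR]
  exact integrableOn_congr_fun e (meas_far R)

end one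

/-! ### extensions -/

/-- zero for `‖y‖ ≤ R0 + 1 / 4`, one for `R0 + 1 / 2 ≤ ‖y‖` -/
def xc0 (M : Type) [Mfs n M] (y : E n) : ℝ := Real.smoothTransition (‖y‖ ^ 2 - (R0 M + 1 / 4) ^ 2)

theorem sm_xc0 : Stmt.Smooth (xc0 M) :=
  Real.smoothTransition.contDiff.comp (P366Z.contDiff_normSq.sub contDiff_const)

theorem xc0_nonneg (y : E n) : 0 ≤ xc0 M y := Real.smoothTransition.nonneg _

theorem xc0_le_one (y : E n) : xc0 M y ≤ 1 := Real.smoothTransition.le_one _

theorem xc0_zero (h : ‖y‖ ≤ R0 M + 1 / 4) : xc0 M y = 0 :=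
  Real.smoothTransition.zero_of_nonpos (by nlinarith [norm_nonneg y])

theorem xc0_one (h : R0 M + 1 / 2 ≤ ‖y‖) : xc0 M y = 1 :=
  Real.smoothTransition.one_of_one_le (by nlinarith [R0_ge M])

section V

variable {V : Type} [NormedAddCommGroup V] [NormedSpace ℝ V] {F G : E n → V} {m : WithTop ℕ∞}

/-- `F` far out and `G` inside -/
def xt (M : Type) [Mfs n M] (F G : E n → V) (y : E n) : V := xc0 M y • F y + (1 - xc0 M y) • G y

theorem xt_eq (h : R0 M + 1 / 2 ≤ ‖y‖) : xt M F G y = F y := by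
  simp [xt, xc0_one h]

theorem xt_in (h : ‖y‖ ≤ R0 M + 1 / 4) : xt M F G y = G y := by
  simp [xt, xc0_zero h]

theorem xt_ev (h : R0 M + 1 / 2 < ‖y‖) : xt M F G =ᶠ[𝓝 y] F :=
  (ev_lt_norm h).mono fun _ hz => xt_eq hz.le

theorem cd_xt (hm : m ≤ (⊤ : ℕ∞)) (hF : ∀ y, R0 M < ‖y‖ → ContDiffAt ℝ m F y) (hG : ContDiff ℝ m G) :
    ContDiff ℝ m (xt M F G) := contDiff_iff_contDiffAt.2 fun y => by
  have h0 : ContDiffAt ℝ m (xc0 M) y := (ContDiff.of_le sm_xc0 hm).contDiffAt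
  by_cases h : R0 M < ‖y‖
  · exact (h0.smul (hF y h)).add ((contDiffAt_const.sub h0).smul hG.contDiffAt)
  · refine hG.contDiffAt.congr_of_eventuallyEq ?_
    filter_upwards [(isOpen_lt continuous_norm continuous_const).mem_nhds
      (show ‖y‖ < R0 M + 1 / 4 by linarith [not_lt.1 h])] with z hz using xt_in (le_of_lt hz)

/-- the extension of a function from the end `j`, with the value `c` inside -/
def xfj (j : Nd M) (c : V) (f : M → V) : E n → V := xt M (fj j f) fun _ => c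

variable {f : M → V} {c : V}

theorem xfj_eq (h : R0 M + 1 / 2 ≤ ‖y‖) : xfj j c f y = f (ye j y) := xt_eq h

theorem xfj_ev (h : R0 M + 1 / 2 < ‖y‖) : xfj j c f =ᶠ[𝓝 y] fj j f := xt_ev h

theorem cd_xfj (hm : m ≤ (⊤ : ℕ∞)) (hf : ∀ y, R0 M < ‖y‖ → CAt m f (ye j y)) : ContDiff ℝ m (xfj j c f) :=
  cd_xt hm (fun y h => (cAt_ye h.le).1 (hf y h)) contDiff_const

theorem CD.xfj (hf : CD m f) (hm : m ≤ (⊤ : ℕ∞)) (j : Nd M) (c : V) : ContDiff ℝ m (xfj j c f) :=
  cd_xfj hm fun _ _ => hf.contDiffAt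

theorem fd_xfj (h : R0 M + 1 / 2 < ‖y‖) : fd f (ye j y) = fderiv ℝ (xfj j c f) y := by
  rw [fd_ye (by linarith), (xfj_ev h).fderiv_eq]

theorem tendsto_xfj {l : Filter V} :
    Tendsto (xfj j c f) (cocompact (E n)) l ↔ Tendsto (fj j f) (cocompact (E n)) l :=
  tendsto_congr' (ev_cocompactE.2 ⟨R0 M + 1 / 2, fun _ h => xfj_eq h⟩)

end V

variable {c d : ℝ}

theorem Smooth.xfj (hu : Smooth u) (j : Nd M) (c : ℝ) : Stmt.Smooth (xfj j c u) :=
  CD.xfj hu le_rfl j c

theorem xfj_mem {a b : ℝ} (hc : c ∈ Icc a b) (hu : ∀ x, u x ∈ Icc a b) (y : E n) :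
    xfj j c u y ∈ Icc a b :=
  (convex_Icc a b) (hu _) hc (xc0_nonneg y) (sub_nonneg.2 (xc0_le_one y)) (by ring)

theorem xfj_pos (hc : 0 < c) (hu : ∀ x, 0 < u x) (y : E n) : 0 < xfj j c u y :=
  (convex_Ioi (0 : ℝ)) (hu _) hc (xc0_nonneg y) (sub_nonneg.2 (xc0_le_one y)) (by ring)

theorem pd_xfj (h : R0 M + 1 / 2 < ‖y‖) (i : Fin n) :
    pd i u (ye j y) = Stmt.pd i (xfj j c u) y := by
  rw [pd_ye (by linarith), P366Z.pd_congr (xfj_ev h)]

theorem pd2_xfj (h : R0 M + 1 / 2 < ‖y‖) (a b : Fin n) :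
    pd2 a b u (ye j y) = Stmt.pd a (Stmt.pd b (xfj j c u)) y := by
  rw [pd2_ye (by linarith), P366Z.pd_congr (P366Z.pd_congr_ev (xfj_ev h) b)]

theorem lap_xfj (h : R0 M + 1 / 2 < ‖y‖) :
    lap (eu n) u (ye j y) = P366Z.lap (P366Z.eu n) (xfj j c u) y := by
  rw [lap_ye (by linarith), fj_eu, P366Z.lap_congr (xfj_ev h)]

theorem wl_xfj (h : R0 M + 1 / 2 < ‖y‖) :
    wl (eu n) U u (ye j y) = P366Z.wl (P366Z.eu n) (xfj j d U) (xfj j c u) y := by
  rw [wl_ye (by linarith), fj_eu, P366Z.wl_congr (xfj_ev h) (xfj_ev h)]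

theorem asy_congr {F G : E n → ℝ} {a β R : ℝ} (e : ∀ y, R ≤ ‖y‖ → G y = F y)
    (h : P366Z.Asy F a β) : P366Z.Asy G a β := by
  obtain ⟨C, R', h⟩ := h
  refine ⟨C, max R' (R + 1), fun y hy => ?_⟩
  have h1 : G =ᶠ[𝓝 y] F := (ev_lt_norm (ρ := R) (by linarith [le_max_right R' (R + 1)])).mono
    fun z hz => e z hz.le
  simp only [h1.eq_of_nhds, P366Z.pd_congr h1]
  exact h y ((le_max_left _ _).trans hy)

theorem asyE_xfj {a β : ℝ} : AsyE j u a β ↔ P366Z.Asy (xfj j c u) a β :=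
  ⟨asy_congr fun _ h => xfj_eq h, asy_congr fun _ h => (xfj_eq h).symm⟩

/-- the extension of a tensor from the end `j`, with the value `S` inside -/
def xTj (j : Nd M) (T : Fld n M) (S : Field n) : Field n := xt M (fj j T) S

theorem xTj_apply (j : Nd M) (T : Fld n M) (S : Field n) (y : E n) (a b : Fin n) :
    xTj j T S y a b = xc0 M y * T (ye j y) a b + (1 - xc0 M y) * S y a b := rfl

variable {S : Field n}

theorem xTj_eq (h : R0 M + 1 / 2 ≤ ‖y‖) : xTj j T S y = T (ye j y) := xt_eq h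

theorem xTj_ev (h : R0 M + 1 / 2 < ‖y‖) : xTj j T S =ᶠ[𝓝 y] fj j T := xt_ev h

theorem SmT.xTj (hT : SmT T) (j : Nd M) (hS : ∀ a b, Stmt.Smooth fun y => S y a b) (a b : Fin n) :
    Stmt.Smooth fun y => xTj j T S y a b :=
  cd_xt (M := M) (F := fun y => fj j T y a b) le_rfl (fun _ h => hT.fj_at h a b) (hS a b)

/-- the extension of a metric from the end `j` -/
def xgj (j : Nd M) (g : Fld n M) : Field n := xTj j g (P366Z.eu n)

theorem xgj_eq (h : R0 M + 1 / 2 ≤ ‖y‖) : xgj j g y = g (ye j y) := xt_eq h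

theorem xgj_ev (h : R0 M + 1 / 2 < ‖y‖) : xgj j g =ᶠ[𝓝 y] fj j g := xt_ev h

theorem Met.xgj (hg : Met g) (j : Nd M) : P366Z.Met (xgj j g) where
  sm := hg.sm.xTj j met_eu.sm
  sy y a b := by
    unfold P366M.xgj
    rw [xTj_apply, xTj_apply, hg.sy, met_eu.sy]
  pos y := by
    have h1 : Stmt.mat (P366M.xgj j g) y =
        xc0 M y • mat g (ye j y) + (1 - xc0 M y) • Stmt.mat (P366Z.eu n) y := rfl
    rw [h1]
    rcases (xc0_nonneg (M := M) y).eq_or_lt with h | h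
    · rw [← h]; simpa using met_eu.pos y
    · exact ((hg.pos _).smul h).add_posSemidef
        ((met_eu.pos y).posSemidef.smul (sub_nonneg.2 (xc0_le_one y)))

theorem Flat.xgj (hf : Flat g ρ) (j : Nd M) : P366Z.Flat (xgj j g) ρ := fun y hy => by
  rw [xgj_eq (by linarith [hf.R])]; exact hf.fj_eq j y hy

end Vale.Agent.P366M
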