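import Vale.Agent.P366M.Defs

/-!
# P366M: exterior initial data on a manifold with one end
-/

open MeasureTheory Metric Filter Topology Set
open scoped ContDiff ENNReal
open Vale.Agent.P366 Vale.Agent.P366.Stmt Vale.Agent.P366Z

noncomputable section

namespace Vale.Agent.P366M

variable {n : ℕ} {M : Type} [Mfe n M]

/-- `F` is a smooth defining function of an exterior domain `{0 ≤ F}` -/
def IsExt (F : M → ℝ) : Prop :=
  Smooth F ∧ (∀ x, F x = 0 → ∃ i, pd i F x ≠ 0) ∧ IsConnected {x | 0 ≤ F x} ∧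
    ∃ R, ∀ x, R < ‖px x‖ → 0 < F x

/-- initial data on the exterior domain `{0 ≤ F}` -/
structure Exterior (n : ℕ) (M : Type) [Mfe n M] where
  F : M → ℝ
  g : Fld n M
  K : Fld n M
  dom : IsExt F
  bdry : ∃ x, F x = 0
  met : Met g
  smK : SmT K
  syK : ∀ x i j, K x i j = K x j i

namespace Exterior

variable (D : Exterior n M)

/-- asymptotic flatness of order `q > (n - 2) / 2` -/
def IsAF : Prop := ∃ q : ℝ, (n : ℝ) / 2 - 1 < q ∧ ∀ i j k l,
    BigO q (fun y => fe D.g y i j - if i = j then 1 else 0) ∧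
    BigO (q + 1) (Stmt.pd k fun y => fe D.g y i j) ∧
    BigO (q + 1 + 1) (Stmt.pd l (Stmt.pd k fun y => fe D.g y i j)) ∧
    BigO (q + 1) (fun y => fe D.K y i j) ∧
    BigO (q + 1 + 1) (Stmt.pd k fun y => fe D.K y i j)

/-- the dominant energy condition -/
def DEC : Prop := ∀ x, 0 ≤ D.F x → covNorm D.g (mom D.g D.K) x ≤ mu D.g D.K x

/-- the boundary is weakly future trapped -/
def Trapped : Prop := ∀ x, D.F x = 0 → thetaPlus D.g D.K D.F x ≤ 0

/-- `m` is the ADM energy -/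
def IsEnergy (m : ℝ) : Prop :=
  Tendsto (flx fun i y => (∑ j, (Stmt.pd j (fun z => fe D.g z i j) y -
    Stmt.pd i (fun z => fe D.g z j j) y)) / 2) atTop (𝓝 m)

/-- `P` is the ADM momentum -/
def IsMomentum (P : Fin n → ℝ) : Prop :=
  ∀ i, Tendsto (flx fun j y => Stmt.momT (fe D.g) (fe D.K) y i j) atTop (𝓝 (P i))

/-- admissible test fields -/
def TestField (X : Fin n → M → ℝ) : Prop :=
  CV ∞ X ∧ (∃ R, ∀ x, R < ‖px x‖ → ∀ i, X i x = 0) ∧
    ∀ x, 0 ≤ D.F x → ∑ i, ∑ j, D.g x i j * X i x * X j x ≤ 1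

/-- the `g`-area of the boundary of `{0 ≤ G}` -/
def area (G : M → ℝ) : ℝ≥0∞ :=
  sSup {a | ∃ X, D.TestField X ∧ a = ENNReal.ofReal
    (∫ x in {x | 0 ≤ G x}, dv D.g X x * dens D.g x)}

/-- the infimum of the areas of the enclosing cuts -/
def Amin : ℝ≥0∞ := sInf {a | ∃ G, IsExt G ∧ (∀ x, 0 ≤ G x → 0 ≤ D.F x) ∧ a = D.area G}

end Exterior

/-- **the target of the port** -/
def FULL : Prop := ∀ (n : ℕ) (M : Type) [Mfe n M] (D : Exterior n M) (m : ℝ) (P : Fin n → ℝ),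
  3 ≤ n → D.IsAF → D.DEC → D.Trapped → D.IsEnergy m → D.IsMomentum P →
    D.Amin ≠ ⊤ ∧ √(∑ i, P i ^ 2) < m ∧
      (D.Amin.toReal / omega n) ^ (((n : ℝ) - 2) / (n - 1)) / 2 ≤ √(m ^ 2 - ∑ i, P i ^ 2)

end Vale.Agent.P366M
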