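import Vale.Agent.P366M.Sub
import Vale.Agent.P366Z.Sch1

/-!
# P366M: the linear equation `div (U² ∇ h) = V h - f` with limits in the ends
-/

open Metric Filter Topology Set
open scoped ContDiff
open Vale.Agent.P366 Vale.Agent.P366.Stmt Vale.Agent.P366Z

noncomputable section

namespace Vale.Agent.P366M

variable {n : ℕ} {M : Type} [Mfs n M] {g : Fld n M} {ρ R' : ℝ} {U V f u v : M → ℝ}

/-- weights which are almost harmonic far out -/
structure Wa (g : Fld n M) (U : M → ℝ) : Prop where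
  wt : Wt g U
  far : ∃ R S : ℝ, ∀ x, R ≤ ‖px x‖ → |lap g U x| ≤ S * ‖px x‖ ^ (-(n + 2) : ℝ)

theorem wt_one (g : Fld n M) : Wt g fun _ => 1 := ⟨cd_const, 1, one_pos, 1, fun x => by
  simp [fd_const, lap_const]⟩

theorem wa_one (g : Fld n M) : Wa g fun _ => 1 := ⟨wt_one g, 0, 0, fun x _ => by simp [lap_const]⟩

/-- the barrier -/
theorem Wa.barrier (hU : Wa g U) (hn : 3 ≤ n) (hg : Met g) (hf : Flat g ρ) (R' : ℝ) :
    ∃ φ : M → ℝ, CD 2 φ ∧ (∃ A, ∀ x, |φ x| ≤ A) ∧ (∀ x, 0 ≤ φ x ∧ wl g U φ x ≤ 0) ∧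
      (∀ x, ‖px x‖ ≤ R' → 1 ≤ φ x) ∧ Tendsto φ (cocompact M) (𝓝 0) := by
  obtain ⟨F, F1, F2, F3, F4, c, c1, c2, c3⟩ := P366Z.SchX.ex_F
  obtain ⟨a, a0, C, hC⟩ := hU.wt.bd
  obtain ⟨R, S, hS⟩ := hU.far
  have U0 := hU.wt.pos
  have sU := hU.wt.sm
  have C0 : 0 < C := (U0 (Classical.arbitrary M)).trans_le (hC _).2.1
  obtain ⟨R₀, r1, r2, r3, r4⟩ : ∃ R₀, R ≤ R₀ ∧ R' ≤ R₀ ∧ ρ ≤ R₀ ∧ 4 * |S| / a ≤ R₀ :=
    ⟨max (max R R') (max ρ (4 * |S| / a)), by simp, by simp, by simp, by simp⟩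
  have r5 := hf.one_le.trans r3
  have n3 : (3 : ℝ) ≤ n := by exact_mod_cast hn
  obtain ⟨A, hA⟩ : ∃ A : ℝ, A = 2 * C * (R₀ + 1) ^ (1 / 2 : ℝ) := ⟨_, rfl⟩
  have A0 : 0 < A := by rw [hA]; positivity
  obtain ⟨G, hG⟩ : ∃ G : M → ℝ, G = fun x => A * ‖px x‖ ^ (-(1 / 2) : ℝ) / U x := ⟨_, rfl⟩
  have G0 : ∀ x, 0 ≤ G x := fun x => by
    rw [hG]
    exact div_nonneg (by positivity) (U0 x).le
  have G1 : ∀ x, px x ≠ 0 → CAt 2 G x := fun x hx => by
    rw [hG]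
    exact (cAt_const.mul (contDiffAt_norm_rpow hx two_le_oo _)).div (sU.c2 x) (U0 x).ne'
  have G2 : ∀ x, R₀ < ‖px x‖ → ‖px x‖ < R₀ + 1 → 2 ≤ G x := fun x h1 h2 => by
    have h3 := Real.rpow_le_rpow_of_nonpos (by linarith) h2.le (by norm_num : (-(1 / 2) : ℝ) ≤ 0)
    have h4 : A * (R₀ + 1) ^ (-(1 / 2) : ℝ) = 2 * C := by
      rw [hA, mul_assoc, ← Real.rpow_add (by linarith), add_neg_cancel, Real.rpow_zero, mul_one]
    rw [hG, le_div_iff₀ (U0 x)]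
    nlinarith [(hC x).2.1, mul_le_mul_of_nonneg_left h3 A0.le]
  have nz : ∀ x : M, R₀ < ‖px x‖ → px x ≠ 0 := fun x h => norm_pos_iff.1 (by linarith)
  have G3 : ∀ x, R₀ < ‖px x‖ → wl g U G x ≤ 0 := fun x h1 => by
    have p0 : 0 < ‖px x‖ := by linarith
    have h2 := hg.mul_lap_mul (sU.c2 x) (G1 x (nz x h1))
    have h3 : ∀ y, U y * G y = A * ‖px y‖ ^ (-(1 / 2) : ℝ) := fun y => by
      rw [hG, mul_div_cancel₀ _ (U0 y).ne']
    rw [funext h3, h3, lap_const_mul, hf.lap_eq (r3.trans_lt h1),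
      lap_eu_rpow (hf.far (r3.trans h1.le)), Real.rpow_sub p0, Real.rpow_two] at h2
    have h4 := (abs_le.1 (hS x (r1.trans h1.le))).1
    have h5 := Real.rpow_le_rpow_of_exponent_le (r5.trans h1.le)
      (by push_cast; linarith : (-(n + 2) : ℝ) ≤ -((3 : ℕ) : ℝ))
    rw [Real.rpow_neg p0.le ((3 : ℕ) : ℝ), Real.rpow_natCast] at h5
    have h6 : |S| * (‖px x‖ ^ 3)⁻¹ ≤ a / 4 * (‖px x‖ ^ 2)⁻¹ := by
      rw [pow_succ, mul_inv, mul_left_comm, mul_comm]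
      refine mul_le_mul_of_nonneg_right ?_ (by positivity)
      rw [mul_inv_le_iff₀ p0]
      rw [div_le_iff₀ a0] at r4
      nlinarith
    have h7 : U x * (-(1 / 2) * (-(1 / 2) + n - 2) * (‖px x‖ ^ 2)⁻¹) ≤ lap g U x := by
      have k1 := mul_le_mul (le_abs_self S) h5 (by positivity) (abs_nonneg S)
      have k2 := mul_nonneg (U0 x).le
        (mul_nonneg (sub_nonneg.2 n3) (inv_nonneg.2 (sq_nonneg ‖px x‖)))
      have k3 := mul_le_mul_of_nonneg_right (hC x).1 (inv_nonneg.2 (sq_nonneg ‖px x‖))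
      linarith
    have h8 := mul_le_mul_of_nonneg_left h7
      (show 0 ≤ A * ‖px x‖ ^ (-(1 / 2) : ℝ) by positivity)
    rw [div_eq_mul_inv _ (‖px x‖ ^ 2)] at h2
    linarith
  have e1 : ∀ x : M, ‖px x‖ < R₀ + 1 → (fun y => if ‖px y‖ < R₀ + 1 then c else F (G y)) =ᶠ[𝓝 x]
      fun _ => c := fun x h => (ev_px_lt h).mono fun y hy => if_pos hy
  have e2 : ∀ x : M, R₀ < ‖px x‖ → (if ‖px x‖ < R₀ + 1 then c else F (G x)) = F (G x) :=
    fun x h => by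
      split_ifs with h'
      exacts [(c3 _ (G2 x h h')).symm, rfl]
  have e3 : ∀ x : M, R₀ < ‖px x‖ → (fun y => if ‖px y‖ < R₀ + 1 then c else F (G y)) =ᶠ[𝓝 x]
      fun y => F (G y) := fun x h => (ev_lt_px h).mono e2
  have F5 : ∀ t, ContDiffAt ℝ 2 F t := fun t => F1.contDiffAt.of_le (by norm_cast)
  have p1 : ∀ x : M, 0 ≤ (if ‖px x‖ < R₀ + 1 then c else F (G x)) ∧
      (if ‖px x‖ < R₀ + 1 then c else F (G x)) ≤ c := fun x => by
    split_ifs
    exacts [⟨by linarith, le_rfl⟩, ⟨F3.ge.trans (F4 (G0 x)), c2 _⟩]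
  refine ⟨fun y => if ‖px y‖ < R₀ + 1 then c else F (G y), cd_of_cAt two_le_oo fun x => ?_,
    ⟨c, fun x => by rw [abs_of_nonneg (p1 x).1]; exact (p1 x).2⟩, fun x => ⟨(p1 x).1, ?_⟩,
    fun x h => c1.trans_eq (if_pos (by linarith)).symm, ?_⟩
  · rcases lt_or_ge R₀ ‖px x‖ with h | h
    · exact ((F5 _).compM (G1 x (nz x h))).congr_of_eventuallyEq (e3 x h)
    · exact cAt_const.congr_of_eventuallyEq (e1 x (by linarith))
  · rcases lt_or_ge R₀ ‖px x‖ with h | h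
    · rw [wl_congr EventuallyEq.rfl (e3 x h), hg.wl_comp (sU.diff x) (G1 x (nz x h)) (F5 _)]
      exact add_nonpos (mul_nonpos_of_nonneg_of_nonpos (F2 _).1 (G3 x h))
        (mul_nonpos_of_nonpos_of_nonneg (F2 _).2 (mul_nonneg (sq_nonneg _) (hg.ip_nonneg _ _)))
    · rw [wl_congr EventuallyEq.rfl (e1 x (by linarith)), wl_const]
  · have t1 : Tendsto (fun x : M => A * ‖px x‖ ^ (-(1 / 2) : ℝ) / a) (cocompact M) (𝓝 0) := by
      simpa using (((tendsto_rpow_neg_atTop (by norm_num : (0 : ℝ) < 1 / 2)).comp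
        (tendsto_npx (M := M))).const_mul A).div_const a
    have t2 : Tendsto G (cocompact M) (𝓝 0) := squeeze_zero G0 (fun x => by
      rw [hG]
      exact div_le_div_of_nonneg_left (by positivity) a0 (hC x).1) t1
    have t3 := (F1.continuous.tendsto 0).comp t2
    rw [F3] at t3
    exact t3.congr' ((tendsto_npx.eventually (eventually_gt_atTop R₀)).mono fun x h =>
      (e2 x h).symm)

/-- the equation with compactly supported data between a subsolution and a supersolution -/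
theorem SUBS.cpt (hS : SUBS) (hn : 0 < n) (hg : Met g) (hf : Flat g ρ) (hU : Wt g U)
    (hV : Smooth V) (sf : Smooth f) (e : ∀ x, R' ≤ ‖px x‖ → V x = 0 ∧ f x = 0) {u₁ u₂ : M → ℝ}
    (s1 : CD 2 u₁) (s2 : CD 2 u₂) (b1 : ∃ A, ∀ x, |u₁ x| ≤ A) (b2 : ∃ A, BL A u₂)
    (le : ∀ x, u₁ x ≤ u₂ x) (e1 : ∀ x, V x * u₁ x - f x ≤ wl g U u₁ x)
    (e2 : ∀ x, wl g U u₂ x ≤ V x * u₂ x - f x) : ∃ u, Smooth u ∧ (∃ A, BL A u) ∧
      (∀ x, u₁ x ≤ u x ∧ u x ≤ u₂ x) ∧ ∀ x, wl g U u x = V x * u x - f x := by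
  have U0 : ∀ x, U x ^ 2 ≠ 0 := fun x => (pow_pos (hU.pos x) 2).ne'
  have k : ∀ x t, U x ^ 2 * (V x / U x ^ 2 * t + -f x / U x ^ 2) = V x * t - f x := fun x t => by
    have := (hU.pos x).ne'
    field_simp
    ring
  have a1 : Smooth fun x => V x / U x ^ 2 := CD.div hV (CD.pow hU.sm 2) U0
  have a2 : Smooth fun x => -f x / U x ^ 2 := CD.div (CD.neg sf) (CD.pow hU.sm 2) U0
  simpa only [k] using hS n M g ρ U _ _ u₁ u₂ hn hg hf hU a1
    (bl_of_const a1 (R := R') (c := 0) fun y hy => by rw [(e y hy.le).1, zero_div]) a2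
    (bl_of_const a2 (R := R') (c := 0) fun y hy => by rw [(e y hy.le).2, neg_zero, zero_div])
    s1 s2 b1 b2 le (by simpa only [k] using e1) (by simpa only [k] using e2)

/-! ### the label of the end -/

section En

variable [Nonempty (Nd M)] {j : Nd M} {y : E n} {x : M}

open Classical in
/-- the end in which a far point lies -/
def en (x : M) : Nd M := if h : ∃ j : Nd M, ye j (px x) = x then h.choose else Classical.arbitrary _

theorem ye_en (hx : R0 M - 6 ≤ ‖px x‖) : ye (en x) (px x) = x := by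
  unfold en
  rw [dif_pos (far_ex hx)]
  exact (far_ex hx).choose_spec

theorem en_ye (h : R0 M - 6 ≤ ‖y‖) : en (ye j y) = j := by
  have h1 := ye_en (x := ye j y) (by rwa [px_ye h])
  rw [px_ye h] at h1
  by_contra k
  have := Mfs.sep _ _ y y k h h
  rw [h1, dist_self] at this
  linarith

theorem en_ev (hx : R0 M ≤ ‖px x‖) : ∀ᶠ z in 𝓝 x, en z = en x := by
  obtain ⟨j, y, rfl, h⟩ := far_rep (x := x) (by linarith)
  rw [h] at hx
  rw [ev_ye hx, en_ye (by linarith)]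
  exact (ev_lt_norm (show R0 M - 6 < ‖y‖ by linarith)).mono fun z hz => en_ye hz.le

/-- the function with the value `c j` far out in the end `j` -/
def ec (r : ℝ) (c : Nd M → ℝ) (x : M) : ℝ := (1 - cut r x) * c (en x)

variable {r : ℝ} {c : Nd M → ℝ}

theorem ec_in (hx : ‖px x‖ ≤ r) : ec r c x = 0 := by rw [ec, cut_one hx, sub_self, zero_mul]

theorem ec_out (hr : 0 < r) (hx : 2 * r ≤ ‖px x‖) : ec r c x = c (en x) := by
  rw [ec, cut_zero hr hx, sub_zero, one_mul]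

theorem ec_ev (hr : R0 M ≤ r) (hx : 2 * r < ‖px x‖) : ec r c =ᶠ[𝓝 x] fun _ => c (en x) := by
  have := R0_ge M
  filter_upwards [ev_lt_px hx, en_ev (x := x) (by linarith)] with z h1 h2
  rw [ec_out (by linarith) h1.le, h2]

theorem ec_ye (hr : R0 M ≤ r) (h : 2 * r ≤ ‖y‖) : ec r c (ye j y) = c j := by
  have := R0_ge M
  rw [ec_out (by linarith) (by rwa [px_ye' (by linarith)]), en_ye (by linarith)]

theorem sm_ec (hr : R0 M < r) : Smooth (ec r c) := cd_of_cAt le_rfl fun x => by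
  rcases lt_or_ge ‖px x‖ r with h | h
  · exact (cAt_const (c := 0)).congr_of_eventuallyEq ((ev_px_lt h).mono fun z hz => ec_in hz.le)
  · exact ((cAt_const.sub (CD.contDiffAt (sm_cut r))).mul (cAt_const (c := c (en x)))
      ).congr_of_eventuallyEq ((en_ev (hr.le.trans h)).mono fun z hz => by rw [ec, hz])

theorem bl_ec (hr : R0 M < r) : ∃ A, BL A (ec r c) := by
  obtain ⟨B, hB⟩ := (finite_range fun j => |c j|).bddAbove
  obtain ⟨K, -, hK⟩ := fd_bdd_of_out (sm_ec (c := c) hr).one (R := 2 * r) (C := 0) fun y hy => by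
    rw [fd_congr (ec_ev hr.le hy), fd_const, norm_zero]
  refine exists_bl (sm_ec hr).diff (A := B) (fun x => ?_) hK
  rw [ec, norm_mul, Real.norm_of_nonneg (sub_nonneg.2 (cut_le_one r x))]
  exact (mul_le_of_le_one_left (norm_nonneg _) (by linarith [cut_nonneg r x])).trans
    (hB (mem_range_self _))

theorem tendsto_ec (hr : R0 M ≤ r) (j : Nd M) :
    Tendsto (fj j (ec r c)) (cocompact (E n)) (𝓝 (c j)) :=
  tendsto_const_nhds.congr' (ev_cocompactE.2 ⟨2 * r, fun _ h => (ec_ye hr h).symm⟩)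

end En

variable [ConnectedSpace M] [Nonempty (Nd M)]

/-- the minimum principle with limits in the ends -/
theorem Met.wmp_ends (hg : Met g) (hn : 0 < n) (hU : Smooth U) (U0 : ∀ x, 0 < U x)
    (V0 : ∀ x, 0 ≤ V x) (hu : CD 2 u) (e : ∀ x, wl g U u x ≤ V x * u x) {c : Nd M → ℝ}
    (t : ∀ j, Tendsto (fj j u) (cocompact (E n)) (𝓝 (c j))) (c0 : ∀ j, 0 ≤ c j) (x : M) :
    0 ≤ u x :=
  wmp n M g U u V univ hn hg hU U0 isOpen_univ hu.continuous.continuousOn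
    (fun y _ => ⟨hu.contDiffAt, V0 y, e y⟩) (fun y hy => by simp at hy) (fun ε hε =>
      let ⟨R, hR⟩ := ev_cocompact.1 (ev_cocompact_iff.2 fun j => ((t j).eventually
        (eventually_ge_nhds (show -ε < c j by linarith [c0 j]))))
      ⟨R, fun y _ hy => hR y hy⟩) x (mem_univ x)

/-- the comparison principle with limits in the ends -/
theorem Met.cmp_ends (hg : Met g) (hn : 0 < n) (hU : Smooth U) (U0 : ∀ x, 0 < U x)
    (V0 : ∀ x, 0 ≤ V x) (hu : CD 2 u) (hv : CD 2 v)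
    (e : ∀ x, wl g U v x - V x * v x ≤ wl g U u x - V x * u x) {c d : Nd M → ℝ}
    (tu : ∀ j, Tendsto (fj j u) (cocompact (E n)) (𝓝 (c j)))
    (tv : ∀ j, Tendsto (fj j v) (cocompact (E n)) (𝓝 (d j))) (cd : ∀ j, c j ≤ d j) (x : M) :
    u x ≤ v x :=
  sub_nonneg.1 (hg.wmp_ends hn hU U0 V0 (hv.sub hu) (fun y => by
    rw [hg.wl_sub (hU.diff y) hv.contDiffAt hu.contDiffAt]
    linarith [e y]) (fun j => (tv j).sub (tu j)) (fun j => sub_nonneg.2 (cd j)) x)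

/-- uniqueness -/
theorem Met.uniq_ends (hg : Met g) (hn : 0 < n) (hU : Smooth U) (U0 : ∀ x, 0 < U x)
    (V0 : ∀ x, 0 ≤ V x) (hu : CD 2 u) (hv : CD 2 v) (eu : ∀ x, wl g U u x = V x * u x - f x)
    (ev : ∀ x, wl g U v x = V x * v x - f x) {c : Nd M → ℝ}
    (tu : ∀ j, Tendsto (fj j u) (cocompact (E n)) (𝓝 (c j)))
    (tv : ∀ j, Tendsto (fj j v) (cocompact (E n)) (𝓝 (c j))) : u = v := funext fun x =>
  le_antisymm (hg.cmp_ends hn hU U0 V0 hu hv (fun y => by rw [eu, ev]; linarith) tu tv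
    (fun _ => le_rfl) x)
    (hg.cmp_ends hn hU U0 V0 hv hu (fun y => by rw [eu, ev]; linarith) tv tu (fun _ => le_rfl) x)

/-- the potential -/
theorem Wa.pot (hU : Wa g U) (hS : SUBS) (hn : 3 ≤ n) (hg : Met g) (hf : Flat g ρ) (hV : Smooth V)
    (V0 : ∀ x, 0 ≤ V x) (V1 : ∀ x, R' ≤ ‖px x‖ → V x = 0) : ∃ h, Smooth h ∧ (∃ A, BL A h) ∧
      (∀ x, 0 < h x ∧ h x ≤ 1) ∧ (∀ x, wl g U h x = V x * h x) ∧
      Tendsto h (cocompact M) (𝓝 1) := by
  obtain ⟨φ, φ1, ⟨A, φ2⟩, φ3, φ4, φ5⟩ := hU.barrier hn hg hf R'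
  obtain ⟨h, h1, h2, h3, h4⟩ := hS.cpt (by omega) hg hf hU.wt hV (f := fun _ => 0) cd_const
    (fun x hx => ⟨V1 x hx, rfl⟩) (u₁ := fun x => 1 - φ x) (u₂ := fun _ => 1) (cd_const.sub φ1)
    cd_const ⟨1 + A, fun x => (abs_sub _ _).trans (add_le_add abs_one.le (φ2 x))⟩ ⟨_, bl_const 1⟩
    (fun x => by linarith [(φ3 x).1]) (fun x => by
      have : 0 ≤ V x * (φ x - 1) := by
        rcases le_total R' ‖px x‖ with e | e
        · rw [V1 x e, zero_mul]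
        · exact mul_nonneg (V0 x) (sub_nonneg.2 (φ4 x e))
      rw [wl_const_sub]
      linarith [(φ3 x).2]) (fun x => by rw [wl_const]; linarith [V0 x])
  simp only [sub_zero] at h4
  have t1 : Tendsto h (cocompact M) (𝓝 1) :=
    tendsto_of_tendsto_of_tendsto_of_le_of_le (by simpa using φ5.const_sub 1) tendsto_const_nhds
      (fun x => (h3 x).1) fun x => (h3 x).2
  have p0 := hg.wmp_ends (by omega) hU.wt.sm hU.wt.pos V0 h1.two (fun x => (h4 x).le)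
    (tendsto_cocompact_iff.1 t1) fun _ => zero_le_one
  refine ⟨h, h1, h2, fun x => ⟨(p0 x).lt_of_ne' fun k => ?_, (h3 x).2⟩, h4, t1⟩
  have h5 := hg.smp_on hU.wt.sm hU.wt.pos isOpen_univ isPreconnected_univ hV.cont.continuousOn
    (fun z _ => ⟨h1.c2 z, p0 z, (h4 z).le⟩) (mem_univ x) k
  obtain ⟨R, hR⟩ := ev_cocompact.1 (t1.eventually (eventually_gt_nhds one_pos))
  obtain ⟨y, -, hy⟩ := exists_far (M := M) (by omega) (Classical.arbitrary _) R
  exact (hR _ hy).ne' (h5 _ (mem_univ _))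

/-- a global barrier for compactly supported sources -/
theorem Wa.sup (hU : Wa g U) (hS : SUBS) (hn : 3 ≤ n) (hg : Met g) (hf : Flat g ρ) (R' : ℝ) :
    ∃ φ : M → ℝ, Smooth φ ∧ (∃ A, BL A φ) ∧ (∀ x, 0 ≤ φ x ∧ wl g U φ x ≤ 0) ∧
      (∀ x, ‖px x‖ ≤ R' → wl g U φ x ≤ -1) ∧ Tendsto φ (cocompact M) (𝓝 0) := by
  have r0 : 0 < max R' 1 := by positivity
  obtain ⟨h, h1, ⟨A, h2⟩, h3, h4, h5⟩ := hU.pot hS hn hg hf (sm_cut (max R' 1)) (cut_nonneg _)
    fun x hx => cut_zero r0 hx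
  obtain ⟨m, m0, hm⟩ := (isCompact_px M R').exists_forall_le' h1.cont.continuousOn
    fun x _ => (h3 x).1
  have e : ∀ x, wl g U (fun y => m⁻¹ * (1 - h y)) x = -(m⁻¹ * (cut (max R' 1) x * h x)) :=
    fun x => by rw [wl_const_mul, wl_const_sub, h4, mul_neg]
  refine ⟨fun x => m⁻¹ * (1 - h x), CD.mul cd_const (CD.sub cd_const h1),
    ⟨_, (bl_const _).mul ((bl_const 1).sub h2)⟩, fun x => ⟨mul_nonneg (inv_pos.2 m0).le
      (sub_nonneg.2 (h3 x).2), ?_⟩, fun x hx => ?_, by simpa using (h5.const_sub 1).const_mul m⁻¹⟩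
  · rw [e, neg_nonpos]
    exact mul_nonneg (inv_pos.2 m0).le (mul_nonneg (cut_nonneg _ _) (h3 x).1.le)
  · rw [e, cut_one (hx.trans (le_max_left _ _)), one_mul, neg_le_neg_iff, le_inv_mul_iff₀ m0,
      mul_one]
    exact hm x hx

/-- the equation with the limit zero -/
theorem Wa.poisson (hU : Wa g U) (hS : SUBS) (hn : 3 ≤ n) (hg : Met g) (hf : Flat g ρ)
    (hV : Smooth V) (V0 : ∀ x, 0 ≤ V x) (sf : Smooth f)
    (e : ∀ x, R' ≤ ‖px x‖ → V x = 0 ∧ f x = 0) : ∃ z, Smooth z ∧ (∃ A, BL A z) ∧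
      (∀ x, wl g U z x = V x * z x - f x) ∧ Tendsto z (cocompact M) (𝓝 0) := by
  obtain ⟨φ, φ1, ⟨A, φ2⟩, φ3, φ4, φ5⟩ := hU.sup hS hn hg hf R'
  obtain ⟨K, K0, hK⟩ := bdd_of_const sf (R := R') (c := 0) fun y hy => (e y hy.le).2
  have k : ∀ x, K * wl g U φ x ≤ -|f x| := fun x => by
    rcases le_total R' ‖px x‖ with h | h
    · rw [(e x h).2, abs_zero, neg_zero]
      exact mul_nonpos_of_nonneg_of_nonpos K0.le (φ3 x).2
    · linarith [(hK x).1, mul_le_mul_of_nonneg_left (φ4 x h) K0.le]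
  have k0 : ∀ x, 0 ≤ V x * (K * φ x) := fun x => mul_nonneg (V0 x) (mul_nonneg K0.le (φ3 x).1)
  have b := (bl_const K).mul φ2
  obtain ⟨z, z1, z2, z3, z4⟩ := hS.cpt (by omega) hg hf hU.wt hV sf e (u₁ := fun x => -(K * φ x))
    (u₂ := fun x => K * φ x) (cd_const.mul φ1.two).neg (cd_const.mul φ1.two) ⟨_, b.neg.1⟩ ⟨_, b⟩
    (fun x => neg_le_self (mul_nonneg K0.le (φ3 x).1)) (fun x => by
      rw [wl_neg, wl_const_mul]
      linarith [k x, k0 x, neg_abs_le (f x)]) (fun x => by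
      rw [wl_const_mul]
      linarith [k x, k0 x, le_abs_self (f x)])
  exact ⟨z, z1, z2, z4, tendsto_of_tendsto_of_tendsto_of_le_of_le
    (by simpa using (φ5.const_mul K).neg) (by simpa using φ5.const_mul K) (fun x => (z3 x).1)
    fun x => (z3 x).2⟩

/-- **the linear equation with given limits in the ends** -/
theorem Wa.solve (hU : Wa g U) (hS : SUBS) (hn : 3 ≤ n) (hg : Met g) (hf : Flat g ρ)
    (hV : Smooth V) (V0 : ∀ x, 0 ≤ V x) (sf : Smooth f)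
    (e : ∀ x, R' ≤ ‖px x‖ → V x = 0 ∧ f x = 0) (c : Nd M → ℝ) : ∃ h, Smooth h ∧ (∃ A, BL A h) ∧
      (∀ x, wl g U h x = V x * h x - f x) ∧
      ∀ j, Tendsto (fj j h) (cocompact (E n)) (𝓝 (c j)) := by
  have s0 : Smooth (ec ρ c) := sm_ec hf.lt
  obtain ⟨A, b0⟩ := bl_ec (c := c) hf.lt
  obtain ⟨z, z1, ⟨B, z2⟩, z3, z4⟩ := hU.poisson hS hn hg hf hV V0
    (f := fun x => f x + wl g U (ec ρ c) x - V x * ec ρ c x)
    (CD.sub (CD.add sf (hg.sm_wl hU.wt.sm s0)) (CD.mul hV s0)) (R' := max R' (2 * ρ + 1))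
    fun x hx => by
      have h1 := e x ((le_max_left _ _).trans hx)
      rw [wl_congr EventuallyEq.rfl (ec_ev hf.lt.le (by linarith [le_max_right R' (2 * ρ + 1)])),
        wl_const, h1.1, h1.2]
      simp
  refine ⟨fun x => ec ρ c x + z x, CD.add s0 z1, ⟨_, b0.add z2⟩, fun x => ?_, fun j => ?_⟩
  · rw [hg.wl_add (hU.wt.sm.diff x) (s0.c2 x) (z1.c2 x), z3]
    ring
  · have := (tendsto_ec (c := c) hf.lt.le j).add (tendsto_cocompact_iff.1 z4 j)
    rwa [add_zero] at this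

end Vale.Agent.P366M
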