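import Vale.Agent.P366M.Solv
import Vale.Agent.P366M.SkE

/-!
# P366M: expansions, fluxes and energies of the solutions of `div (U² ∇ h) = V h - f`
-/

open MeasureTheory Metric Filter Topology Set Asymptotics
open scoped ContDiff ENNReal
open Vale.Agent.P366 Vale.Agent.P366.Stmt Vale.Agent.P366Z

noncomputable section

namespace Vale.Agent.P366M

namespace SolX

variable {n : ℕ} {f k u U v : E n → ℝ} {a a' β β' κ : ℝ}

theorem of_far {C R : ℝ} (e : ∀ x, R ≤ ‖x‖ → |f x| ≤ C * k x) (k0 : ∀ x, 0 ≤ k x) :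
    f =O[cocompact (E n)] k :=
  IsBigO.of_bound C ((AsyF.far R).mono fun x hx => by
    rw [Real.norm_eq_abs, Real.norm_of_nonneg (k0 x)]
    exact e x hx)

theorem val (hn : 3 ≤ n) (e : P366Z.Asy u a β) :
    (fun x => u x - a) =O[cocompact (E n)] fun x => ‖x‖⁻¹ := by
  obtain ⟨C, R, e⟩ := e
  have n3 : (3 : ℝ) ≤ n := by exact_mod_cast hn
  refine of_far (C := |C| + |β|) (R := max R 1) (fun x hx => ?_) fun x => by positivity
  have r1 := (le_max_right _ _).trans hx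
  have h1 := Real.rpow_le_rpow_of_exponent_le r1 (by linarith : (1 - n : ℝ) ≤ -1)
  have h2 := Real.rpow_le_rpow_of_exponent_le r1 (by linarith : (2 - n : ℝ) ≤ -1)
  rw [Real.rpow_neg_one] at h1 h2
  have h3 := (e x ((le_max_left _ _).trans hx)).1.trans
    (mul_le_mul (le_abs_self C) h1 (by positivity) (abs_nonneg C))
  have h4 : |β * ‖x‖ ^ (2 - n : ℝ)| ≤ |β| * ‖x‖⁻¹ := by
    rw [abs_mul, abs_of_nonneg (by positivity : 0 ≤ ‖x‖ ^ (2 - n : ℝ))]
    exact mul_le_mul_of_nonneg_left h2 (abs_nonneg β)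
  rw [abs_le] at h3 h4 ⊢
  constructor <;> linarith [h3.1, h3.2, h4.1, h4.2]

theorem der (e : P366Z.Asy u a β) (i : Fin n) :
    (fun x => Stmt.pd i u x + (n - 2) * β * x i * ‖x‖ ^ (-n : ℝ)) =O[cocompact (E n)]
      fun x => ‖x‖ ^ (-n : ℝ) := by
  obtain ⟨C, R, e⟩ := e
  exact of_far (fun x hx => (e x hx).2 i) fun x => by positivity

theorem one (e : (fun x => k x - κ) =O[cocompact (E n)] fun x => ‖x‖⁻¹) :
    k =O[cocompact (E n)] fun _ => (1 : ℝ) := by
  have := (e.trans_tendsto (tendsto_inv_atTop_zero.comp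
    (tendsto_norm_cocompact_atTop (E := E n)))).add_const κ
  simp only [sub_add_cancel] at this
  exact this.isBigO_one ℝ

/-- the expansion of the flux -/
theorem est (hn : 3 ≤ n) (hU : P366Z.Asy U a β) (hv : P366Z.Asy v a' β')
    (s : (fun x => k x - κ) =O[cocompact (E n)] fun x => ‖x‖⁻¹) :
    ∃ C R : ℝ, ∀ x : E n, R ≤ ‖x‖ → ∀ i, |k x * (U x * Stmt.pd i v x - v x * Stmt.pd i U x) -
      κ * ((n - 2) * (a' * β - a * β')) * x i * ‖x‖ ^ (-n : ℝ)| ≤ C * ‖x‖ ^ (-n : ℝ) := by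
  have p := val hn hU
  have q := val hn hv
  have b1 := one p
  have b2 := one s
  have b4 := one q
  have t : (fun x => (k x - κ) * (β * v x - β' * U x) + κ * (β * (v x - a') -
      β' * (U x - a))) =O[cocompact (E n)] fun x => ‖x‖⁻¹ :=
    ((s.mul ((b4.const_mul_left β).sub (b1.const_mul_left β'))).congr_right
      fun x => mul_one _).add (((q.const_mul_left β).sub (p.const_mul_left β')).const_mul_left κ)
  have w : ∀ i, (fun x : E n => k x * (U x * Stmt.pd i v x - v x * Stmt.pd i U x) -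
      κ * ((n - 2) * (a' * β - a * β')) * x i * ‖x‖ ^ (-n : ℝ)) =O[cocompact (E n)]
        fun x => ‖x‖ ^ (-n : ℝ) := fun i => by
    have x1 : (fun x : E n => x i) =O[cocompact (E n)] fun x => ‖x‖ :=
      of_far (C := 1) (R := 0) (fun x _ => by rw [one_mul]; exact AsyF.abs_coord x i) norm_nonneg
    have x2 : (fun x : E n => ‖x‖ * ‖x‖⁻¹) =O[cocompact (E n)] fun _ => (1 : ℝ) :=
      of_far (C := 1) (R := 0) (fun x _ => by
        rw [abs_of_nonneg (by positivity), mul_one]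
        exact mul_inv_le_one) fun _ => zero_le_one
    have y1 := (b2.mul ((b1.mul (der hv i)).sub (b4.mul (der hU i)))).congr_right
      (g₂ := fun x => ‖x‖ ^ (-n : ℝ)) fun x => by rw [one_mul, one_mul]
    have y2 := ((((x1.mul t).trans x2).mul (isBigO_refl (fun x : E n => ‖x‖ ^ (-n : ℝ))
      _)).const_mul_left (n - 2 : ℝ)).congr_right (g₂ := fun x => ‖x‖ ^ (-n : ℝ))
        fun x => one_mul _
    exact (y1.add y2).congr_left fun x => by ring
  obtain ⟨C, hC⟩ := (isBigO_pi.2 w).bound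
  obtain ⟨R, hR⟩ := ev_cocompactE.1 hC
  refine ⟨C, R, fun x hx i => ?_⟩
  have := (norm_le_pi_norm _ i).trans (hR x hx)
  rwa [Real.norm_eq_abs, Real.norm_of_nonneg (by positivity)] at this

theorem quot (hn : 3 ≤ n) (hU : P366Z.Asy U a β) (hv : P366Z.Asy (fun x => k x * U x) (κ * a) β')
    (a0 : a ≠ 0) : (fun x => k x - κ) =O[cocompact (E n)] fun x => ‖x‖⁻¹ := by
  have t := AsyF.lim1 hn hU
  refine ((((val hn hv).sub ((val hn hU).const_mul_left κ)).mul
    ((t.inv₀ a0).isBigO_one ℝ)).congr_right fun x => mul_one _).congr'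
      ((t.eventually_ne a0).mono fun x hx => ?_) EventuallyEq.rfl
  field_simp
  ring

end SolX

variable {n : ℕ} {M : Type} [Mfs n M] {g : Fld n M} {ρ R' : ℝ} {U V f h k φ D : M → ℝ}

/-! ### integrals with the cut-off functions -/

theorem tendsto_cut_int (hD : Integrable D) :
    Tendsto (fun r => ∫ x, cut r x * D x) atTop (𝓝 (∫ x, D x)) :=
  tendsto_integral_filter_of_dominated_convergence (fun x => ‖D x‖)
    (.of_forall fun r => (sm_cut r).cont.aestronglyMeasurable.mul hD.1)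
    (.of_forall fun r => .of_forall fun x => by
      rw [norm_mul, Real.norm_of_nonneg (cut_nonneg r x)]
      exact mul_le_of_le_one_left (norm_nonneg _) (cut_le_one r x)) hD.norm
    (.of_forall fun x => by simpa using (cut_tendsto x).mul_const (D x))

theorem integrable_cut (hD : Continuous D) {r : ℝ} (hr : 0 < r) :
    Integrable fun x => cut r x * D x :=
  integrable_of_out ((sm_cut r).cont.mul hD) fun y hy => by rw [cut_zero hr hy, zero_mul]

/-- the lemma of Fatou for the cut-off functions -/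
theorem integrable_of_cut {c : ℝ} (hD : Continuous D) (h0 : ∀ x, 0 ≤ D x)
    (ht : Tendsto (fun r => ∫ x, cut r x * D x) atTop (𝓝 c)) : Integrable D ∧ ∫ x, D x = c := by
  have h1 := lintegral_liminf_le (μ := volume) (u := atTop)
    (f := fun (r : ℝ) x => ENNReal.ofReal (cut r x * D x))
    fun r => ((sm_cut r).cont.mul hD).measurable.ennreal_ofReal
  have h2 : Tendsto (fun r => ∫⁻ x, ENNReal.ofReal (cut r x * D x)) atTop (𝓝 (.ofReal c)) :=
    (ENNReal.tendsto_ofReal ht).congr' ((eventually_gt_atTop 0).mono fun r hr =>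
      ofReal_integral_eq_lintegral_ofReal (integrable_cut hD hr)
        (.of_forall fun x => mul_nonneg (cut_nonneg r x) (h0 x)))
  rw [h2.liminf_eq] at h1
  have h3 : Integrable D := ⟨hD.aestronglyMeasurable, (hasFiniteIntegral_iff_ofReal
    (.of_forall h0)).2 (lt_of_le_of_lt (le_trans (lintegral_mono fun x => by
      have := (ENNReal.tendsto_ofReal ((cut_tendsto x).mul_const (D x))).liminf_eq
      rw [one_mul] at this
      exact this.ge) h1) ENNReal.ofReal_lt_top)⟩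
  exact ⟨h3, tendsto_nhds_unique (tendsto_cut_int h3) ht⟩

/-! ### the expansions -/

/-- the expansion of `h U` in an end -/
theorem Wa.asyE (hU : Wa g U) (hn : 3 ≤ n) (hg : Met g) (hf : Flat g ρ) (sh : Smooth h) {A : ℝ}
    (bh : ∀ x, |h x| ≤ A) (e : ∀ x, R' ≤ ‖px x‖ → wl g U h x = 0) {j : Nd M} {a c : ℝ}
    (tU : Tendsto (fj j U) (cocompact (E n)) (𝓝 a))
    (th : Tendsto (fj j h) (cocompact (E n)) (𝓝 c)) :
    ∃ γ, AsyE j (fun x => h x * U x) (c * a) γ := by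
  obtain ⟨C, hN⟩ := newtE n hn
  obtain ⟨R, S, hS⟩ := hU.far
  obtain ⟨m, m0, B, hB⟩ := hU.wt.bd
  have sU := hU.wt.sm
  have U0 := hU.wt.pos
  have A0 := (abs_nonneg _).trans (bh (Classical.arbitrary M))
  obtain ⟨R₀, r1, r2, r3⟩ : ∃ R₀, R ≤ R₀ ∧ R' ≤ R₀ ∧ ρ + 1 ≤ R₀ :=
    ⟨max (max R R') (ρ + 1), by simp, by simp, by simp⟩
  obtain ⟨γ, h1, -⟩ := hN M j (fun x => h x * U x) (c * a) R₀ (A * B + |c * a|) (A * S)
    (by linarith [hf.R]) (fun _ _ => (CD.mul sh sU).contDiffAt) (fun y hy => by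
      have p : px (ye j y : M) = y := px_ye' (by linarith [hf.R])
      refine ⟨(abs_sub _ _).trans (add_le_add ?_ le_rfl), ?_⟩
      · rw [abs_mul, abs_of_pos (U0 _)]
        exact mul_le_mul (bh _) (hB _).2.1 (U0 _).le A0
      · have := hS (ye j y) (by rw [p]; linarith)
        rw [← hf.lap_eq (by rw [p]; linarith), funext fun y => mul_comm (h y) (U y),
          hg.lap_mul_wl (sU.c2 _) (sh.c2 _) (U0 _).ne', e _ (by rw [p]; linarith), zero_div,
          add_zero, abs_mul, mul_assoc]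
        rw [p] at this
        exact mul_le_mul (bh _) this (abs_nonneg _) A0) (th.mul tU)
  exact ⟨γ, h1⟩

/-- the expansion of the weight -/
theorem Wa.asyE_self (hU : Wa g U) (hn : 3 ≤ n) (hg : Met g) (hf : Flat g ρ) {j : Nd M} {a : ℝ}
    (tU : Tendsto (fj j U) (cocompact (E n)) (𝓝 a)) : ∃ β, AsyE j U a β := by
  simpa only [one_mul] using hU.asyE hn hg hf (h := fun _ => 1) cd_const (A := 1) (by simp)
    (R' := 0) (fun _ _ => wl_const 1) tU (c := 1) tendsto_const_nhds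

/-- `h` is harmonic for the weight `U ^ 2` far out; `U` and `h U` have expansions -/
structure Hx (g : Fld n M) (U h : M → ℝ) (a β c γ : Nd M → ℝ) : Prop where
  smU : Smooth U
  sm : Smooth h
  a0 : ∀ j, a j ≠ 0
  out : ∃ R, ∀ x, R ≤ ‖px x‖ → wl g U h x = 0
  aU : ∀ j, AsyE j U (a j) (β j)
  ah : ∀ j, AsyE j (fun x => h x * U x) (c j * a j) (γ j)

/-- the flux of `U² ∇ h` in the end `j` -/
def fx (n : ℕ) (a β c γ : ℝ) : ℝ := (n - 2) * omega n * a * (c * β - γ)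

variable {a β c γ κ : Nd M → ℝ}

theorem Wa.hx (hU : Wa g U) (hn : 3 ≤ n) (hg : Met g) (hf : Flat g ρ) (sh : Smooth h) {A : ℝ}
    (bh : ∀ x, |h x| ≤ A) (e : ∀ x, R' ≤ ‖px x‖ → wl g U h x = 0)
    (aU : ∀ j, AsyE j U (a j) (β j)) (th : ∀ j, Tendsto (fj j h) (cocompact (E n)) (𝓝 (c j))) :
    ∃ γ, Hx g U h a β c γ := by
  choose γ hγ using fun j => hU.asyE hn hg hf sh bh e ((aU j).tendsto hn) (th j)
  obtain ⟨m, m0, B, hB⟩ := hU.wt.bd
  have := nontriv (n := n) (by omega)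
  exact ⟨γ, hU.wt.sm, sh, fun j => (m0.trans_le (ge_of_tendsto' ((aU j).tendsto hn)
    fun y => (hB _).1)).ne', ⟨R', e⟩, aU, hγ⟩

theorem Hx.big (H : Hx g U h a β c γ) (hn : 3 ≤ n) (j : Nd M) :
    (fun y => fj j h y - c j) =O[cocompact (E n)] fun y => ‖y‖⁻¹ :=
  SolX.quot hn (H.aU j) (H.ah j) (H.a0 j)

theorem Hx.tendsto (H : Hx g U h a β c γ) (hn : 3 ≤ n) (j : Nd M) :
    Tendsto (fj j h) (cocompact (E n)) (𝓝 (c j)) := by
  simpa using ((H.big hn j).trans_tendsto (tendsto_inv_atTop_zero.comp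
    (tendsto_norm_cocompact_atTop (E := E n)))).add_const (c j)

/-- the identity of Green at infinity -/
theorem Hx.lim (H : Hx g U h a β c γ) (hn : 3 ≤ n) (hg : Met g) (hf : Flat g ρ) (sk : Smooth k)
    (e : ∀ j, (fun y => fj j k y - κ j) =O[cocompact (E n)] fun y => ‖y‖⁻¹) :
    Tendsto (fun r => ∫ x, cut r x * ((k x * wl g U h x + U x ^ 2 * ip g k h x) * dens g x)) atTop
      (𝓝 (∑' j, κ j * fx n (a j) (β j) (c j) (γ j))) := by
  have sY : CV ∞ fun i y => U y ^ 2 * gr g h i y := CV.smul (CD.pow H.smU 2) (hg.sm_gr H.sm)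
  have := fluxE n M g (fun i y => k y * (U y ^ 2 * gr g h i y))
    (fun j => κ j * ((n - 2) * (c j * a j * β j - a j * γ j))) hn hg (CV.smul sk sY) fun j => by
      obtain ⟨C, R, h1⟩ := SolX.est hn (H.aU j) (H.ah j) (e j)
      refine ⟨C, max R ρ, fun y hy i => le_of_eq_of_le ?_ (h1 y (le_of_max_le_left hy) i)⟩
      have r0 : R0 M ≤ ‖y‖ := hf.lt.le.trans (le_of_max_le_right hy)
      have r1 : ρ ≤ ‖px (ye j y : M)‖ := by rw [px_ye' r0]; exact le_of_max_le_right hy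
      rw [hf.dens_eq r1, hf.gr_eq r1, ← pd_ye r0, ← pd_ye r0,
        pd_mul (H.sm.diff _) (H.smU.diff _)]
      congr 1
      unfold fj
      ring
  rw [← tsum_mul_right, tsum_congr (g := fun j => κ j * fx n (a j) (β j) (c j) (γ j))
    fun j => by unfold fx; ring] at this
  refine this.congr fun r => integral_congr_ae (.of_forall fun x => ?_)
  simp only
  rw [hg.dv_smul (sk.diff x) (sY.dv (by simp) x), ← wl_eq_dv g U (H.sm.c2 x), ip_eq_gr,
    Finset.mul_sum, mul_assoc]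
  congr 3
  exact Finset.sum_congr rfl fun i _ => by ring

theorem Hx.int_wl (H : Hx g U h a β c γ) (hg : Met g) (hk : Continuous k) :
    Integrable fun x => k x * wl g U h x * dens g x :=
  let ⟨_, hR⟩ := H.out
  integrable_of_out ((hk.mul (hg.sm_wl H.smU H.sm).cont).mul hg.sm_dens.cont) fun y hy => by
    rw [hR y hy, mul_zero, zero_mul]

/-- the energy identity -/
theorem Hx.energy (H : Hx g U h a β c γ) (hn : 3 ≤ n) (hg : Met g) (hf : Flat g ρ) :
    Integrable (fun x => U x ^ 2 * ip g h h x * dens g x) ∧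
      ∫ x, U x ^ 2 * ip g h h x * dens g x = (∑' j, c j * fx n (a j) (β j) (c j) (γ j)) -
        ∫ x, h x * wl g U h x * dens g x := by
  have c1 : Continuous fun x => U x ^ 2 * ip g h h x * dens g x :=
    ((H.smU.cont.pow 2).mul (hg.sm_ip H.sm H.sm).cont).mul hg.sm_dens.cont
  have c2 : Continuous fun x => h x * wl g U h x * dens g x :=
    (H.sm.cont.mul (hg.sm_wl H.smU H.sm).cont).mul hg.sm_dens.cont
  refine integrable_of_cut c1 (fun x => mul_nonneg (mul_nonneg (sq_nonneg _) (hg.ip_nonneg _ _))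
    (dens_nonneg _ _)) (((H.lim hn hg hf H.sm (H.big hn)).sub
      (tendsto_cut_int (H.int_wl hg H.sm.cont))).congr' ?_)
  filter_upwards [eventually_gt_atTop 0] with r hr
  simp only [add_mul, mul_add]
  rw [integral_add (integrable_cut c2 hr) (integrable_cut c1 hr), add_sub_cancel_left]

theorem Hx.ener_le (H : Hx g U h a β c γ) (hn : 3 ≤ n) (hg : Met g) (hf : Flat g ρ)
    (e : ∀ x, 0 ≤ h x * wl g U h x) :
    ∫⁻ x, ENNReal.ofReal (U x ^ 2 * ip g h h x * dens g x) ≤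
      ENNReal.ofReal (∑' j, c j * fx n (a j) (β j) (c j) (γ j)) := by
  obtain ⟨h1, h2⟩ := H.energy hn hg hf
  rw [← ofReal_integral_eq_lintegral_ofReal h1 (.of_forall fun x => mul_nonneg
    (mul_nonneg (sq_nonneg _) (hg.ip_nonneg _ _)) (dens_nonneg _ _)), h2]
  exact ENNReal.ofReal_le_ofReal (sub_le_self _ (integral_nonneg fun x =>
    mul_nonneg (e x) (dens_nonneg _ _)))

theorem ev_end {R : ℝ} (e : ∀ j y, R ≤ ‖y‖ → φ (ye j y) = κ j) {x : M}
    (hx : max R (R0 M) < ‖px x‖) : ∃ c, φ =ᶠ[𝓝 x] fun _ => c := by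
  obtain ⟨j, y, rfl, h⟩ := far_rep (x := x) (by linarith [le_max_right R (R0 M)])
  rw [h] at hx
  exact ⟨κ j, (ev_ye ((le_max_right _ _).trans hx.le)).2 ((ev_lt_norm hx).mono fun z hz =>
    e j z ((le_max_left _ _).trans hz.le))⟩

theorem LLip.int_ip_end (hφ : LLip φ) (hk : LLip k) (hg : Met g) (hD : Continuous D) {R : ℝ}
    (e : ∀ j y, R ≤ ‖y‖ → φ (ye j y) = κ j) : Integrable fun x => D x * ip g φ k x :=
  hφ.integrable_ip hk hg (isCompact_px M (Max.max R (R0 M))) hD fun x hx => by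
    obtain ⟨c, hc⟩ := ev_end e (not_le.1 fun k => hx k)
    rw [ip_congr hc EventuallyEq.rfl, ip_const_left, mul_zero]

theorem LLip.int_ip_end' (hφ : LLip φ) (hk : LLip k) (hg : Met g) (hU : Continuous U) {R : ℝ}
    (e : ∀ j y, R ≤ ‖y‖ → φ (ye j y) = κ j) :
    Integrable fun x => U x ^ 2 * ip g φ k x * dens g x := by
  simpa only [mul_right_comm] using hφ.int_ip_end hk hg (D := fun x => U x ^ 2 * dens g x)
    ((hU.pow 2).mul hg.sm_dens.cont) e

variable [Nonempty (Nd M)]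

/-- the identity of Green for test functions which are constant far out in each end -/
theorem Hx.test (H : Hx g U h a β c γ) (hn : 3 ≤ n) (hg : Met g) (hf : Flat g ρ) (hφ : LLip φ)
    {R : ℝ} (e : ∀ j y, R ≤ ‖y‖ → φ (ye j y) = κ j) :
    (∫ x, φ x * wl g U h x * dens g x) + ∫ x, U x ^ 2 * ip g φ h x * dens g x =
      ∑' j, κ j * fx n (a j) (β j) (c j) (γ j) := by
  have s0 : Smooth (ec ρ κ) := sm_ec hf.lt
  have e0 : ∀ j y, 2 * ρ ≤ ‖y‖ → ec ρ κ (ye j y) = κ j := fun j y hy => ec_ye hf.lt.le hy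
  have i1 := H.int_wl hg s0.cont
  have i2 := s0.llip.int_ip_end' H.sm.llip hg H.smU.cont e0
  have i3 := H.int_wl hg hφ.cont
  have i4 := hφ.int_ip_end' H.sm.llip hg H.smU.cont e
  have h1 := H.lim hn hg hf s0 fun j => (isBigO_zero _ _).congr'
    (ev_cocompactE.2 ⟨2 * ρ, fun y hy => (sub_eq_zero.2 (e0 j y hy)).symm⟩) EventuallyEq.rfl
  simp only [add_mul] at h1
  have h2 := tendsto_nhds_unique h1 (tendsto_cut_int (i1.add i2))
  have h3 := hg.ibp_wl (hφ.sub s0.llip) (supp_of_out (R := max R (2 * ρ)) fun x hx => by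
    obtain ⟨j, y, rfl, hy⟩ := far_rep (x := x) (by
      linarith [le_of_max_le_right hx, hf.pos, hf.lt])
    rw [hy] at hx
    rw [e j y (le_of_max_le_left hx), e0 j y (le_of_max_le_right hx), sub_self]) H.smU.one H.sm.two
  have h4 : ∫ x, U x ^ 2 * ip g (fun x => φ x - ec ρ κ x) h x * dens g x =
      ∫ x, (U x ^ 2 * ip g φ h x * dens g x - U x ^ 2 * ip g (ec ρ κ) h x * dens g x) :=
    integral_congr_ae (hφ.ae_diff.mono fun x hx => by
      simp only
      rw [ip_of_pd_add (s := 1) (t := -1) (u₁ := φ) (u₂ := ec ρ κ) fun i => by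
        rw [pd_sub hx (s0.diff x)]; ring]
      ring)
  simp only [sub_mul] at h3
  rw [h4, integral_sub i3 i1, integral_sub i4 i2] at h3
  rw [h2, integral_add i1 i2]
  linarith

/-- the total flux -/
theorem Hx.flux (H : Hx g U h a β c γ) (hn : 3 ≤ n) (hg : Met g) (hf : Flat g ρ) :
    ∫ x, wl g U h x * dens g x = ∑' j, fx n (a j) (β j) (c j) (γ j) := by
  simpa [ip_const_left] using H.test hn hg hf (φ := fun _ => 1) (κ := fun _ => 1)
    (llip_const 1) (R := 0) fun _ _ _ => rfl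

/-- the principle of Dirichlet -/
theorem Hx.dirichlet (H : Hx g U h a β c γ) (hn : 3 ≤ n) (hg : Met g) (hf : Flat g ρ)
    (hV : Continuous V) (V0 : ∀ x, 0 ≤ V x) (V1 : ∀ x, R' ≤ ‖px x‖ → V x = 0)
    (eq : ∀ x, wl g U h x = V x * h x) (hφ : LLip φ) {R : ℝ}
    (e : ∀ j y, R ≤ ‖y‖ → φ (ye j y) = c j) : ∑' j, c j * fx n (a j) (β j) (c j) (γ j) ≤
      (∫ x, V x * φ x ^ 2 * dens g x) + ∫ x, U x ^ 2 * ip g φ φ x * dens g x := by
  obtain ⟨i1, h1⟩ := H.energy hn hg hf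
  have h2 := H.test hn hg hf hφ e
  have i2 := hφ.int_ip_end' H.sm.llip hg H.smU.cont e
  have i3 := hφ.int_ip_end' hφ hg H.smU.cont e
  have i4 : Integrable fun x => V x * φ x ^ 2 * dens g x := integrable_of_out
    ((hV.mul (hφ.cont.pow 2)).mul hg.sm_dens.cont) fun y hy => by
      rw [V1 y hy, zero_mul, zero_mul]
  have h3 := integral_mono ((H.int_wl hg hφ.cont).const_mul 2)
    (i4.add (H.int_wl hg H.sm.cont)) fun x => by
      have := mul_nonneg (mul_nonneg (V0 x) (sq_nonneg (φ x - h x))) (dens_nonneg g x)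
      simp only [Pi.add_apply, eq]
      linarith
  have h4 := integral_mono (i2.const_mul 2) (i3.add i1) fun x => by
      have k1 := (le_abs_self _).trans (hg.abs_ip_le φ h x)
      have k2 : 2 * ip g φ h x ≤ ip g φ φ x + ip g h h x := by
        rw [← hg.gn_sq, ← hg.gn_sq]
        nlinarith [sq_nonneg (gn g φ x - gn g h x)]
      have := mul_le_mul_of_nonneg_left k2 (mul_nonneg (sq_nonneg (U x)) (dens_nonneg g x))
      simp only [Pi.add_apply]
      linarith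
  simp only [Pi.add_apply] at h3 h4
  rw [integral_const_mul, integral_add i4 (H.int_wl hg H.sm.cont)] at h3
  rw [integral_const_mul, integral_add i3 i1] at h4
  linarith

/-- **SOLV**: the linear equation with given limits in the ends, with the expansions -/
theorem Wa.solv [ConnectedSpace M] (hU : Wa g U) (hS : SUBS) (hn : 3 ≤ n) (hg : Met g)
    (hf : Flat g ρ) (aU : ∀ j, AsyE j U (a j) (β j)) (hV : Smooth V) (V0 : ∀ x, 0 ≤ V x)
    (sf : Smooth f) (e : ∀ x, R' ≤ ‖px x‖ → V x = 0 ∧ f x = 0) (c : Nd M → ℝ) :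
    ∃ h γ, Hx g U h a β c γ ∧ (∃ A, BL A h) ∧ ∀ x, wl g U h x = V x * h x - f x := by
  obtain ⟨h, h1, ⟨A, h2⟩, h3, h4⟩ := hU.solve hS hn hg hf hV V0 sf e c
  obtain ⟨γ, h5⟩ := hU.hx hn hg hf h1 h2.1 (R' := R') (fun x hx => by
    rw [h3, (e x hx).1, (e x hx).2, zero_mul, sub_zero]) aU h4
  exact ⟨h, γ, h5, ⟨A, h2⟩, h3⟩

/-! ### one end -/

section one

variable {M : Type} [Mfe n M] {g : Fld n M} {U V f h φ : M → ℝ} {a β c γ κ : ℝ}

/-- the same expansions in the case of one end -/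
abbrev Hx1 (g : Fld n M) (U h : M → ℝ) (a β c γ : ℝ) : Prop :=
  Hx g U h (fun _ => a) (fun _ => β) (fun _ => c) fun _ => γ

theorem hx1_of (sU : Smooth U) (sh : Smooth h) (a0 : a ≠ 0)
    (e : ∀ x, R' ≤ ‖px x‖ → wl g U h x = 0) (aU : Asy U a β)
    (ah : Asy (fun x => h x * U x) (c * a) γ) : Hx1 g U h a β c γ :=
  ⟨sU, sh, fun _ => a0, ⟨R', e⟩, aU.asyE, ah.asyE⟩

theorem Hx.one {γ : Nd M → ℝ} (H : Hx g U h (fun _ => a) (fun _ => β) (fun _ => c) γ) :
    Hx1 g U h a β c (γ Mfe.o) := by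
  rwa [show γ = fun _ => γ Mfe.o from funext fun j => by rw [Mfe.one j]] at H

theorem Hx1.asy (H : Hx1 g U h a β c γ) : Asy (fun x => h x * U x) (c * a) γ := asy_of_asyE H.ah

theorem end_of_out {R : ℝ} (e : ∀ x, R ≤ ‖px x‖ → φ x = κ) (j : Nd M) (y : E n)
    (hy : max R (R0 M) ≤ ‖y‖) : φ (ye j y) = κ :=
  e _ (by rw [px_ye' (le_of_max_le_right hy)]; exact le_of_max_le_left hy)

theorem Hx1.flux (H : Hx1 g U h a β c γ) (hn : 3 ≤ n) (hg : Met g) (hf : Flat g ρ) :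
    ∫ x, wl g U h x * dens g x = fx n a β c γ := by rw [Hx.flux H hn hg hf, tsum_one]

theorem Hx1.test (H : Hx1 g U h a β c γ) (hn : 3 ≤ n) (hg : Met g) (hf : Flat g ρ) (hφ : LLip φ)
    {R : ℝ} (e : ∀ x, R ≤ ‖px x‖ → φ x = κ) :
    (∫ x, φ x * wl g U h x * dens g x) + ∫ x, U x ^ 2 * ip g φ h x * dens g x =
      κ * fx n a β c γ := by
  rw [Hx.test H hn hg hf hφ (κ := fun _ => κ) (end_of_out e), tsum_one]

theorem Hx1.energy (H : Hx1 g U h a β c γ) (hn : 3 ≤ n) (hg : Met g) (hf : Flat g ρ) :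
    Integrable (fun x => U x ^ 2 * ip g h h x * dens g x) ∧
      ∫ x, U x ^ 2 * ip g h h x * dens g x = c * fx n a β c γ -
        ∫ x, h x * wl g U h x * dens g x := by
  simpa only [tsum_one] using Hx.energy H hn hg hf

theorem Hx1.ener_le (H : Hx1 g U h a β c γ) (hn : 3 ≤ n) (hg : Met g) (hf : Flat g ρ)
    (e : ∀ x, 0 ≤ h x * wl g U h x) :
    ∫⁻ x, ENNReal.ofReal (U x ^ 2 * ip g h h x * dens g x) ≤ ENNReal.ofReal (c * fx n a β c γ) := by
  simpa only [tsum_one] using Hx.ener_le H hn hg hf e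

theorem Hx1.dirichlet (H : Hx1 g U h a β c γ) (hn : 3 ≤ n) (hg : Met g) (hf : Flat g ρ)
    (hV : Continuous V) (V0 : ∀ x, 0 ≤ V x) (V1 : ∀ x, R' ≤ ‖px x‖ → V x = 0)
    (eq : ∀ x, wl g U h x = V x * h x) (hφ : LLip φ) {R : ℝ} (e : ∀ x, R ≤ ‖px x‖ → φ x = c) :
    c * fx n a β c γ ≤
      (∫ x, V x * φ x ^ 2 * dens g x) + ∫ x, U x ^ 2 * ip g φ φ x * dens g x := by
  simpa only [tsum_one] using Hx.dirichlet H hn hg hf hV V0 V1 eq hφ (end_of_out e)

theorem Wa.solv1 (hU : Wa g U) (hS : SUBS) (hn : 3 ≤ n) (hg : Met g) (hf : Flat g ρ)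
    (aU : Asy U a β) (hV : Smooth V) (V0 : ∀ x, 0 ≤ V x) (sf : Smooth f)
    (e : ∀ x, R' ≤ ‖px x‖ → V x = 0 ∧ f x = 0) (c : ℝ) :
    ∃ h γ, Hx1 g U h a β c γ ∧ (∃ A, BL A h) ∧ ∀ x, wl g U h x = V x * h x - f x :=
  let ⟨h, _, h1, h2⟩ := hU.solv hS hn hg hf aU.asyE hV V0 sf e fun _ => c
  ⟨h, _, h1.one, h2⟩

/-- **SCH**: the potential -/
theorem Wa.sch (hU : Wa g U) (hS : SUBS) (hn : 3 ≤ n) (hg : Met g) (hf : Flat g ρ)
    (aU : Asy U a β) (hV : Smooth V) (V0 : ∀ x, 0 ≤ V x) (V1 : ∀ x, R' ≤ ‖px x‖ → V x = 0) :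
    ∃ h γ, Hx1 g U h a β 1 γ ∧ (∃ A, BL A h) ∧ (∀ x, 0 < h x ∧ h x ≤ 1) ∧
      (∀ x, wl g U h x = V x * h x) ∧ Asy (fun x => h x * U x) a γ ∧ γ ≤ β ∧
      ∫⁻ x, ENNReal.ofReal (U x ^ 2 * ip g h h x * dens g x) ≤
        ENNReal.ofReal ((n - 2) * omega n * a * (β - γ)) := by
  obtain ⟨h, h1, ⟨A, h2⟩, h3, h4, h5⟩ := hU.pot hS hn hg hf hV V0 V1
  obtain ⟨γ, h6⟩ := hU.hx hn hg hf h1 h2.1 (R' := R') (fun x hx => by rw [h4, V1 x hx, zero_mul])
    aU.asyE (tendsto_cocompact_iff.1 h5)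
  have h7 := h6.one
  have h8 := h7.asy
  rw [one_mul] at h8
  have h9 := (aU.lin h8 hU.wt.sm (CD.mul h1 hU.wt.sm) 1 (-1)).nonneg hn (R := 0) fun x _ => by
    linarith [mul_le_of_le_one_left (hU.wt.pos x).le (h3 x).2]
  refine ⟨h, _, h7, ⟨A, h2⟩, h3, h4, h8, by linarith, ?_⟩
  simpa only [fx, one_mul] using h7.ener_le hn hg hf fun x => by
    rw [h4]; exact mul_nonneg (h3 x).1.le (mul_nonneg (V0 x) (h3 x).1.le)

end one

end Vale.Agent.P366M
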