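import Vale.Agent.P366M.Basic

/-!
# P366M: the calculus of `CD`, `CAt`, `DAt`, `pd` and `fd`

The lemmas have the names and the arguments of the lemmas on `ContDiff`, `ContDiffAt` and
`DifferentiableAt`; `h.compM hu` replaces `h.comp hu` for an outer map `h` of normed spaces.
-/

open MeasureTheory Metric Filter Topology Set
open scoped ContDiff
open Vale.Agent.P366 Vale.Agent.P366.Stmt Vale.Agent.P366Z

noncomputable section

namespace Vale.Agent.P366M

variable {n : ℕ} {M : Type} [Mf0 n M] {x : M} {m : WithTop ℕ∞}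

section V

variable {V W : Type} [NormedAddCommGroup V] [NormedSpace ℝ V] [NormedAddCommGroup W]
  [NormedSpace ℝ W] {f g : M → V} {a : M → ℝ}

/-! ### `CD` -/

theorem cd_const {c : V} : CD m fun _ : M => c := fun _ _ => contDiff_const

theorem CD.of_le {k : WithTop ℕ∞} (hf : CD m f) (h : k ≤ m) : CD k f := fun e he =>
  (hf e he).of_le h

theorem CD.continuous (hf : CD m f) : Continuous f := cont_of_loc fun e he => (hf e he).continuous

theorem CD.differentiable (hf : CD m f) (hm : m ≠ 0) (x : M) : DAt f x :=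
  (hf _ (ch_mem x)).differentiable hm _

theorem CD.add (hf : CD m f) (hg : CD m g) : CD m fun x => f x + g x := fun e he =>
  (hf e he).add (hg e he)

theorem CD.sub (hf : CD m f) (hg : CD m g) : CD m fun x => f x - g x := fun e he =>
  (hf e he).sub (hg e he)

theorem CD.neg (hf : CD m f) : CD m fun x => -f x := fun e he => (hf e he).neg

theorem CD.smul (ha : CD m a) (hf : CD m f) : CD m fun x => a x • f x := fun e he =>
  (ha e he).smul (hf e he)

theorem CD.const_smul (c : ℝ) (hf : CD m f) : CD m fun x => c • f x := fun e he =>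
  (hf e he).const_smul c

theorem CD.sum {ι : Type*} {s : Finset ι} {F : ι → M → V} (h : ∀ i ∈ s, CD m (F i)) :
    CD m fun x => ∑ i ∈ s, F i x := fun e he => ContDiff.sum fun i hi => h i hi e he

theorem CD.prodMk {g : M → W} (hf : CD m f) (hg : CD m g) : CD m fun x => (f x, g x) :=
  fun e he => (hf e he).prodMk (hg e he)

theorem _root_.ContDiff.compM {φ : V → W} (hφ : ContDiff ℝ m φ) (hf : CD m f) :
    CD m fun x => φ (f x) := fun e he => hφ.comp (hf e he)

theorem CD.clm_apply {L : M → V →L[ℝ] W} (hL : CD m L) (hf : CD m f) : CD m fun x => L x (f x) :=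
  fun e he => (hL e he).clm_apply (hf e he)

theorem cd_pi {ι : Type} [Fintype ι] {F : M → ι → V} : CD m F ↔ ∀ i, CD m fun x => F x i :=
  ⟨fun h i e he => contDiff_pi.1 (h e he) i, fun h e he => contDiff_pi.2 fun i => h i e he⟩

theorem cd_euclidean {N : ℕ} {F : M → E N} : CD m F ↔ ∀ i, CD m fun x => F x i :=
  ⟨fun h i e he => contDiff_euclidean.1 (h e he) i,
    fun h e he => contDiff_euclidean.2 fun i => h i e he⟩

theorem cd_iff (hm : m ≤ ∞) : CD m f ↔ ∀ x, CAt m f x :=
  ⟨fun h _ => h.contDiffAt, cd_of_cAt hm⟩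

/-! ### `CAt` -/

theorem cAt_const {c : V} : CAt m (fun _ : M => c) x := contDiffAt_const

theorem CAt.of_le {k : WithTop ℕ∞} (hf : CAt m f x) (h : k ≤ m) : CAt k f x :=
  ContDiffAt.of_le hf h

theorem CAt.continuousAt (hf : CAt m f x) : ContinuousAt f x :=
  contAt_of_loc (ContDiffAt.continuousAt hf)

theorem CAt.differentiableAt (hf : CAt m f x) (hm : m ≠ 0) : DAt f x :=
  ContDiffAt.differentiableAt hf hm

theorem CAt.congr_of_eventuallyEq (hf : CAt m f x) (h : g =ᶠ[𝓝 x] f) : CAt m g x :=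
  ContDiffAt.congr_of_eventuallyEq hf (loc_congr h)

theorem CAt.eventually (hf : CAt m f x) (hm : m ≤ ∞) (hm' : m ≠ ∞) : ∀ᶠ y in 𝓝 x, CAt m f y :=
  ev_pt.2 ((ContDiffAt.eventually hf hm').mono fun _ hz => cAt_of_loc hm (ch_mem x) hz)

theorem CAt.add (hf : CAt m f x) (hg : CAt m g x) : CAt m (fun x => f x + g x) x :=
  ContDiffAt.add hf hg

theorem CAt.sub (hf : CAt m f x) (hg : CAt m g x) : CAt m (fun x => f x - g x) x :=
  ContDiffAt.sub hf hg

theorem CAt.neg (hf : CAt m f x) : CAt m (fun x => -f x) x := ContDiffAt.neg hf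

theorem CAt.smul (ha : CAt m a x) (hf : CAt m f x) : CAt m (fun x => a x • f x) x :=
  ContDiffAt.smul ha hf

theorem CAt.sum {ι : Type*} {s : Finset ι} {F : ι → M → V} (h : ∀ i ∈ s, CAt m (F i) x) :
    CAt m (fun x => ∑ i ∈ s, F i x) x := ContDiffAt.sum h

theorem CAt.prodMk {g : M → W} (hf : CAt m f x) (hg : CAt m g x) :
    CAt m (fun x => (f x, g x)) x := ContDiffAt.prodMk hf hg

theorem _root_.ContDiffAt.compM {φ : V → W} (hφ : ContDiffAt ℝ m φ (f x)) (hf : CAt m f x) :
    CAt m (fun x => φ (f x)) x := ContDiffAt.comp (pt x) (by first | rwa [loc_pt] | rwa [symm_pt]) hf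

theorem cAt_pi {ι : Type} [Fintype ι] {F : M → ι → V} :
    CAt m F x ↔ ∀ i, CAt m (fun x => F x i) x := contDiffAt_pi

/-! ### `DAt` -/

theorem dAt_const (c : V) : DAt (fun _ : M => c) x := differentiableAt_const c

theorem DAt.continuousAt (hf : DAt f x) : ContinuousAt f x :=
  contAt_of_loc (DifferentiableAt.continuousAt hf)

theorem DAt.congr_of_eventuallyEq (hf : DAt f x) (h : g =ᶠ[𝓝 x] f) : DAt g x :=
  DifferentiableAt.congr_of_eventuallyEq hf (loc_congr h)

theorem DAt.add (hf : DAt f x) (hg : DAt g x) : DAt (fun x => f x + g x) x :=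
  DifferentiableAt.fun_add hf hg

theorem DAt.sub (hf : DAt f x) (hg : DAt g x) : DAt (fun x => f x - g x) x :=
  DifferentiableAt.fun_sub hf hg

theorem DAt.neg (hf : DAt f x) : DAt (fun x => -f x) x := DifferentiableAt.fun_neg hf

theorem DAt.fun_add (hf : DAt f x) (hg : DAt g x) : DAt (fun x => f x + g x) x := hf.add hg

theorem DAt.fun_sub (hf : DAt f x) (hg : DAt g x) : DAt (fun x => f x - g x) x := hf.sub hg

theorem DAt.fun_neg (hf : DAt f x) : DAt (fun x => -f x) x := hf.neg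

theorem DAt.add_const (hf : DAt f x) (c : V) : DAt (fun x => f x + c) x := hf.add (dAt_const c)

theorem DAt.const_add (hf : DAt f x) (c : V) : DAt (fun x => c + f x) x := (dAt_const c).add hf

theorem DAt.sub_const (hf : DAt f x) (c : V) : DAt (fun x => f x - c) x := hf.sub (dAt_const c)

theorem DAt.const_sub (hf : DAt f x) (c : V) : DAt (fun x => c - f x) x := (dAt_const c).sub hf

theorem DAt.smul (ha : DAt a x) (hf : DAt f x) : DAt (fun x => a x • f x) x :=
  DifferentiableAt.fun_smul ha hf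

theorem DAt.fun_sum {ι : Type*} {u : Finset ι} {F : ι → M → V} (h : ∀ i ∈ u, DAt (F i) x) :
    DAt (fun x => ∑ i ∈ u, F i x) x := DifferentiableAt.fun_sum h

theorem _root_.DifferentiableAt.compM {φ : V → W} (hφ : DifferentiableAt ℝ φ (f x))
    (hf : DAt f x) : DAt (fun x => φ (f x)) x :=
  DifferentiableAt.comp (pt x) (by first | rwa [loc_pt] | rwa [symm_pt]) hf

theorem DAt.hasFDerivAt (hf : DAt f x) : HasFDerivAt (loc (ch x) f) (fd f x) (pt x) :=
  DifferentiableAt.hasFDerivAt hf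

/-! ### `fd` -/

theorem fd_congr (h : f =ᶠ[𝓝 x] g) : fd f x = fd g x := (loc_congr h).fderiv_eq

theorem fd_const (c : V) : fd (fun _ : M => c) x = 0 := fderiv_const_apply c

theorem fd_add (hf : DAt f x) (hg : DAt g x) : fd (fun x => f x + g x) x = fd f x + fd g x :=
  fderiv_fun_add hf hg

theorem fd_sub (hf : DAt f x) (hg : DAt g x) : fd (fun x => f x - g x) x = fd f x - fd g x :=
  fderiv_fun_sub hf hg

theorem fd_neg : fd (fun x => -f x) x = -fd f x := fderiv_fun_neg

theorem fd_comp {φ : V → W} (hφ : DifferentiableAt ℝ φ (f x)) (hf : DAt f x) :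
    fd (fun x => φ (f x)) x = (fderiv ℝ φ (f x)).comp (fd f x) := by
  have := fderiv_comp (pt x) (g := φ) (f := loc (ch x) f) (by first | rwa [loc_pt] | rwa [symm_pt]) hf
  rwa [loc_pt] at this

end V

variable {f h u v : M → ℝ}

theorem CD.mul (hf : CD m f) (hh : CD m h) : CD m fun x => f x * h x := fun e he =>
  (hf e he).mul (hh e he)

theorem CD.div (hf : CD m f) (hh : CD m h) (h0 : ∀ x, h x ≠ 0) : CD m fun x => f x / h x :=
  fun e he => (hf e he).div (hh e he) fun _ => h0 _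

theorem CD.inv (hf : CD m f) (h0 : ∀ x, f x ≠ 0) : CD m fun x => (f x)⁻¹ := fun e he =>
  (hf e he).inv fun _ => h0 _

theorem CD.div_const (hf : CD m f) (c : ℝ) : CD m fun x => f x / c := fun e he =>
  (hf e he).div_const c

theorem CD.pow (hf : CD m f) (k : ℕ) : CD m fun x => f x ^ k := fun e he => (hf e he).pow k

theorem CD.exp (hf : CD m f) : CD m fun x => Real.exp (f x) := fun e he => (hf e he).exp

theorem CD.log (hf : CD m f) (h0 : ∀ x, f x ≠ 0) : CD m fun x => Real.log (f x) := fun e he =>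
  (hf e he).log fun _ => h0 _

theorem CD.sqrt (hf : CD m f) (h0 : ∀ x, f x ≠ 0) : CD m fun x => √(f x) := fun e he =>
  (hf e he).sqrt fun _ => h0 _

theorem CD.arctan (hf : CD m f) : CD m fun x => Real.arctan (f x) := 
  Real.contDiff_arctan.compM hf

theorem CD.rpow_const_of_ne {p : ℝ} (hf : CD m f) (h0 : ∀ x, f x ≠ 0) :
    CD m fun x => f x ^ p := fun e he => (hf e he).rpow_const_of_ne fun _ => h0 _

theorem CAt.mul (hf : CAt m f x) (hh : CAt m h x) : CAt m (fun x => f x * h x) x :=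
  ContDiffAt.mul hf hh

theorem CAt.div (hf : CAt m f x) (hh : CAt m h x) (h0 : h x ≠ 0) :
    CAt m (fun x => f x / h x) x := ContDiffAt.div hf hh (by first | rwa [loc_pt] | rwa [symm_pt])

theorem CAt.inv (hf : CAt m f x) (h0 : f x ≠ 0) : CAt m (fun x => (f x)⁻¹) x :=
  ContDiffAt.inv hf (by first | rwa [loc_pt] | rwa [symm_pt])

theorem CAt.div_const (hf : CAt m f x) (c : ℝ) : CAt m (fun x => f x / c) x :=
  ContDiffAt.div_const hf c

theorem CAt.pow (hf : CAt m f x) (k : ℕ) : CAt m (fun x => f x ^ k) x := ContDiffAt.pow hf k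

theorem CAt.exp (hf : CAt m f x) : CAt m (fun x => Real.exp (f x)) x := ContDiffAt.exp hf

theorem CAt.log (hf : CAt m f x) (h0 : f x ≠ 0) : CAt m (fun x => Real.log (f x)) x :=
  ContDiffAt.log hf (by first | rwa [loc_pt] | rwa [symm_pt])

theorem CAt.sqrt (hf : CAt m f x) (h0 : f x ≠ 0) : CAt m (fun x => √(f x)) x :=
  ContDiffAt.sqrt hf (by first | rwa [loc_pt] | rwa [symm_pt])

theorem CAt.arctan (hf : CAt m f x) : CAt m (fun x => Real.arctan (f x)) x :=
  Real.contDiff_arctan.contDiffAt.compM hf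

theorem CAt.rpow_const_of_ne {p : ℝ} (hf : CAt m f x) (h0 : f x ≠ 0) :
    CAt m (fun x => f x ^ p) x := ContDiffAt.rpow_const_of_ne hf (by first | rwa [loc_pt] | rwa [symm_pt])

theorem DAt.mul (hf : DAt f x) (hh : DAt h x) : DAt (fun x => f x * h x) x :=
  DifferentiableAt.fun_mul hf hh

theorem DAt.fun_mul (hf : DAt f x) (hh : DAt h x) : DAt (fun x => f x * h x) x := hf.mul hh

theorem DAt.const_mul (hf : DAt f x) (c : ℝ) : DAt (fun x => c * f x) x := (dAt_const c).mul hf

theorem DAt.mul_const (hf : DAt f x) (c : ℝ) : DAt (fun x => f x * c) x := hf.mul (dAt_const c)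

theorem DAt.div_const (hf : DAt f x) (c : ℝ) : DAt (fun x => f x / c) x :=
  by simpa only [div_eq_mul_inv] using hf.mul_const c⁻¹

theorem DAt.fun_inv (hf : DAt f x) (h0 : f x ≠ 0) : DAt (fun x => (f x)⁻¹) x :=
  DifferentiableAt.fun_inv hf (by first | rwa [loc_pt] | rwa [symm_pt])

theorem DAt.inv (hf : DAt f x) (h0 : f x ≠ 0) : DAt (fun x => (f x)⁻¹) x := hf.fun_inv h0

theorem DAt.fun_div (hf : DAt f x) (hh : DAt h x) (h0 : h x ≠ 0) : DAt (fun x => f x / h x) x :=
  by simpa only [div_eq_mul_inv] using hf.mul (hh.fun_inv h0)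

theorem DAt.div (hf : DAt f x) (hh : DAt h x) (h0 : h x ≠ 0) : DAt (fun x => f x / h x) x :=
  hf.fun_div hh h0

theorem DAt.fun_pow (hf : DAt f x) (k : ℕ) : DAt (fun x => f x ^ k) x :=
  DifferentiableAt.fun_pow hf k

theorem DAt.pow (hf : DAt f x) (k : ℕ) : DAt (fun x => f x ^ k) x := hf.fun_pow k

theorem DAt.exp (hf : DAt f x) : DAt (fun x => Real.exp (f x)) x := DifferentiableAt.exp hf

theorem DAt.log (hf : DAt f x) (h0 : f x ≠ 0) : DAt (fun x => Real.log (f x)) x :=
  DifferentiableAt.log hf (by first | rwa [loc_pt] | rwa [symm_pt])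

theorem DAt.sqrt (hf : DAt f x) (h0 : f x ≠ 0) : DAt (fun x => √(f x)) x :=
  DifferentiableAt.sqrt hf (by first | rwa [loc_pt] | rwa [symm_pt])

theorem DAt.arctan (hf : DAt f x) : DAt (fun x => Real.arctan (f x)) x :=
  DifferentiableAt.arctan hf

theorem DAt.rpow_const {p : ℝ} (hf : DAt f x) (h0 : f x ≠ 0 ∨ 1 ≤ p) :
    DAt (fun x => f x ^ p) x := DifferentiableAt.rpow_const hf (by first | rwa [loc_pt] | rwa [symm_pt])

attribute [fun_prop] CD CAt DAt
attribute [fun_prop] cd_const CD.add CD.sub CD.neg CD.smul CD.sum CD.prodMk ContDiff.compM CD.mul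
  CD.div CD.inv CD.div_const CD.pow CD.exp CD.log CD.sqrt CD.arctan CD.rpow_const_of_ne
attribute [fun_prop] cAt_const CAt.add CAt.sub CAt.neg CAt.smul CAt.sum CAt.prodMk
  ContDiffAt.compM CAt.mul CAt.div CAt.inv CAt.div_const CAt.pow CAt.exp CAt.log CAt.sqrt
  CAt.arctan CAt.rpow_const_of_ne
attribute [fun_prop] dAt_const DAt.add DAt.sub DAt.neg DAt.smul DAt.fun_sum DifferentiableAt.compM
  DAt.mul DAt.div_const DAt.inv DAt.div DAt.pow DAt.exp DAt.log DAt.sqrt DAt.arctan DAt.rpow_const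

/-! ### `Smooth` -/

theorem Smooth.c2 (hf : Smooth f) (x : M) : CAt 2 f x := (CD.of_le hf two_le_oo).contDiffAt

theorem Smooth.c1 (hf : Smooth f) (x : M) : CAt 1 f x := (CD.of_le hf one_le_oo).contDiffAt

theorem Smooth.diff (hf : Smooth f) (x : M) : DAt f x := CD.differentiable hf (by simp) x

theorem Smooth.cont (hf : Smooth f) : Continuous f := CD.continuous hf

theorem Smooth.two (hf : Smooth f) : CD 2 f := CD.of_le hf two_le_oo

theorem Smooth.one (hf : Smooth f) : CD 1 f := CD.of_le hf one_le_oo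

theorem Smooth.rpow (hf : Smooth f) (h0 : ∀ x, 0 < f x) (p : ℝ) : Smooth fun x => f x ^ p :=
  CD.rpow_const_of_ne hf fun x => (h0 x).ne'

theorem Smooth.lc (hf : Smooth f) {e : Ch n M} (he : e ∈ At M) : Stmt.Smooth (loc e f) := hf e he

theorem diff2 (hf : CAt 2 f x) : DAt f x := hf.differentiableAt (by simp)

theorem ev_diff (hf : CAt 2 f x) : ∀ᶠ y in 𝓝 x, DAt f y :=
  (hf.eventually two_le_oo (by simp)).mono fun _ hy => diff2 hy

/-! ### `pd` -/

theorem pd_eq (hf : DAt f x) (i : Fin n) : pd i f x = fd f x (EuclideanSpace.single i 1) :=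
  P366Z.pd_eq hf i

theorem pd_congr (e : f =ᶠ[𝓝 x] h) (i : Fin n) : pd i f x = pd i h x :=
  P366Z.pd_congr (loc_congr e) i

theorem pd_congr_ev (e : f =ᶠ[𝓝 x] h) (i : Fin n) : pd i f =ᶠ[𝓝 x] pd i h :=
  e.eventuallyEq_nhds.mono fun _ hy => pd_congr hy i

theorem pd2_congr (e : f =ᶠ[𝓝 x] h) (i j : Fin n) : pd2 i j f x = pd2 i j h x :=
  P366Z.pd_congr (P366Z.pd_congr_ev (loc_congr e) j) i

theorem pd_const (c : ℝ) (i : Fin n) (x : M) : pd i (fun _ => c) x = 0 := P366Z.pd_const c i _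

theorem pd_add (hf : DAt f x) (hh : DAt h x) (i : Fin n) :
    pd i (fun y => f y + h y) x = pd i f x + pd i h x := P366Z.pd_add hf hh i

theorem pd_sub (hf : DAt f x) (hh : DAt h x) (i : Fin n) :
    pd i (fun y => f y - h y) x = pd i f x - pd i h x := P366Z.pd_sub hf hh i

theorem pd_neg (i : Fin n) : pd i (fun y => -f y) x = -pd i f x := P366Z.pd_neg i

theorem pd_mul (hf : DAt f x) (hh : DAt h x) (i : Fin n) :
    pd i (fun y => f y * h y) x = pd i f x * h x + f x * pd i h x := by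
  have := P366Z.pd_mul hf hh i
  rwa [loc_pt, loc_pt] at this

theorem pd_const_mul (c : ℝ) (i : Fin n) : pd i (fun y => c * f y) x = c * pd i f x :=
  P366Z.pd_const_mul c i

theorem pd_mul_const (c : ℝ) (i : Fin n) : pd i (fun y => f y * c) x = pd i f x * c :=
  P366Z.pd_mul_const c i

theorem pd_add_const (c : ℝ) (i : Fin n) : pd i (fun y => f y + c) x = pd i f x :=
  P366Z.pd_add_const c i

theorem pd_const_add (c : ℝ) (i : Fin n) : pd i (fun y => c + f y) x = pd i f x :=
  P366Z.pd_const_add c i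

theorem pd_sub_const (c : ℝ) (i : Fin n) : pd i (fun y => f y - c) x = pd i f x :=
  P366Z.pd_sub_const c i

theorem pd_const_sub (c : ℝ) (i : Fin n) : pd i (fun y => c - f y) x = -pd i f x :=
  P366Z.pd_const_sub c i

theorem pd_sum {ι : Type*} (s : Finset ι) {F : ι → M → ℝ} (hF : ∀ k ∈ s, DAt (F k) x)
    (i : Fin n) : pd i (fun y => ∑ k ∈ s, F k y) x = ∑ k ∈ s, pd i (F k) x :=
  P366Z.pd_sum s (F := fun k => loc (ch x) (F k)) hF i

theorem pd_comp {φ : ℝ → ℝ} {d : ℝ} (hφ : HasDerivAt φ d (f x)) (hf : DAt f x) (i : Fin n) :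
    pd i (fun y => φ (f y)) x = d * pd i f x := P366Z.pd_comp (by first | rwa [loc_pt] | rwa [symm_pt]) hf i

theorem pd_inv (hf : DAt f x) (h0 : f x ≠ 0) (i : Fin n) :
    pd i (fun y => (f y)⁻¹) x = -pd i f x / f x ^ 2 := by
  have := P366Z.pd_inv hf (by first | rwa [loc_pt] | rwa [symm_pt]) i
  rwa [loc_pt] at this

theorem pd_div (hf : DAt f x) (hh : DAt h x) (h0 : h x ≠ 0) (i : Fin n) :
    pd i (fun y => f y / h y) x = (pd i f x * h x - f x * pd i h x) / h x ^ 2 := by
  have := P366Z.pd_div hf hh (by first | rwa [loc_pt] | rwa [symm_pt]) i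
  rwa [loc_pt, loc_pt] at this

theorem pd_pow (hf : DAt f x) (m : ℕ) (i : Fin n) :
    pd i (fun y => f y ^ m) x = m * f x ^ (m - 1) * pd i f x :=
  pd_comp (φ := fun t => t ^ m) (hasDerivAt_pow m (f x)) hf i

theorem pd_rpow (hf : DAt f x) (h0 : f x ≠ 0) (p : ℝ) (i : Fin n) :
    pd i (fun y => f y ^ p) x = p * f x ^ (p - 1) * pd i f x :=
  pd_comp (φ := fun t => t ^ p) (Real.hasDerivAt_rpow_const (Or.inl h0)) hf i

theorem pd_log (hf : DAt f x) (h0 : f x ≠ 0) (i : Fin n) :
    pd i (fun y => Real.log (f y)) x = pd i f x / f x := by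
  rw [pd_comp (φ := Real.log) (Real.hasDerivAt_log h0) hf]; field_simp

theorem pd_exp (hf : DAt f x) (i : Fin n) :
    pd i (fun y => Real.exp (f y)) x = Real.exp (f x) * pd i f x :=
  pd_comp (φ := Real.exp) (Real.hasDerivAt_exp _) hf i

/-- the chain rule with an outer function on Euclidean space -/
theorem pd_comp_E {N : ℕ} {Φ : M → E N} {F : E N → ℝ} (hF : DifferentiableAt ℝ F (Φ x))
    (hΦ : DAt Φ x) (i : Fin n) :
    pd i (fun y => F (Φ y)) x = ∑ k, pd i (fun y => Φ y k) x * Stmt.pd k F (Φ x) := by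
  have := pd_chain (τ := loc (ch x) Φ) (f := F) (by first | rwa [loc_pt] | rwa [symm_pt]) hΦ i
  rwa [loc_pt] at this

theorem fderiv_eq_sum (hf : DAt f x) (ξ : E n) : fd f x ξ = ∑ i, ξ i * pd i f x :=
  P366Z.fderiv_eq_sum hf ξ

theorem abs_pd_le (hf : DAt f x) (i : Fin n) : |pd i f x| ≤ ‖fd f x‖ := P366Z.abs_pd_le hf i

theorem norm_fderiv_sq (hf : DAt f x) : ‖fd f x‖ ^ 2 = ∑ i, pd i f x ^ 2 :=
  P366Z.norm_fderiv_sq hf

theorem fd_mul (hf : DAt f x) (hh : DAt h x) :
    fd (fun x => f x * h x) x = f x • fd h x + h x • fd f x := by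
  have := fderiv_fun_mul (𝕜 := ℝ) (c := loc (ch x) f) (d := loc (ch x) h) hf hh
  rwa [loc_pt, loc_pt] at this

theorem fd_comp_deriv {φ : ℝ → ℝ} {d : ℝ} (hφ : HasDerivAt φ d (f x)) (hf : DAt f x) :
    fd (fun y => φ (f y)) x = d • fd f x :=
  (HasDerivAt.comp_hasFDerivAt (pt x) (h₂ := φ) (by first | rwa [loc_pt] | rwa [symm_pt]) hf.hasFDerivAt).fderiv

theorem pd_comm (hf : CAt 2 f x) (i j : Fin n) : pd2 i j f x = pd2 j i f x := P366Z.pd_comm hf i j

theorem pd_pd_eq (hf : CAt 2 f x) (i j : Fin n) : pd2 i j f x =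
    fderiv ℝ (fderiv ℝ (loc (ch x) f)) (pt x) (EuclideanSpace.single i 1)
      (EuclideanSpace.single j 1) := P366Z.pd_pd_eq hf i j

example (hf : Smooth f) (hh : Smooth h) : CD ∞ fun x => f x * h x + Real.exp (f x) ^ 2 := by
  unfold Smooth at hf hh
  fun_prop

end Vale.Agent.P366M
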