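import Vale.Agent.P366Z.Defs
import Mathlib.Geometry.Manifold.ChartedSpace

/-!
# P366M: manifolds whose charts are onto Euclidean space; calculus in the preferred charts

Tensors are plain functions: their values at `x` are the components in the chart `ch x`.
The names are those of `P366.Stmt` and `P366Z`, which they shadow inside this namespace.
-/

open MeasureTheory Metric Filter Topology Set
open scoped ContDiff ENNReal
open Vale.Agent.P366 Vale.Agent.P366.Stmt Vale.Agent.P366Z

noncomputable section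

namespace Vale.Agent.P366M

/-- the Jacobian matrix of a map of Euclidean spaces -/
def jac {m n : ℕ} (τ : E m → E n) (y : E m) : Matrix (Fin n) (Fin m) ℝ :=
  fun k i => Stmt.pd i (fun z => τ z k) y

/-- charts -/
abbrev Ch (n : ℕ) (M : Type) [TopologicalSpace M] := OpenPartialHomeomorph M (E n)

/-- a smooth manifold all of whose charts are onto Euclidean space -/
class Mf0 (n : outParam ℕ) (M : Type) extends MetricSpace M, MeasurableSpace M,
    ChartedSpace (E n) M where
  bor : BorelSpace M
  sc : SecondCountableTopology M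
  ne : Nonempty M
  tgt : ∀ e ∈ atlas, e.target = univ
  trans : ∀ e ∈ atlas, ∀ e' ∈ atlas, ∀ y, e.symm y ∈ e'.source →
    ContDiffAt ℝ ∞ (fun z => e' (e.symm z)) y

attribute [instance] Mf0.bor Mf0.sc Mf0.ne

/-- covariant or contravariant 2-tensors: the components in the preferred charts -/
abbrev Fld (n : ℕ) (M : Type) := M → Fin n → Fin n → ℝ

section L0

variable {n : ℕ} {M : Type} [Mf0 n M]

/-- the preferred chart -/
abbrev ch (x : M) : Ch n M := chartAt (E n) x

/-- the coordinates of `x` in its preferred chart -/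
def pt (x : M) : E n := ch x x

/-- a function in the chart `e` -/
def loc {α : Type} (e : Ch n M) (u : M → α) : E n → α := fun y => u (e.symm y)

/-- the change of coordinates -/
def tm (e e' : Ch n M) : E n → E n := fun y => e' (e.symm y)

/-- the admissible charts: onto Euclidean space and compatible with the preferred charts -/
def At (M : Type) [Mf0 n M] : Set (Ch n M) := {e | e.target = univ ∧ ∀ x : M,
  (∀ y, e.symm y ∈ (ch x).source → ContDiffAt ℝ ∞ (tm e (ch x)) y) ∧
    ∀ y, (ch x).symm y ∈ e.source → ContDiffAt ℝ ∞ (tm (ch x) e) y}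

/-- the Jacobian matrix from the chart `e` to the preferred chart -/
def J (e : Ch n M) (y : E n) : Matrix (Fin n) (Fin n) ℝ := jac (tm e (ch (e.symm y))) y

/-- a covariant tensor in the chart `e` -/
def rep (e : Ch n M) (T : Fld n M) : Field n := fun y i j =>
  ∑ k, ∑ l, J e y k i * J e y l j * T (e.symm y) k l

/-- a contravariant tensor in the chart `e` -/
def repU (e : Ch n M) (T : Fld n M) : Field n := fun y i j =>
  ∑ k, ∑ l, (J e y)⁻¹ i k * (J e y)⁻¹ j l * T (e.symm y) k l

/-- a covector field in the chart `e` -/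
def repC (e : Ch n M) (w : Fin n → M → ℝ) : Fin n → E n → ℝ := fun i y =>
  ∑ k, J e y k i * w k (e.symm y)

/-- a vector field in the chart `e` -/
def repV (e : Ch n M) (X : Fin n → M → ℝ) : Fin n → E n → ℝ := fun i y =>
  ∑ k, (J e y)⁻¹ i k * X k (e.symm y)

section V

variable {V : Type} [NormedAddCommGroup V] [NormedSpace ℝ V]

/-- differentiable at a point; replaces `DifferentiableAt ℝ f x` -/
def DAt (f : M → V) (x : M) : Prop := DifferentiableAt ℝ (loc (ch x) f) (pt x)

/-- of class `C^m` at a point; replaces `ContDiffAt ℝ m f x` -/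
def CAt (m : WithTop ℕ∞) (f : M → V) (x : M) : Prop := ContDiffAt ℝ m (loc (ch x) f) (pt x)

/-- of class `C^m`; replaces `ContDiff ℝ m f` -/
def CD (m : WithTop ℕ∞) (f : M → V) : Prop := ∀ e ∈ At M, ContDiff ℝ m (loc e f)

/-- the derivative in the preferred chart; replaces `fderiv ℝ f x` -/
def fd (f : M → V) (x : M) : E n →L[ℝ] V := fderiv ℝ (loc (ch x) f) (pt x)

/-- locally Lipschitz in the charts -/
def LLip (f : M → V) : Prop := ∀ e ∈ At M, LocallyLipschitz (loc e f)

end V

/-- `f` is smooth -/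
def Smooth (f : M → ℝ) : Prop := CD ∞ f

/-- smooth covariant tensors; replaces `∀ i j, Smooth fun x => T x i j` -/
def SmT (T : Fld n M) : Prop := ∀ e ∈ At M, ∀ i j, Stmt.Smooth fun y => rep e T y i j

/-- smooth contravariant tensors -/
def SmU (T : Fld n M) : Prop := ∀ e ∈ At M, ∀ i j, Stmt.Smooth fun y => repU e T y i j

/-- vector fields of class `C^m`; replaces `∀ i, ContDiff ℝ m (X i)` -/
def CV (m : WithTop ℕ∞) (X : Fin n → M → ℝ) : Prop :=
  ∀ e ∈ At M, ∀ i, ContDiff ℝ m (repV e X i)

/-- covector fields of class `C^m` -/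
def CC (m : WithTop ℕ∞) (w : Fin n → M → ℝ) : Prop :=
  ∀ e ∈ At M, ∀ i, ContDiff ℝ m (repC e w i)

/-- vector fields which are differentiable at a point; replaces
`∀ i, DifferentiableAt ℝ (X i) x` -/
def DV (X : Fin n → M → ℝ) (x : M) : Prop := ∀ i, DifferentiableAt ℝ (repV (ch x) X i) (pt x)

/-- the derivative in the direction of the `i`-th coordinate of the preferred chart -/
def pd (i : Fin n) (f : M → ℝ) (x : M) : ℝ := Stmt.pd i (loc (ch x) f) (pt x)

/-- the second derivatives in the preferred chart; replaces `pd i (pd j f) x` -/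
def pd2 (i j : Fin n) (f : M → ℝ) (x : M) : ℝ := Stmt.pd i (Stmt.pd j (loc (ch x) f)) (pt x)

/-! ### the quantities of `P366.Stmt` -/

/-- the matrix of components at `x` -/
def mat (g : Fld n M) (x : M) : Matrix (Fin n) (Fin n) ℝ := g x

/-- the components of the inverse metric -/
def up (g : Fld n M) (i j : Fin n) (x : M) : ℝ := (mat g x)⁻¹ i j

/-- the Christoffel symbols of the preferred chart -/
def chr (g : Fld n M) (k i j : Fin n) (x : M) : ℝ := Stmt.chr (rep (ch x) g) k i j (pt x)

/-- the scalar curvature -/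
def scal (g : Fld n M) (x : M) : ℝ := Stmt.scal (rep (ch x) g) (pt x)

/-- the trace -/
def tr (g K : Fld n M) (x : M) : ℝ := ∑ i, ∑ j, up g i j x * K x i j

/-- the squared norm -/
def normSq (g K : Fld n M) (x : M) : ℝ :=
  ∑ i, ∑ j, ∑ k, ∑ l, up g i k x * up g j l x * K x i j * K x k l

/-- the norm of a covector field -/
def covNorm (g : Fld n M) (w : Fin n → M → ℝ) (x : M) : ℝ :=
  √(∑ i, ∑ j, up g i j x * w i x * w j x)

/-- the tensor `π = K - (tr K) g` -/
def momT (g K : Fld n M) : Fld n M := fun x i j => K x i j - tr g K x * g x i j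

/-- the momentum density -/
def mom (g K : Fld n M) (j : Fin n) (x : M) : ℝ :=
  Stmt.mom (rep (ch x) g) (rep (ch x) K) j (pt x)

/-- the energy density -/
def mu (g K : Fld n M) (x : M) : ℝ := (scal g x + tr g K x ^ 2 - normSq g K x) / 2

/-- the unit normal of the level sets -/
def nrm (g : Fld n M) (F : M → ℝ) (i : Fin n) (x : M) : ℝ :=
  (∑ j, up g i j x * pd j F x) / covNorm g (fun j => pd j F) x

/-- the trace over the tangent space of the level set -/
def trS (g K : Fld n M) (F : M → ℝ) (x : M) : ℝ :=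
  tr g K x - ∑ i, ∑ j, K x i j * nrm g F i x * nrm g F j x

/-- the covariant Hessian -/
def hess (g : Fld n M) (F : M → ℝ) : Fld n M := fun x i j =>
  pd2 i j F x - ∑ k, chr g k i j x * pd k F x

/-- the future outgoing null expansion of the level set -/
def thetaPlus (g K : Fld n M) (F : M → ℝ) (x : M) : ℝ :=
  trS g (hess g F) F x / covNorm g (fun j => pd j F) x + trS g K F x

/-! ### the quantities of `P366Z` -/

/-- a smooth Riemannian metric -/
structure Met (g : Fld n M) : Prop where
  sm : SmT g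
  sy : ∀ x i j, g x i j = g x j i
  pos : ∀ x, (mat g x).PosDef

/-- the unit matrix (not a smooth tensor in general) -/
def eu (n : ℕ) {M : Type} : Fld n M := fun _ i j => if i = j then 1 else 0

/-- the inner product of two gradients -/
def ip (g : Fld n M) (u v : M → ℝ) (x : M) : ℝ :=
  ∑ i, ∑ j, up g i j x * pd i u x * pd j v x

/-- the length of the gradient -/
def gn (g : Fld n M) (u : M → ℝ) (x : M) : ℝ := √(ip g u u x)

/-- the gradient -/
def gr (g : Fld n M) (u : M → ℝ) (i : Fin n) (x : M) : ℝ := ∑ j, up g i j x * pd j u x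

/-- the divergence of a vector field -/
def dv (g : Fld n M) (X : Fin n → M → ℝ) (x : M) : ℝ :=
  P366Z.dv (rep (ch x) g) (repV (ch x) X) (pt x)

/-- the Laplacian -/
def lap (g : Fld n M) (u : M → ℝ) : M → ℝ := fun x =>
  P366Z.lap (rep (ch x) g) (loc (ch x) u) (pt x)

/-- the weighted Laplacian `div (U² ∇ u)` -/
def wl (g : Fld n M) (U u : M → ℝ) : M → ℝ := fun x =>
  P366Z.wl (rep (ch x) g) (loc (ch x) U) (loc (ch x) u) (pt x)

/-- the conformal metric `U ^ (4 / (n - 2)) g` -/
def cf (U : M → ℝ) (g : Fld n M) : Fld n M := fun x i j => U x ^ (2 * bb n) * g x i j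

/-- the divergence of a symmetric tensor -/
def dvT (g T : Fld n M) (j : Fin n) (x : M) : ℝ :=
  P366Z.dvT (rep (ch x) g) (rep (ch x) T) j (pt x)

/-- the conformal Laplacian -/
def cl (g : Fld n M) (v : M → ℝ) (x : M) : ℝ := -(4 * gam n) * lap g v x + scal g x * v x

/-! ### the volume -/

theorem exists_cv (M : Type) [Mf0 n M] : ∃ c : ℕ → M, ⋃ k, (ch (c k)).source = univ := by
  obtain ⟨s, hs, h⟩ := countable_cover_nhds (U := fun x : M => (ch x).source)
    fun x => chart_source_mem_nhds (E n) x
  rcases s.eq_empty_or_nonempty with rfl | hne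
  · obtain ⟨x⟩ : Nonempty M := inferInstance
    have : x ∈ (univ : Set M) := mem_univ x
    rw [← h] at this
    simp at this
  · obtain ⟨c, rfl⟩ := hs.exists_eq_range hne
    exact ⟨c, by rw [← h, biUnion_range]⟩

/-- the centres of countably many charts which cover -/
def cv (M : Type) [Mf0 n M] : ℕ → M := (exists_cv M).choose

/-- the pieces of a partition into measurable subsets of the sources of charts -/
def pc (M : Type) [Mf0 n M] : ℕ → Set M := disjointed fun k => (ch (cv M k)).source

/-- the volume of the chart `e` -/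
def volC (g : Fld n M) (e : Ch n M) : Measure M :=
  ((volume : Measure (E n)).withDensity fun y => ENNReal.ofReal (P366Z.dens (rep e g) y)).map e.symm

/-- the Riemannian volume -/
def vol (g : Fld n M) : Measure M := Measure.sum fun k => (volC g (ch (cv M k))).restrict (pc M k)

end L0

/-- a manifold with a background metric; the measure `volume` is its volume -/
class Mf (n : outParam ℕ) (M : Type) extends Mf0 n M where
  bg : Fld n M
  bg_met : Met bg

export Mf (bg bg_met)

section L0

variable {n : ℕ} {M : Type} [Mf n M]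

instance : MeasureSpace M := ⟨vol bg⟩

/-- the volume density relative to the background metric -/
def dens (g : Fld n M) (x : M) : ℝ := √(mat g x).det / √(mat bg x).det

end L0

/-- a manifold of finite type with finitely many Euclidean ends (compact if there is no end):
`px` is the position, `ye j` its inverse far out in the end `j` -/
class Mfs (n : outParam ℕ) (M : Type) extends Mf n M where
  ι : Type
  fι : Finite ι
  px : M → E n
  ye : ι → E n → M
  R0 : ℝ
  R0_ge : 8 ≤ R0
  sm_px : CD ∞ px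
  px_ye : ∀ j y, R0 - 6 ≤ ‖y‖ → px (ye j y) = y
  ye_px : ∀ x, R0 - 6 ≤ ‖px x‖ → ∃ j, ye j (px x) = x
  far : ∀ j y, R0 ≤ ‖y‖ → pt (ye j y) = y ∧ ∀ z ∈ ball y 5, (ch (ye j y)).symm z = ye j z
  half : ∀ j (w : E n), ‖w‖ = 1 → ∃ e ∈ At M, ∀ y, R0 ≤ inner ℝ w y → e.symm y = ye j y
  cpt : ∀ R, IsCompact {x | ‖px x‖ ≤ R}
  fin : (range fun x : M => ch x).Finite
  core : ∃ C, ∀ x, ‖px x‖ ≤ R0 → ‖pt x‖ ≤ C
  lip : ∀ x : M, LocallyLipschitz (ch x).symm
  lip' : ∀ x : M, ∀ p ∈ (ch x).source, ∃ K, ∃ t ∈ 𝓝 p, LipschitzOnWith K (ch x) t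
  px_le : ∀ x y, ‖px x - px y‖ ≤ dist x y
  dist_far : ∀ j y z, R0 - 6 ≤ ‖y‖ → R0 - 6 ≤ ‖z‖ → dist (ye j y) (ye j z) = ‖y - z‖
  sep : ∀ j j' y z, j ≠ j' → R0 - 6 ≤ ‖y‖ → R0 - 6 ≤ ‖z‖ → 1 ≤ dist (ye j y) (ye j' z)
  bg_far : ∀ x, R0 ≤ ‖px x‖ → bg x = eu n x

export Mfs (px ye)

attribute [instance] Mfs.fι

/-- a connected manifold with exactly one end -/
class Mfe (n : outParam ℕ) (M : Type) extends Mfs n M where
  o : ι
  one : ∀ j, j = o
  conn : ConnectedSpace M

attribute [instance] Mfe.conn

section L1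

variable {n : ℕ} {M : Type} [Mfs n M]

/-- the radius of the ends -/
abbrev R0 (M : Type) [Mfs n M] : ℝ := Mfs.R0 M

/-- the set of the ends -/
abbrev Nd (M : Type) [Mfs n M] : Type := Mfs.ι M

/-- the points of position less than `r`; replaces `ball 0 r` -/
def bl (M : Type) [Mfs n M] (r : ℝ) : Set M := {x | ‖px x‖ < r}

/-- a function in the coordinates of the end `j` -/
def fj {α : Type} (j : Nd M) (u : M → α) : E n → α := fun y => u (ye j y)

/-- the expansion in the end `j` -/
def AsyE (j : Nd M) (v : M → ℝ) (a β : ℝ) : Prop := P366Z.Asy (fj j v) a β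

/-- `g` is Euclidean outside the ball of radius `ρ` -/
structure Flat (g : Fld n M) (ρ : ℝ) : Prop where
  R : R0 M + 1 ≤ ρ
  eq : ∀ x : M, ρ ≤ ‖px x‖ → g x = eu n x

/-- the cut-off function -/
def cut (r : ℝ) (x : M) : ℝ := P366Z.cut r (px x)

/-- the expansion `v = a + β r ^ (2 - n) + O (r ^ (1 - n))`, with one derivative -/
def Asy (v : M → ℝ) (a β : ℝ) : Prop := ∃ C R : ℝ, ∀ x : M, R ≤ ‖px x‖ →
  |v x - a - β * ‖px x‖ ^ (2 - n : ℝ)| ≤ C * ‖px x‖ ^ (1 - n : ℝ) ∧
    ∀ i, |pd i v x + (n - 2) * β * px x i * ‖px x‖ ^ (-n : ℝ)| ≤ C * ‖px x‖ ^ (-n : ℝ)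

/-- exponential decay -/
def Dec {V : Type} [Norm V] (f : M → V) : Prop :=
  ∃ c > (0 : ℝ), ∃ C : ℝ, ∀ x, ‖f x‖ ≤ C * Real.exp (-c * ‖px x‖)

/-- bounded by `A` and Lipschitz with constant `A` -/
def BL {V : Type} [NormedAddCommGroup V] (A : ℝ) (f : M → V) : Prop :=
  (∀ x, ‖f x‖ ≤ A) ∧ ∀ x y, ‖f x - f y‖ ≤ A * dist x y

/-- the second derivative is bounded by `K` and `1 / 2`-Hölder with constant `K` in the unit balls
of the preferred charts of the points of `s` -/
def H2 {V : Type} [NormedAddCommGroup V] [NormedSpace ℝ V] (K : ℝ) (u : M → V)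
    (s : Set M) : Prop := ∀ x ∈ s, P366Z.H2 K (loc (ch x) u) (ball (pt x) 1)

/-- Lipschitz functions -/
def Lip (u : M → ℝ) : Prop := ∃ K, LipschitzWith K u

/-- admissible weights -/
structure Wt (g : Fld n M) (U : M → ℝ) : Prop where
  sm : Smooth U
  bd : ∃ c > (0 : ℝ), ∃ C : ℝ, ∀ x, c ≤ U x ∧ U x ≤ C ∧ ‖fd U x‖ ≤ C ∧
    |lap g U x / U x| ≤ C ∧ ‖fd (fun y => lap g U y / U y) x‖ ≤ C

end L1

section L2

variable {n : ℕ} {M : Type} [Mfe n M]

/-- the inverse of the position far out -/
def yp : E n → M := ye Mfe.o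

/-- a function in the coordinates of the end -/
def fe {α : Type} (u : M → α) : E n → α := fun y => u (yp y)

end L2

end Vale.Agent.P366M
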