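import Vale.Agent.P366M.End1
import Vale.Agent.P366M.Int

/-!
# P366M: flat regions, bounds, ellipticity
-/

open MeasureTheory Metric Filter Topology Set
open scoped ContDiff
open Vale.Agent.P366 Vale.Agent.P366.Stmt Vale.Agent.P366Z

noncomputable section

namespace Vale.Agent.P366M

variable {n : ℕ} {M : Type} [Mfs n M] {j : Nd M} {x : M} {y z : E n} {e : Ch n M}
  {g T : Fld n M} {f h u v U : M → ℝ} {ρ : ℝ}

/-! ### flat regions -/

theorem Flat.lt (hf : Flat g ρ) : R0 M < ρ := by linarith [hf.R]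

theorem Flat.one_le (hf : Flat g ρ) : 1 ≤ ρ := by linarith [hf.R, R0_ge M]

theorem Flat.pos (hf : Flat g ρ) : 0 < ρ := by linarith [hf.R, R0_ge M]

theorem Flat.far (hf : Flat g ρ) (hx : ρ ≤ ‖px x‖) : R0 M < ‖px x‖ := hf.lt.trans_le hx

theorem Flat.mono (hf : Flat g ρ) {ρ' : ℝ} (hρ : ρ ≤ ρ') : Flat g ρ' :=
  ⟨hf.R.trans hρ, fun x hx => hf.eq x (hρ.trans hx)⟩

theorem flat_bg (hρ : R0 M + 1 ≤ ρ) : Flat (bg : Fld n M) ρ :=
  ⟨hρ, fun _ hx => bg_far (by linarith)⟩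

theorem flat_eu (hρ : R0 M + 1 ≤ ρ) : Flat (eu n : Fld n M) ρ := ⟨hρ, fun _ _ => rfl⟩

theorem bg_ev (hx : R0 M < ‖px x‖) : (bg : Fld n M) =ᶠ[𝓝 x] eu n :=
  (ev_lt_px hx).mono fun _ hz => bg_far hz.le

theorem Flat.ev (hf : Flat g ρ) (hx : ρ < ‖px x‖) : g =ᶠ[𝓝 x] eu n :=
  (ev_lt_px hx).mono fun z hz => hf.eq z hz.le

theorem Flat.dens_eq (hf : Flat g ρ) (hx : ρ ≤ ‖px x‖) : dens g x = 1 := by
  rw [dens_of_eq (hf.eq x hx), dens_eu (hf.far hx).le]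

theorem Flat.up_eq (hf : Flat g ρ) (hx : ρ ≤ ‖px x‖) (a b : Fin n) :
    up g a b x = if a = b then 1 else 0 := by rw [up_of_eq (hf.eq x hx), up_eu]

theorem Flat.ip_eq (hf : Flat g ρ) (hx : ρ ≤ ‖px x‖) (u v : M → ℝ) :
    ip g u v x = ip (eu n) u v x := ip_of_eq (hf.eq x hx) u v

theorem Flat.gn_eq (hf : Flat g ρ) (hx : ρ ≤ ‖px x‖) (u : M → ℝ) : gn g u x = gn (eu n) u x :=
  gn_of_eq (hf.eq x hx) u

theorem Flat.gr_eq (hf : Flat g ρ) (hx : ρ ≤ ‖px x‖) (u : M → ℝ) (i : Fin n) :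
    gr g u i x = pd i u x := by rw [gr_of_eq (hf.eq x hx), gr_eu]

theorem Flat.dv_eq (hf : Flat g ρ) (hx : ρ < ‖px x‖) (X : Fin n → M → ℝ) :
    dv g X x = dv (eu n) X x := dv_of_ev (hf.ev hx) fun _ => EventuallyEq.rfl

theorem Flat.lap_eq (hf : Flat g ρ) (hx : ρ < ‖px x‖) (u : M → ℝ) :
    lap g u x = lap (eu n) u x := lap_of_ev (hf.ev hx) u

theorem Flat.wl_eq (hf : Flat g ρ) (hx : ρ < ‖px x‖) (U u : M → ℝ) :
    wl g U u x = wl (eu n) U u x := wl_of_ev (hf.ev hx) U u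

theorem Flat.scal_eq (hf : Flat g ρ) (hx : ρ < ‖px x‖) : scal g x = 0 := by
  rw [scal_of_ev (hf.ev hx), scal_eu (hf.far hx.le)]

theorem Flat.chr_eq (hf : Flat g ρ) (hx : ρ < ‖px x‖) (k a b : Fin n) : chr g k a b x = 0 := by
  rw [chr_of_ev (hf.ev hx), chr_eu (hf.far hx.le)]

theorem Flat.hess_eq (hf : Flat g ρ) (hx : ρ < ‖px x‖) (u : M → ℝ) (a b : Fin n) :
    hess g u x a b = pd2 a b u x := by
  rw [hess_of_ev (hf.ev hx), hess_eu (hf.far hx.le)]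

theorem Flat.rep_ev (hf : Flat g ρ) (hx : ρ < ‖px x‖) :
    rep (ch x) g =ᶠ[𝓝 (pt x)] P366Z.eu n :=
  (rep_congr_pt (hf.ev hx)).trans (rep_eu (hf.far hx.le))

theorem Flat.fj_eq (hf : Flat g ρ) (j : Nd M) : P366Z.Flat (fj j g) ρ := fun y hy =>
  hf.eq (ye j y) (by rwa [px_ye' (hf.lt.le.trans hy)])

/-- two continuous functions that agree for `ρ < ‖px x‖` agree for `ρ ≤ ‖px x‖` -/
theorem eq_of_out (hn : 0 < n) (hρ : R0 M ≤ ρ) (hf : Continuous f) (hh : Continuous h)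
    (e : ∀ y, ρ < ‖px y‖ → f y = h y) (hx : ρ ≤ ‖px x‖) : f x = h x := by
  have : Nonempty (Fin n) := ⟨⟨0, hn⟩⟩
  obtain ⟨j, y, rfl, hy⟩ := far_rep (x := x) (by linarith)
  rw [hy] at hx
  have h1 : y ∈ closure {y : E n | ρ < ‖y‖} := by
    have h2 : {y : E n | ρ < ‖y‖} = (closedBall 0 ρ)ᶜ := by ext y; simp
    rw [h2, closure_compl, interior_closedBall', mem_compl_iff, mem_ball_zero_iff]
    exact not_lt.2 hx
  have h3 := tendsto_ye_nhds (j := j) (hρ.trans hx)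
  exact tendsto_nhds_unique_of_frequently_eq ((hf.tendsto _).comp h3) ((hh.tendsto _).comp h3)
    ((mem_closure_iff_frequently.1 h1).mono fun z hz =>
      e _ (by rwa [px_ye' (hρ.trans (le_of_lt hz))]))

theorem Flat.lap_eq' (hf : Flat g ρ) (hn : 0 < n) (hg : Met g) (hu : Smooth u)
    (hx : ρ ≤ ‖px x‖) : lap g u x = lap (eu n) u x := by
  rw [← lap_of_ev (bg_ev (hf.far hx))]
  exact eq_of_out hn hf.lt.le (hg.sm_lap hu).cont (bg_met.sm_lap hu).cont (fun _ hy => by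
    rw [hf.lap_eq hy, lap_of_ev (bg_ev (hf.far hy.le))]) hx

theorem Flat.wl_eq' (hf : Flat g ρ) (hn : 0 < n) (hg : Met g) (hU : Smooth U) (hu : Smooth u)
    (hx : ρ ≤ ‖px x‖) : wl g U u x = wl (eu n) U u x := by
  rw [← wl_of_ev (bg_ev (hf.far hx))]
  exact eq_of_out hn hf.lt.le (hg.sm_wl hU hu).cont (bg_met.sm_wl hU hu).cont (fun _ hy => by
    rw [hf.wl_eq hy, wl_of_ev (bg_ev (hf.far hy.le))]) hx

theorem Flat.scal_eq' (hf : Flat g ρ) (hn : 0 < n) (hg : Met g) (hx : ρ ≤ ‖px x‖) :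
    scal g x = 0 :=
  eq_of_out hn hf.lt.le hg.sm_scal.cont continuous_const (fun _ hy => hf.scal_eq hy) hx

/-! ### bounds -/

/-- the coordinates in the preferred charts are bounded on bounded sets -/
theorem pt_bd (M : Type) [Mfs n M] (R : ℝ) : ∃ C, ∀ x : M, ‖px x‖ ≤ R → ‖pt x‖ ≤ C := by
  obtain ⟨C, hC⟩ := Mfs.core (M := M)
  refine ⟨max C R, fun x hx => ?_⟩
  by_cases h : ‖px x‖ ≤ R0 M
  · exact (hC x h).trans (le_max_left _ _)
  · rw [pt_far (not_le.1 h).le]; exact hx.trans (le_max_right _ _)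

section V

variable {V : Type*} [NormedAddCommGroup V]

/-- a quantity which is continuous in every chart is bounded near the points of a bounded set -/
theorem bdd_ch {F : Ch n M → E n → V} (hF : ∀ e ∈ At M, Continuous (F e)) (R r : ℝ) :
    ∃ K, 0 < K ∧ ∀ x : M, ‖px x‖ ≤ R → ∀ y ∈ closedBall (pt x) r, ‖F (ch x) y‖ ≤ K := by
  obtain ⟨C, hC⟩ := pt_bd M R
  have h1 : ∀ e : range fun x : M => ch x, ∃ K, ∀ y ∈ closedBall (0 : E n) (C + r),
      ‖F e y‖ ≤ K := by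
    rintro ⟨_, x, rfl⟩
    exact (isCompact_closedBall _ _).exists_bound_of_continuousOn
      (hF _ (ch_mem x)).continuousOn
  choose K hK using h1
  have := (Mfs.fin (M := M)).to_subtype
  obtain ⟨K', hK'⟩ := (finite_range K).bddAbove
  refine ⟨max K' 1, by positivity, fun x hx y hy => ?_⟩
  refine ((hK ⟨_, x, rfl⟩ y ?_).trans (hK' (mem_range_self _))).trans (le_max_left _ _)
  have h2 := mem_closedBall_iff_norm.1 hy
  have h3 := norm_sub_norm_le y (pt x)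
  rw [mem_closedBall_zero_iff]
  linarith [hC x hx]

theorem bdd_pt {F : Ch n M → E n → V} (hF : ∀ e ∈ At M, Continuous (F e)) {R C : ℝ}
    (e : ∀ x : M, R < ‖px x‖ → ‖F (ch x) (pt x)‖ ≤ C) :
    ∃ K, 0 < K ∧ ∀ x : M, ‖F (ch x) (pt x)‖ ≤ K := by
  obtain ⟨K, hK, h⟩ := bdd_ch hF R 0
  refine ⟨max K C, by positivity, fun x => ?_⟩
  by_cases hx : R < ‖px x‖
  · exact (e x hx).trans (le_max_right _ _)
  · exact (h x (not_lt.1 hx) _ (mem_closedBall_self le_rfl)).trans (le_max_left _ _)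

/-- a continuous function that is bounded outside a ball is bounded -/
theorem bdd_of_out {F : M → V} (hF : Continuous F) {R C : ℝ}
    (e : ∀ y, R < ‖px y‖ → ‖F y‖ ≤ C) : ∃ K, 0 < K ∧ ∀ y, ‖F y‖ ≤ K := by
  obtain ⟨K, hK⟩ := (isCompact_px M R).exists_bound_of_continuousOn hF.continuousOn
  refine ⟨max (max K C) 1, by positivity, fun y => ?_⟩
  by_cases hy : R < ‖px y‖
  · exact (e y hy).trans ((le_max_right _ _).trans (le_max_left _ _))
  · exact (hK y (not_lt.1 hy)).trans ((le_max_left _ _).trans (le_max_left _ _))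

end V

/-- the derivative of a `C¹` function is bounded if it is bounded outside a ball -/
theorem fd_bdd_of_out {V : Type} [NormedAddCommGroup V] [NormedSpace ℝ V] {F : M → V}
    (hF : CD 1 F) {R C : ℝ} (e : ∀ y, R < ‖px y‖ → ‖fd F y‖ ≤ C) :
    ∃ K, 0 < K ∧ ∀ y, ‖fd F y‖ ≤ K :=
  bdd_pt (F := fun e y => fderiv ℝ (loc e F) y)
    (fun e he => (hF e he).continuous_fderiv (by simp)) e

theorem fd_bdd {V : Type} [NormedAddCommGroup V] [NormedSpace ℝ V] {F : M → V}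
    (hF : CD 1 F) (R : ℝ) : ∃ K, 0 < K ∧ ∀ y, ‖px y‖ ≤ R → ‖fd F y‖ ≤ K :=
  let ⟨K, hK, h⟩ := bdd_ch (F := fun e y => fderiv ℝ (loc e F) y)
    (fun e he => (hF e he).continuous_fderiv (by simp)) R 0
  ⟨K, hK, fun y hy => h y hy _ (mem_closedBall_self le_rfl)⟩

/-- smooth quantities in the charts which are constant far out -/
theorem bdd_pt_const {F : Ch n M → E n → ℝ} (hF : ∀ e ∈ At M, Stmt.Smooth (F e)) {R c : ℝ}
    (e : ∀ x : M, R < ‖px x‖ → F (ch x) =ᶠ[𝓝 (pt x)] fun _ => c) :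
    ∃ K, 0 < K ∧ ∀ x : M, |F (ch x) (pt x)| ≤ K ∧ ‖fderiv ℝ (F (ch x)) (pt x)‖ ≤ K := by
  obtain ⟨K, hK, h1⟩ := bdd_pt (fun e he => (hF e he).cont) (R := R) (C := |c|) fun y hy => by
    rw [(e y hy).eq_of_nhds]; exact le_rfl
  obtain ⟨K', -, h2⟩ := bdd_pt (F := fun e y => fderiv ℝ (F e) y)
    (fun e he => ContDiff.continuous_fderiv (hF e he) (by simp)) (R := R) (C := 0)
    fun y hy => by rw [(e y hy).fderiv_eq]; simp
  exact ⟨max K K', by positivity, fun y => ⟨(h1 y).trans (le_max_left _ _),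
    (h2 y).trans (le_max_right _ _)⟩⟩

/-- a smooth function that is constant outside a ball is bounded with its derivative -/
theorem bdd_of_const (hf : Smooth f) {R c : ℝ} (e : ∀ y, R < ‖px y‖ → f y = c) :
    ∃ K, 0 < K ∧ ∀ y, |f y| ≤ K ∧ ‖fd f y‖ ≤ K := by
  obtain ⟨K, hK, h⟩ := bdd_pt_const (F := fun e => loc e f) hf (R := R) (c := c) fun x hx =>
    loc_congr ((ev_lt_px hx).mono e)
  exact ⟨K, hK, fun y => by have := h y; rwa [loc_pt] at this⟩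

/-- a continuous positive function that is bounded below outside a ball is bounded below -/
theorem low_of_const (hf : Continuous f) (h0 : ∀ y, 0 < f y) {R c : ℝ} (hc : 0 < c)
    (e : ∀ y, R < ‖px y‖ → c ≤ f y) : ∃ k, 0 < k ∧ ∀ y, k ≤ f y := by
  by_cases hR : {x : M | ‖px x‖ ≤ R}.Nonempty
  · obtain ⟨z, -, hz⟩ := (isCompact_px M R).exists_isMinOn hR hf.continuousOn
    refine ⟨min c (f z), lt_min hc (h0 z), fun y => ?_⟩
    by_cases hy : R < ‖px y‖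
    · exact (min_le_left _ _).trans (e y hy)
    · exact (min_le_right _ _).trans (hz (not_lt.1 hy))
  · exact ⟨c, hc, fun y => e y (not_le.1 fun k => hR ⟨y, k⟩)⟩

/-- uniform bounds for a metric that is Euclidean outside a ball; the derivatives are those of the
components in the preferred chart -/
structure Ell (g : Fld n M) (Λ : ℝ) : Prop where
  one : 1 ≤ Λ
  g_hi : ∀ x (ξ : Fin n → ℝ), ∑ i, ∑ j, g x i j * ξ i * ξ j ≤ Λ * ∑ i, ξ i ^ 2
  g_lo : ∀ x (ξ : Fin n → ℝ), ∑ i, ξ i ^ 2 ≤ Λ * ∑ i, ∑ j, g x i j * ξ i * ξ j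
  up_hi : ∀ x (ξ : Fin n → ℝ), ∑ i, ∑ j, up g i j x * ξ i * ξ j ≤ Λ * ∑ i, ξ i ^ 2
  up_lo : ∀ x (ξ : Fin n → ℝ), ∑ i, ξ i ^ 2 ≤ Λ * ∑ i, ∑ j, up g i j x * ξ i * ξ j
  dens_hi : ∀ x, dens g x ≤ Λ
  dens_lo : ∀ x, 1 ≤ Λ * dens g x
  ddens : ∀ x, ‖fd (dens g) x‖ ≤ Λ
  g_bd : ∀ x i j, |g x i j| ≤ Λ ∧ ‖fderiv ℝ (fun y => rep (ch x) g y i j) (pt x)‖ ≤ Λ
  up_bd : ∀ x i j, |up g i j x| ≤ Λ ∧ ‖fderiv ℝ (Stmt.up (rep (ch x) g) i j) (pt x)‖ ≤ Λ
  bv_bd : ∀ x j, |bv g j x| ≤ Λ ∧ ‖fderiv ℝ (P366Z.bv (rep (ch x) g) j) (pt x)‖ ≤ Λ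

theorem Met.ell (hg : Met g) (hf : Flat g ρ) : ∃ Λ, Ell g Λ := by
  choose K1 p1 h1 using fun i j => bdd_pt_const (F := fun e y => P366M.rep e g y i j)
    (fun e he => hg.sm e he i j) (R := ρ) (c := P366Z.eu n 0 i j)
    fun y hy => (hf.rep_ev hy).mono fun z hz => by simp only [hz]; rfl
  choose K2 p2 h2 using fun i j => bdd_pt_const (F := fun e => Stmt.up (P366M.rep e g) i j)
    (fun e he => (hg.rep he).sm_up i j) (R := ρ) (c := P366Z.eu n 0 i j)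
    fun y hy => (hf.rep_ev hy).mono fun z hz => by
      simp only [P366Z.up_of_eq hz, P366Z.up_eu]; rfl
  choose K3 p3 h3 using fun j => bdd_pt_const (F := fun e => P366Z.bv (P366M.rep e g) j)
    (fun e he => (hg.rep he).sm_bv j) (R := ρ) (c := 0)
    fun y hy => (hf.rep_ev hy).eventuallyEq_nhds.mono fun z hz => by
      unfold P366Z.bv
      simp only
      rw [P366Z.dv_of_ev hz (Y := fun i _ => if i = j then 1 else 0) fun i =>
        hz.mono fun w hw => by rw [P366Z.up_of_eq hw, P366Z.up_eu], P366Z.dv_eu]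
      simp [P366Z.pd_const]
  simp only [rep_pt] at h1
  simp only [up_pt] at h2
  obtain ⟨K4, p4, h4⟩ := bdd_of_const hg.sm_dens (R := ρ) (c := 1) fun y hy => hf.dens_eq hy.le
  obtain ⟨k, pk, hk⟩ := low_of_const hg.sm_dens.cont hg.dens_pos (R := ρ) one_pos
    fun y hy => (hf.dens_eq hy.le).ge
  set S := ∑ i, ∑ j, (K1 i j + K2 i j) + ∑ j, K3 j + K4 + k⁻¹ + 1 with hS
  have q1 : ∀ i j, K1 i j + K2 i j ≤ ∑ i, ∑ j, (K1 i j + K2 i j) := fun i j =>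
    (Finset.single_le_sum (f := fun j => K1 i j + K2 i j)
      (fun j _ => (add_pos (p1 i j) (p2 i j)).le) (Finset.mem_univ j)).trans
      (Finset.single_le_sum (f := fun i => ∑ j, (K1 i j + K2 i j))
        (fun i _ => Finset.sum_nonneg fun j _ => (add_pos (p1 i j) (p2 i j)).le)
        (Finset.mem_univ i))
  have q2 : ∀ j, K3 j ≤ ∑ j, K3 j := fun j =>
    Finset.single_le_sum (fun j _ => (p3 j).le) (Finset.mem_univ j)
  have q3 : 0 ≤ ∑ i, ∑ j, (K1 i j + K2 i j) :=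
    Finset.sum_nonneg fun i _ => Finset.sum_nonneg fun j _ => (add_pos (p1 i j) (p2 i j)).le
  have q4 : 0 ≤ ∑ j, K3 j := Finset.sum_nonneg fun j _ => (p3 j).le
  have q5 : 0 < k⁻¹ := _root_.inv_pos.2 pk
  have r1 : ∀ i j, K1 i j ≤ S := fun i j => by linarith [q1 i j, p2 i j]
  have r2 : ∀ i j, K2 i j ≤ S := fun i j => by linarith [q1 i j, p1 i j]
  have r3 : ∀ j, K3 j ≤ S := fun j => by linarith [q2 j]
  have r4 : K4 ≤ S := by linarith
  have r5 : k⁻¹ ≤ S := by linarith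
  have r6 : 1 ≤ S := by linarith
  have r7 : S ≤ (n + 1) * S := by nlinarith [(Nat.cast_nonneg n : (0 : ℝ) ≤ n)]
  have s0 : ∀ ξ : Fin n → ℝ, 0 ≤ ∑ i, ξ i ^ 2 := fun ξ => by positivity
  have a1 : ∀ x (ξ : Fin n → ℝ), ∑ i, ∑ j, g x i j * ξ i * ξ j ≤ (n + 1) * S * ∑ i, ξ i ^ 2 :=
    fun x ξ => (quad_le_of_bd (fun i j => ((h1 i j x).1).trans (r1 i j)) ξ).trans
      (mul_le_mul_of_nonneg_right (by linarith) (s0 ξ))
  have a2 : ∀ x (ξ : Fin n → ℝ),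
      ∑ i, ∑ j, up g i j x * ξ i * ξ j ≤ (n + 1) * S * ∑ i, ξ i ^ 2 :=
    fun x ξ => (quad_le_of_bd (M := fun i j => up g i j x)
      (fun i j => ((h2 i j x).1).trans (r2 i j)) ξ).trans
      (mul_le_mul_of_nonneg_right (by linarith) (s0 ξ))
  refine ⟨(n + 1) * S, r6.trans r7, a1, fun x ξ => ?_, a2, fun x ξ => ?_, fun x => ?_,
    fun x => ?_, fun x => ?_, fun x i j => ?_, fun x i j => ?_, fun x j => ?_⟩
  · exact lo_of_hi (s0 ξ) (hg.g_nonneg x ξ) (by rw [mul_comm]; exact hg.sq_le x ξ) (a2 x ξ)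
      (by linarith)
  · exact lo_of_hi (s0 ξ) (hg.up_nonneg x ξ) (hg.sq_le x ξ) (a1 x ξ) (by linarith)
  · exact (le_abs_self _).trans ((h4 x).1.trans (r4.trans r7))
  · calc (1 : ℝ) = k⁻¹ * k := (inv_mul_cancel₀ pk.ne').symm
      _ ≤ _ := mul_le_mul (r5.trans r7) (hk x) pk.le (by linarith)
  · exact (h4 x).2.trans (r4.trans r7)
  · exact ⟨(h1 i j x).1.trans ((r1 i j).trans r7), (h1 i j x).2.trans ((r1 i j).trans r7)⟩
  · exact ⟨(h2 i j x).1.trans ((r2 i j).trans r7), (h2 i j x).2.trans ((r2 i j).trans r7)⟩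
  · exact ⟨(h3 j x).1.trans ((r3 j).trans r7), (h3 j x).2.trans ((r3 j).trans r7)⟩

variable {Λ : ℝ}

theorem Ell.ip_le (hΛ : Ell g Λ) (hu : DAt u x) : ip g u u x ≤ Λ * ‖fd u x‖ ^ 2 := by
  rw [norm_fderiv_sq hu]; exact hΛ.up_hi x _

theorem Ell.le_ip (hΛ : Ell g Λ) (hu : DAt u x) : ‖fd u x‖ ^ 2 ≤ Λ * ip g u u x := by
  rw [norm_fderiv_sq hu]; exact hΛ.up_lo x _

theorem Ell.gn_le (hΛ : Ell g Λ) (hu : DAt u x) : gn g u x ≤ Λ * ‖fd u x‖ := by
  have h1 := hΛ.one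
  refine Real.sqrt_le_iff.2 ⟨by positivity, (hΛ.ip_le hu).trans ?_⟩
  rw [mul_pow]
  exact mul_le_mul_of_nonneg_right (by nlinarith) (sq_nonneg _)

theorem Ell.le_gn (hΛ : Ell g Λ) (hg : Met g) (hu : DAt u x) : ‖fd u x‖ ≤ Λ * gn g u x := by
  have h1 := hΛ.one
  have h2 := gn_nonneg g u x
  refine (abs_le_of_sq_le_sq' ?_ (by positivity)).2
  rw [mul_pow, hg.gn_sq]
  exact (hΛ.le_ip hu).trans (mul_le_mul_of_nonneg_right (by nlinarith) (hg.ip_nonneg u x))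

/-- the components of a smooth tensor which vanishes far out are bounded -/
theorem SmT.bdd (hT : SmT T) {R : ℝ} (e : ∀ x, R < ‖px x‖ → T x = 0) :
    ∃ K, 0 < K ∧ ∀ x i j, |T x i j| ≤ K := by
  obtain ⟨K, hK, h⟩ := bdd_pt (F := fun e y => P366M.rep e T y)
    (fun e he => continuous_pi fun i => continuous_pi fun j => (hT e he i j).cont) (R := R)
    (C := 0) fun x hx => by simp only [rep_pt, e x hx, norm_zero, le_refl]
  refine ⟨K, hK, fun x i j => ?_⟩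
  have := h x
  rw [rep_pt] at this
  exact (norm_le_pi_norm (T x i) j).trans ((norm_le_pi_norm (T x) i).trans this)

end Vale.Agent.P366M
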