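import Vale.Agent.P366M.End2
import Vale.Agent.P366M.Ug
import Vale.Agent.P366Z.St0.Cutm

/-!
# P366M: finitely many flat metrics on Euclidean space represent a flat metric in the chart balls
-/

open Metric Filter Topology Set
open scoped ContDiff
open Vale.Agent.P366 Vale.Agent.P366.Stmt Vale.Agent.P366Z

noncomputable section

namespace Vale.Agent.P366M

theorem zell_mono {n : ℕ} {G : Field n} {a b : ℝ} (hG : P366Z.Met G) (h : P366Z.Ell G a)
    (hab : a ≤ b) : P366Z.Ell G b where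
  one := h.one.trans hab
  g_hi x ξ := (h.g_hi x ξ).trans (mul_le_mul_of_nonneg_right hab (by positivity))
  g_lo x ξ := (h.g_lo x ξ).trans (mul_le_mul_of_nonneg_right hab (hG.g_nonneg x ξ))
  up_hi x ξ := (h.up_hi x ξ).trans (mul_le_mul_of_nonneg_right hab (by positivity))
  up_lo x ξ := (h.up_lo x ξ).trans (mul_le_mul_of_nonneg_right hab (hG.up_nonneg x ξ))
  dens_hi x := (h.dens_hi x).trans hab
  dens_lo x := (h.dens_lo x).trans (mul_le_mul_of_nonneg_right hab (P366Z.dens_nonneg _ _))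
  ddens x := (h.ddens x).trans hab
  g_bd x i j := ⟨(h.g_bd x i j).1.trans hab, (h.g_bd x i j).2.trans hab⟩
  up_bd x i j := ⟨(h.up_bd x i j).1.trans hab, (h.up_bd x i j).2.trans hab⟩
  bv_bd x j := ⟨(h.bv_bd x j).1.trans hab, (h.bv_bd x j).2.trans hab⟩

variable {n : ℕ} {M : Type} [Mfs n M] {g : Fld n M} {ρ : ℝ} {x : M} {y : E n}

/-- far out a tensor is read off in the whole chart ball -/
theorem rep_far (hx : R0 M + 4 ≤ ‖px x‖) (hy : y ∈ ball (pt x) 4) (T : Fld n M) :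
    rep (ch x) T y = T ((ch x).symm y) ∧ px ((ch x).symm y) = y := by
  obtain ⟨j, z, rfl, h⟩ := far_rep (x := x) (by linarith)
  rw [h] at hx
  have h0 : R0 M ≤ ‖z‖ := by linarith
  rw [pt_ye h0] at hy
  have h1 := norm_ge_of_ball hy
  have h2 : y ∈ ball z 5 := ball_subset_ball (by norm_num) hy
  rw [rep_ye_ball h0 h2 (by linarith), symm_ye h0 h2, px_ye' (by linarith)]
  exact ⟨rfl, rfl⟩

theorem Flat.rep_ball (hf : Flat g ρ) (hx : ρ + 4 ≤ ‖px x‖) (hy : y ∈ ball (pt x) 4) :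
    rep (ch x) g y = P366Z.eu n y := by
  obtain ⟨h1, h2⟩ := rep_far (by linarith [hf.lt]) hy g
  have h3 := norm_ge_of_ball hy
  rw [pt_far (by linarith [hf.lt])] at h3
  rw [h1, hf.eq _ (by rw [h2]; linarith)]
  rfl

/-- the flat representatives -/
theorem Met.fl (hg : Met g) (hf : Flat g ρ) : ∃ (S : Set (Field n)) (ρ' : ℝ), S.Finite ∧
    (∀ G ∈ S, P366Z.Met G ∧ P366Z.Flat G ρ') ∧
    ∀ x : M, ∃ G ∈ S, ∀ y ∈ ball (pt x) 4, G y = P366M.rep (ch x) g y := by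
  obtain ⟨C, C0, hC⟩ := pt_le M
  have h0 : 0 < C + ρ + 8 := by linarith [hf.pos]
  refine ⟨insert (P366Z.eu n) ((fun e => St0.gc (P366M.rep e g) (C + ρ + 8)) ''
    range fun x : M => ch x), 2 * (C + ρ + 8), (Mfs.fin.image _).insert _, ?_, fun x => ?_⟩
  · rintro _ (rfl | ⟨_, ⟨x, rfl⟩, rfl⟩)
    · exact ⟨met_eu, P366Z.flat_eu _⟩
    · exact ⟨St0.Cutm.met_gc (hg.loc' x) _, St0.Cutm.gc_out h0⟩
  · by_cases hx : ρ + 4 ≤ ‖px x‖
    · exact ⟨_, mem_insert _ _, fun y hy => (hf.rep_ball hx hy).symm⟩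
    · exact ⟨_, mem_insert_of_mem _ ⟨_, ⟨x, rfl⟩, rfl⟩, fun y hy => St0.Cutm.gc_in (by
        linarith [norm_le_of_ball hy, hC x])⟩

/-- uniformly elliptic flat representatives -/
theorem Met.fl_ell (hg : Met g) (hf : Flat g ρ) : ∃ Λ ρ' : ℝ, ∀ x : M, ∃ G, P366Z.Met G ∧
    P366Z.Flat G ρ' ∧ P366Z.Ell G Λ ∧ ∀ y ∈ ball (pt x) 4, G =ᶠ[𝓝 y] P366M.rep (ch x) g := by
  obtain ⟨S, ρ', h1, h2, h3⟩ := hg.fl hf
  have := h1.to_subtype
  choose Λ hΛ using fun G : S => (h2 G G.2).1.ell (h2 G G.2).2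
  obtain ⟨L, hL⟩ := (finite_range Λ).bddAbove
  refine ⟨L, ρ', fun x => ?_⟩
  obtain ⟨G, hG, h4⟩ := h3 x
  exact ⟨G, (h2 G hG).1, (h2 G hG).2, zell_mono (h2 G hG).1 (hΛ ⟨G, hG⟩) (hL ⟨_, rfl⟩),
    fun y hy => mem_of_superset (isOpen_ball.mem_nhds hy) h4⟩

end Vale.Agent.P366M
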