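import Vale.Agent.P366M.Inv1
import Vale.Agent.P366P.Pull

/-!
# P366M: the second order quantities in a chart
-/

open MeasureTheory Metric Filter Topology Set Matrix
open scoped ContDiff
open Vale.Agent.P366 Vale.Agent.P366.Stmt Vale.Agent.P366Z
open Vale.Agent.P366P (Ctx Chg PT PV PF)

noncomputable section

namespace Vale.Agent.P366M

variable {n : ℕ} {M : Type} [Mf0 n M] {e : Ch n M} {x : M} {y : E n} {g K T : Fld n M}
  {f u v U F : M → ℝ} {X : Fin n → M → ℝ}

/-- the Ricci tensor -/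
def ric (g : Fld n M) : Fld n M := fun x => P366Y.C.rc (rep (ch x) g) (pt x)

/-- covariant tensors which are differentiable at a point -/
def DT (T : Fld n M) (x : M) : Prop :=
  ∀ i j, DifferentiableAt ℝ (fun y => rep (ch x) T y i j) (pt x)

theorem SmT.dt (hT : SmT T) (x : M) : DT T x := fun i j => (hT _ (ch_mem x) i j).diff _

theorem pt_rep (he : e ∈ At M) (T : Fld n M) (y : E n) :
    PT (tm e (ch (e.symm y))) (rep (ch (e.symm y)) T) (rep e T) y :=
  (ev_src he (mem_ch _)).mono fun _ hz => rep_tm T he (ch_mem _) hz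

theorem pv_rep (he : e ∈ At M) (X : Fin n → M → ℝ) (y : E n) :
    PV (tm e (ch (e.symm y))) (repV (ch (e.symm y)) X) (repV e X) y :=
  (ev_src he (mem_ch _)).mono fun _ hz => repV_tm X he (ch_mem _) hz

theorem Met.ctx (hg : Met g) (he : e ∈ At M) (y : E n) :
    Ctx (tm e (ch (e.symm y))) (P366M.rep (ch (e.symm y)) g) (P366M.rep e g) y :=
  Chg.ctx ⟨tm_cd he (ch_mem _) (mem_ch _), J_unit he y⟩ (hg.loc' _) (hg.rep he) (pt_rep he g y)

theorem scal_rep (hg : Met g) (he : e ∈ At M) (y : E n) :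
    Stmt.scal (rep e g) y = scal g (e.symm y) := (hg.ctx he y).scal_law

theorem ric_rep (hg : Met g) (he : e ∈ At M) : P366Y.C.rc (rep e g) = rep e (ric g) :=
  funext fun y => funext fun i => funext fun j => (hg.ctx he y).rc_law i j

theorem hess_rep (hg : Met g) (he : e ∈ At M) (hu : CAt 2 u (e.symm y)) :
    Stmt.hess (rep e g) (loc e u) y = rep e (hess g u) y :=
  funext fun i => funext fun j => (hg.ctx he y).hess_law hu (loc_tm u he (mem_ch _)) i j

theorem dv_rep (hg : Met g) (he : e ∈ At M) (hX : DV X (e.symm y)) :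
    P366Z.dv (rep e g) (repV e X) y = dv g X (e.symm y) := (hg.ctx he y).dv_law hX (pv_rep he X y)

theorem lap_rep (hg : Met g) (he : e ∈ At M) (hu : CAt 2 u (e.symm y)) :
    P366Z.lap (rep e g) (loc e u) y = lap g u (e.symm y) :=
  (hg.ctx he y).lap_law hu (loc_tm u he (mem_ch _))

theorem wl_rep (hg : Met g) (he : e ∈ At M) (hU : DAt U (e.symm y)) (hu : CAt 2 u (e.symm y)) :
    P366Z.wl (rep e g) (loc e U) (loc e u) y = wl g U u (e.symm y) :=
  (hg.ctx he y).wl_law hU hu (loc_tm U he (mem_ch _)) (loc_tm u he (mem_ch _))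

theorem cl_rep (hg : Met g) (he : e ∈ At M) (hu : CAt 2 u (e.symm y)) :
    P366Z.cl (rep e g) (loc e u) y = cl g u (e.symm y) := by
  unfold P366Z.cl
  rw [lap_rep hg he hu, scal_rep hg he]
  rfl

theorem dvT_rep (hg : Met g) (he : e ∈ At M) (hT : DT T (e.symm y)) (j : Fin n) :
    P366Z.dvT (rep e g) (rep e T) j y = repC e (dvT g T) j y :=
  (hg.ctx he y).dvT_law hT (pt_rep he T y) j

theorem mom_rep (hg : Met g) (he : e ∈ At M) (hK : DT K (e.symm y)) (j : Fin n) :
    Stmt.mom (rep e g) (rep e K) j y = repC e (mom g K) j y :=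
  (hg.ctx he y).mom_law hK (pt_rep he K y) j

theorem mu_rep (hg : Met g) (he : e ∈ At M) (K : Fld n M) (y : E n) :
    Stmt.mu (rep e g) (rep e K) y = mu g K (e.symm y) := by
  unfold Stmt.mu
  rw [scal_rep hg he, tr_rep he, normSq_rep he]
  rfl

theorem covNorm_mom_rep (hg : Met g) (he : e ∈ At M) (hK : DT K (e.symm y)) :
    Stmt.covNorm (rep e g) (Stmt.mom (rep e g) (rep e K)) y = covNorm g (mom g K) (e.symm y) := by
  rw [← covNorm_rep he]
  unfold Stmt.covNorm
  simp only [mom_rep hg he hK]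

theorem thetaPlus_rep (hg : Met g) (he : e ∈ At M) (K : Fld n M) (hF : CAt 2 F (e.symm y)) :
    Stmt.thetaPlus (rep e g) (rep e K) (loc e F) y = thetaPlus g K F (e.symm y) := by
  rw [← thetaPlus_pt]
  exact (hg.ctx he y).thetaPlus_law hF (loc_tm F he (mem_ch _)) (pt_rep he K y).self_of_nhds

theorem mom_eq_dvT (g K : Fld n M) : mom g K = dvT g (momT g K) := by
  funext j x
  unfold mom dvT
  rw [← momT_rep (ch_mem x)]
  rfl

/-! ### the versions for functions -/

theorem loc_scal (hg : Met g) (he : e ∈ At M) : loc e (scal g) = Stmt.scal (rep e g) :=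
  funext fun y => (scal_rep hg he y).symm

theorem loc_tr (he : e ∈ At M) (g K : Fld n M) : loc e (tr g K) = Stmt.tr (rep e g) (rep e K) :=
  funext fun y => (tr_rep he g K y).symm

theorem loc_normSq (he : e ∈ At M) (g K : Fld n M) :
    loc e (normSq g K) = Stmt.normSq (rep e g) (rep e K) :=
  funext fun y => (normSq_rep he g K y).symm

theorem loc_mu (hg : Met g) (he : e ∈ At M) (K : Fld n M) :
    loc e (mu g K) = Stmt.mu (rep e g) (rep e K) := funext fun y => (mu_rep hg he K y).symm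

theorem loc_covNorm (he : e ∈ At M) (g : Fld n M) (w : Fin n → M → ℝ) :
    loc e (covNorm g w) = Stmt.covNorm (rep e g) (repC e w) :=
  funext fun y => (covNorm_rep he g w y).symm

theorem loc_ip (he : e ∈ At M) (g : Fld n M) (hu : ∀ x, DAt u x) (hv : ∀ x, DAt v x) :
    loc e (ip g u v) = P366Z.ip (rep e g) (loc e u) (loc e v) :=
  funext fun _ => (ip_rep he g (hu _) (hv _)).symm

theorem loc_gn (he : e ∈ At M) (g : Fld n M) (hu : ∀ x, DAt u x) :
    loc e (gn g u) = P366Z.gn (rep e g) (loc e u) := funext fun _ => (gn_rep he g (hu _)).symm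

theorem repV_gr (he : e ∈ At M) (g : Fld n M) (hu : ∀ x, DAt u x) :
    repV e (gr g u) = P366Z.gr (rep e g) (loc e u) :=
  funext fun i => funext fun _ => (gr_rep he g (hu _) i).symm

theorem repV_nrm (he : e ∈ At M) (g : Fld n M) (hu : ∀ x, DAt u x) :
    repV e (nrm g u) = Stmt.nrm (rep e g) (loc e u) :=
  funext fun i => funext fun _ => (nrm_rep he g (hu _) i).symm

theorem rep_hess (hg : Met g) (he : e ∈ At M) (hu : CD 2 u) :
    rep e (hess g u) = Stmt.hess (rep e g) (loc e u) :=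
  funext fun _ => (hess_rep hg he hu.contDiffAt).symm

theorem loc_dv (hg : Met g) (he : e ∈ At M) (hX : ∀ x, DV X x) :
    loc e (dv g X) = P366Z.dv (rep e g) (repV e X) := funext fun _ => (dv_rep hg he (hX _)).symm

theorem loc_lap (hg : Met g) (he : e ∈ At M) (hu : CD 2 u) :
    loc e (lap g u) = P366Z.lap (rep e g) (loc e u) :=
  funext fun _ => (lap_rep hg he hu.contDiffAt).symm

theorem loc_wl (hg : Met g) (he : e ∈ At M) (hU : ∀ x, DAt U x) (hu : CD 2 u) :
    loc e (wl g U u) = P366Z.wl (rep e g) (loc e U) (loc e u) :=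
  funext fun _ => (wl_rep hg he (hU _) hu.contDiffAt).symm

theorem loc_cl (hg : Met g) (he : e ∈ At M) (hu : CD 2 u) :
    loc e (cl g u) = P366Z.cl (rep e g) (loc e u) :=
  funext fun _ => (cl_rep hg he hu.contDiffAt).symm

theorem repC_dvT (hg : Met g) (he : e ∈ At M) (hT : SmT T) :
    repC e (dvT g T) = P366Z.dvT (rep e g) (rep e T) :=
  funext fun j => funext fun _ => (dvT_rep hg he (hT.dt _) j).symm

theorem repC_mom (hg : Met g) (he : e ∈ At M) (hK : SmT K) :
    repC e (mom g K) = Stmt.mom (rep e g) (rep e K) :=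
  funext fun j => funext fun _ => (mom_rep hg he (hK.dt _) j).symm

theorem loc_thetaPlus (hg : Met g) (he : e ∈ At M) (K : Fld n M) (hF : CD 2 F) :
    loc e (thetaPlus g K F) = Stmt.thetaPlus (rep e g) (rep e K) (loc e F) :=
  funext fun _ => (thetaPlus_rep hg he K hF.contDiffAt).symm

/-! ### the versions near a point -/

theorem ev_dAt (hu : CAt 2 u x) : ∀ᶠ y in 𝓝 (pt x), DAt u ((ch x).symm y) := ev_pt.1 (ev_diff hu)

theorem ev_ip (g : Fld n M) (hu : CAt 2 u x) (hv : CAt 2 v x) : loc (ch x) (ip g u v) =ᶠ[𝓝 (pt x)]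
    P366Z.ip (rep (ch x) g) (loc (ch x) u) (loc (ch x) v) := by
  filter_upwards [ev_dAt hu, ev_dAt hv] with y h1 h2 using (ip_rep (ch_mem x) g h1 h2).symm

theorem ev_gn (g : Fld n M) (hu : CAt 2 u x) : loc (ch x) (gn g u) =ᶠ[𝓝 (pt x)]
    P366Z.gn (rep (ch x) g) (loc (ch x) u) := by
  filter_upwards [ev_dAt hu] with y h1 using (gn_rep (ch_mem x) g h1).symm

theorem ev_gr (g : Fld n M) (hu : CAt 2 u x) (i : Fin n) : repV (ch x) (gr g u) i =ᶠ[𝓝 (pt x)]
    P366Z.gr (rep (ch x) g) (loc (ch x) u) i := by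
  filter_upwards [ev_dAt hu] with y h1 using (gr_rep (ch_mem x) g h1 i).symm

theorem ev_pd (hu : CAt 2 u x) (i : Fin n) :
    repC (ch x) (fun j => pd j u) i =ᶠ[𝓝 (pt x)] Stmt.pd i (loc (ch x) u) := by
  filter_upwards [ev_dAt hu] with y h1 using (pd_rep (ch_mem x) h1 i).symm

theorem lap_eq_dv (g : Fld n M) (hu : CAt 2 u x) : lap g u x = dv g (gr g u) x :=
  P366Z.dv_congr fun i => (ev_gr g hu i).symm

theorem wl_eq_dv (g : Fld n M) (U : M → ℝ) (hu : CAt 2 u x) :
    wl g U u x = dv g (fun i y => U y ^ 2 * gr g u i y) x := by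
  unfold dv
  rw [repV_smul]
  exact P366Z.dv_congr fun i => (ev_gr g hu i).mono fun y hy => by simp only [hy]; rfl

end Vale.Agent.P366M
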