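import Vale.Agent.P366M.Max
import Vale.Agent.P366M.Fl
import Vale.Agent.P366Z.Grad

/-!
# P366M: the minimum principle for bounded functions, the gradient estimate
-/

open Metric Filter Topology Set
open scoped ContDiff
open Vale.Agent.P366 Vale.Agent.P366.Stmt Vale.Agent.P366Z

noncomputable section

namespace Vale.Agent.P366M

theorem Wt.pos {n : ℕ} {M : Type} [Mfs n M] {g : Fld n M} {U : M → ℝ} (hU : Wt g U) (x : M) :
    0 < U x :=
  let ⟨_, hc, _, hC⟩ := hU.bd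
  hc.trans_le (hC x).1

theorem fd_normSq (M : Type) {n : ℕ} [Mfs n M] :
    ∃ K > (0 : ℝ), ∀ y : M, ‖fd (fun y : M => ‖px y‖ ^ 2) y‖ ≤ K + 2 * ‖px y‖ := by
  obtain ⟨K, hK, h⟩ := fd_bdd (contDiff_normSq (M := M)).one (R0 M)
  refine ⟨K, hK, fun y => ?_⟩
  rcases le_total ‖px y‖ (R0 M) with k | k
  · linarith [h y k, norm_nonneg (px y)]
  · refine le_trans ?_ (le_add_of_nonneg_left hK.le)
    refine (pow_le_pow_iff_left₀ (norm_nonneg _) (by positivity) two_ne_zero).1 ?_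
    rw [norm_fderiv_sq (contDiff_normSq.diff y), mul_pow, norm_sq_eq, Finset.mul_sum]
    exact (Finset.sum_congr rfl fun i _ => by rw [pd_normSq k]; ring).le

/-- a quadratic supersolution -/
theorem Wt.quad {n : ℕ} {M : Type} [Mfs n M] {g : Fld n M} {ρ l : ℝ} {U : M → ℝ} (hU : Wt g U)
    (hg : Met g) (hf : Flat g ρ) (hl : 0 < l) : ∃ A ≥ (0 : ℝ), ∀ y,
      wl g U (fun y => ‖px y‖ ^ 2 + A) y ≤ l * U y ^ 2 * (‖px y‖ ^ 2 + A) := by
  obtain ⟨c, hc, C, hC⟩ := hU.bd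
  have h0 := hU.pos
  have hq : Smooth fun y : M => ‖px y‖ ^ 2 := contDiff_normSq
  obtain ⟨Λ, hΛ⟩ := hg.ell hf
  obtain ⟨K, hK, h1⟩ := bdd_of_out (hg.sm_lap hq).cont (R := ρ) (C := ‖(2 * n : ℝ)‖) fun y hy => by
    rw [hf.lap_eq hy, lap_eu_normSq (hf.far hy.le)]
  obtain ⟨K', hK', k1⟩ := fd_normSq M
  have C0 : 0 < C := (h0 (Classical.arbitrary M)).trans_le (hC _).2.1
  have Λ0 := hΛ.one
  set B := 2 * C * (Λ * C * (Λ * 2)) with hB
  set D := C ^ 2 * K + 2 * C * (Λ * C * (Λ * K')) with hD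
  have h2 : ∀ y, wl g U (fun y => ‖px y‖ ^ 2) y ≤ D + B * ‖px y‖ := fun y => by
    have k2 := (le_abs_self _).trans ((hg.abs_ip_le U (fun y => ‖px y‖ ^ 2) y).trans (mul_le_mul
      ((hΛ.gn_le (hU.sm.diff y)).trans (mul_le_mul_of_nonneg_left (hC y).2.2.1 (by linarith)))
      ((hΛ.gn_le (hq.diff y)).trans (mul_le_mul_of_nonneg_left (k1 y) (by linarith)))
      (gn_nonneg _ _ _) (by positivity)))
    have k3 := mul_le_mul (pow_le_pow_left₀ (h0 y).le (hC y).2.1 2) (h1 y) (norm_nonneg _)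
      (by positivity)
    have k4 := mul_le_mul_of_nonneg_left ((le_abs_self _).trans_eq (Real.norm_eq_abs
      (lap g (fun y : M => ‖px y‖ ^ 2) y)).symm) (sq_nonneg (U y))
    have k5 := mul_le_mul_of_nonneg_left k2 (h0 y).le
    have k6 := mul_le_mul_of_nonneg_right (hC y).2.1
      (by positivity : 0 ≤ Λ * C * (Λ * (K' + 2 * ‖px y‖)))
    rw [hg.wl_eq (hU.sm.diff y) (hq.c2 y), hB, hD]
    linarith
  set m := l * c ^ 2 with hm
  have m0 : 0 < m := by positivity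
  refine ⟨(D + B ^ 2 / m) / m, by positivity, fun y => ?_⟩
  set A := (D + B ^ 2 / m) / m with hA
  have A0 : 0 ≤ A := by positivity
  rw [wl_add_const]
  have k1 : m * (‖px y‖ ^ 2 + A) ≤ l * U y ^ 2 * (‖px y‖ ^ 2 + A) := by
    have := (hC y).1
    rw [hm]
    gcongr
  have k2 : B * ‖px y‖ ≤ m * ‖px y‖ ^ 2 + B ^ 2 / m := by
    rw [← sub_le_iff_le_add', le_div_iff₀ m0]
    nlinarith [sq_nonneg (m * ‖px y‖ - B), sq_nonneg (m * ‖px y‖), sq_nonneg B]
  rw [mul_add m, hA, mul_div_cancel₀ _ m0.ne'] at k1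
  linarith [h2 y]

theorem wmb : WMB := by
  intro n M _ g ρ l U u hg hf hU hl hu ⟨B, hB⟩ he x
  obtain ⟨A, A0, h3⟩ := hU.quad hg hf hl
  have hq : Smooth fun y : M => ‖px y‖ ^ 2 + A := CD.add contDiff_normSq cd_const
  refine le_of_forall_pos_le_add fun ε hε => ?_
  set δ := ε / (‖px x‖ ^ 2 + A + 1) with hδ
  have δ0 : 0 < δ := by positivity
  have hv : CD 2 fun y => 1 * u y + δ * (‖px y‖ ^ 2 + A) :=
    (cd_const.mul hu).add (cd_const.mul hq.two)
  have B0 := (abs_nonneg _).trans (hB x)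
  obtain ⟨y, hy⟩ := hv.continuous.exists_forall_le' x (ev_cocompact.2
    ⟨2 * B / δ + ‖px x‖ ^ 2 + 1, fun y hy => by
      have k2 : 0 ≤ 2 * B / δ := by positivity
      have k3 : 2 * B / δ ≤ ‖px y‖ ^ 2 - ‖px x‖ ^ 2 := by nlinarith [sq_nonneg ‖px x‖]
      rw [div_le_iff₀' δ0] at k3
      linarith [(abs_le.1 (hB y)).1, (abs_le.1 (hB x)).2]⟩)
  have k1 := hg.wl_nonneg hU.sm (hv.contDiffAt (x := y)) (Eventually.of_forall hy)
  rw [hg.wl_lin (hU.sm.diff y) hu.contDiffAt (hq.c2 y)] at k1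
  have k2 : 0 ≤ l * U y ^ 2 * (1 * u y + δ * (‖px y‖ ^ 2 + A)) := by
    nlinarith [he y, mul_le_mul_of_nonneg_left (h3 y) δ0.le]
  have k3 := nonneg_of_mul_nonneg_right k2 (mul_pos hl (pow_pos (hU.pos y) 2))
  have h5 : δ * (‖px x‖ ^ 2 + A + 1) = ε := div_mul_cancel₀ _ (by positivity)
  linarith [hy x]

open Grad in
/-- the gradient estimate in every dimension -/
theorem Wt.grad {n : ℕ} {M : Type} [Mfs n M] {g : Fld n M} {ρ : ℝ} {U : M → ℝ} (hU : Wt g U)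
    (hn : 0 < n) (hg : Met g) (hf : Flat g ρ) : ∃ C : ℝ, ∀ (r A S : ℝ) (x : M) (u : M → ℝ),
      0 < r → r ≤ 1 → (∀ y ∈ ball x r, CAt 2 u y ∧ |u y| ≤ A ∧ |wl g U u y| ≤ S) →
      ‖fd u x‖ ≤ C * (A / r + r * S) := by
  obtain ⟨Λ', hΛ'⟩ := hg.ell hf
  obtain ⟨Λ, ρ', hfl⟩ := hg.fl_ell hf
  obtain ⟨L, hL⟩ := exists_geo M
  obtain ⟨c, hc, C, hb⟩ := hU.bd
  have h1 : 1 ≤ Λ := (hfl (Classical.arbitrary M)).choose_spec.2.2.1.one
  have h1' := hΛ'.one
  have hL4 := hL.four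
  have hC : 0 ≤ C := (norm_nonneg _).trans (hb (Classical.arbitrary M)).2.2.1
  obtain ⟨β, hβ⟩ : ∃ β : ℝ, β = n * Λ + 2 / c * (Λ' * C * Λ) := ⟨_, rfl⟩
  have hβ0 : 0 ≤ β := by rw [hβ]; positivity
  have hn' : (1 : ℝ) ≤ n := by exact_mod_cast hn
  obtain ⟨k, hk⟩ : ∃ k : ℝ, k = 2 * ((3 * n ^ 2 * Λ + 2 * β) * Λ) * L := ⟨_, rfl⟩
  have hk2 : 2 * L ≤ k := by
    have a1 : 1 ≤ 3 * (n : ℝ) ^ 2 * Λ + 2 * β := by
      nlinarith [one_le_mul_of_one_le_of_one_le (one_le_pow₀ hn' (n := 2)) h1]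
    have a2 := one_le_mul_of_one_le_of_one_le a1 h1
    nlinarith
  refine ⟨16 * Λ * (2 * n * Λ + 1) * k + 4 * Λ / c ^ 2, fun r A S x u hr hr1 hu => ?_⟩
  obtain ⟨G, hG, -, hΛ, hGe⟩ := hfl x
  have he := ch_mem x
  have hM : 0 ≤ A := (abs_nonneg _).trans (hu x (mem_ball_self hr)).2.1
  have hS : 0 ≤ S := (abs_nonneg _).trans (hu x (mem_ball_self hr)).2.2
  have hk0 : 0 < k := by linarith
  have hrk' : L * (r / k) ≤ r / 2 := by
    rw [mul_div_assoc', div_le_div_iff₀ hk0 two_pos]; nlinarith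
  have hrk0 : 0 < r / k := by positivity
  have hrk : r / k ≤ r / 2 := by nlinarith
  refine (est (a := fun y i j => Stmt.up G i j y) (u := loc (ch x) u) (x0 := pt x) (β := β)
    (R := r / k) (M := A) (S := S / c ^ 2)
    (by omega) h1 hβ0 hrk0 (by positivity) (fun y i j => hG.up_sy i j y) hΛ.up_lo
    (fun y i j => (hΛ.up_bd y i j).1) (fun y z i j => Convex.norm_image_sub_le_of_norm_fderiv_le
      (fun w _ => (hG.sm_up i j).diff w) (fun w _ => (hΛ.up_bd w i j).2) convex_univ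
      (mem_univ z) (mem_univ y)) ?_ fun y hy => ?_).trans ?_
  · rw [show (3 * (n : ℝ) ^ 2 * Λ + 2 * β) * Λ = k / L / 2 by rw [hk]; field_simp,
      show k / L / 2 * (r / k) = r / L / 2 by field_simp]
    have : r / L ≤ 1 := div_le_one_of_le₀ (by linarith) (by linarith)
    linarith
  · have hy4 : y ∈ ball (pt x) 4 := closedBall_subset_ball (by linarith) hy
    obtain ⟨u1, u2, u3⟩ := hu ((ch x).symm y) (mem_ball.2 ((hL.dist_le hy4).trans_lt (by
      have := mul_le_mul_of_nonneg_left (mem_closedBall_iff_norm.1 hy) hL.pos.le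
      linarith)))
    have u4 := u1.lc two_le_oo he
    refine ⟨u4, u2, ?_⟩
    set p := (ch x).symm y with hp
    have hUc := (hb p).1
    have hU0 : 0 < U p := hc.trans_le hUc
    have e : (pr (fun i j => Stmt.up G i j y) fun i j => Stmt.pd i (Stmt.pd j (loc (ch x) u)) y) =
        wl g U u p / U p ^ 2 - (∑ j, P366Z.bv G j y * Stmt.pd j (loc (ch x) u) y +
          2 / U p * ip g U u p) := by
      have e0 : lap g u p = _ := (lap_rep hg he u1).symm
      rw [hg.wl_eq (hU.sm.diff p) u1, e0, ← P366Z.lap_of_ev (hGe y hy4), hG.lap_eq u4, pr]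
      field_simp
      ring
    have a1 : |wl g U u p / U p ^ 2| ≤ S / c ^ 2 := by
      rw [abs_div, abs_of_pos (pow_pos hU0 2)]
      exact div_le_div₀ hS u3 (by positivity) (pow_le_pow_left₀ hc.le hUc 2)
    have a2 : |∑ j, P366Z.bv G j y * Stmt.pd j (loc (ch x) u) y| ≤
        n * (Λ * ‖fderiv ℝ (loc (ch x) u) y‖) := by
      refine (Finset.abs_sum_le_sum_abs _ _).trans ((Finset.sum_le_card_nsmul _ _
        (Λ * ‖fderiv ℝ (loc (ch x) u) y‖) fun j _ => ?_).trans (by simp))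
      rw [abs_mul]
      exact mul_le_mul (hΛ.bv_bd y j).1 (P366Z.abs_pd_le (P366Z.diff2 u4) j) (abs_nonneg _)
        (by positivity)
    have a0 : gn g u p ≤ Λ * ‖fderiv ℝ (loc (ch x) u) y‖ := by
      rw [hp, ← gn_rep he g (diff2 u1), ← P366Z.gn_of_eq (hGe y hy4).eq_of_nhds]
      exact hΛ.gn_le (P366Z.diff2 u4)
    have a3 : |2 / U p * ip g U u p| ≤ 2 / c * (Λ' * C * (Λ * ‖fderiv ℝ (loc (ch x) u) y‖)) := by
      rw [abs_mul, abs_of_pos (by positivity)]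
      refine mul_le_mul (div_le_div_of_nonneg_left (by norm_num) hc hUc) ((hg.abs_ip_le U u p).trans
        (mul_le_mul ((hΛ'.gn_le (hU.sm.diff p)).trans (mul_le_mul_of_nonneg_left (hb p).2.2.1
          (by positivity))) a0 (gn_nonneg _ _ _) (by positivity)))
        (abs_nonneg _) (by positivity)
    rw [e, hβ]
    refine (abs_sub _ _).trans ?_
    linarith [abs_add_le (∑ j, P366Z.bv G j y * Stmt.pd j (loc (ch x) u) y) (2 / U p * ip g U u p)]
  · have a1 : 4 * Λ * (r / k) * (S / c ^ 2) ≤ 4 * Λ / c ^ 2 * (r * S) := by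
      have := mul_le_mul_of_nonneg_right (hrk.trans (half_le_self hr.le))
        (show 0 ≤ 4 * Λ / c ^ 2 * S by positivity)
      linarith [show 4 * Λ * (r / k) * (S / c ^ 2) = r / k * (4 * Λ / c ^ 2 * S) by ring]
    have a2 : 16 * Λ * (2 * n * Λ + 1) * A / (r / k) = 16 * Λ * (2 * n * Λ + 1) * k * (A / r) := by
      field_simp
    have a3 : 0 ≤ 16 * Λ * (2 * n * Λ + 1) * k * (r * S) := by positivity
    have a4 : 0 ≤ 4 * Λ / c ^ 2 * (A / r) := by positivity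
    linarith

theorem grad : GRAD := fun _ _ _ _ _ _ hn hg hf hU => hU.grad (by omega) hg hf

end Vale.Agent.P366M
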